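import Vale.Agent.P226.S4

/-! The circular-cone bound for first moments of cones in dimension three. -/

open MeasureTheory ProbabilityTheory Set Filter Topology Real
open scoped RealInnerProductSpace ENNReal

namespace Vale.Agent.P226

section
variable {E : Type} [NormedAddCommGroup E] [InnerProductSpace ℝ E] [FiniteDimensional ℝ E]
  [MeasurableSpace E] [BorelSpace E]

def IsConeSet (A : Set E) : Prop := ∀ (r : ℝ) (x : E), 0 < r → (r • x ∈ A ↔ x ∈ A)

lemma cone_vol [Nontrivial E] {A : Set E} (hA : MeasurableSet A) (hc : IsConeSet A) (f : ℝ → ℝ) :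
    ∫ x in A, f ‖x‖ = (volume : Measure E).toSphere.real (Subtype.val ⁻¹' A) *
      ∫ r : Ioi (0:ℝ), f r ∂Measure.volumeIoiPow (Module.finrank ℝ E - 1) := by
  have mA : MeasurableSet (Subtype.val ⁻¹' A : Set (Metric.sphere (0:E) 1)) :=
    hA.preimage measurable_subtype_coe
  have h1 := (volume : Measure E).measurePreserving_homeomorphUnitSphereProd.integral_comp
    (Homeomorph.measurableEmbedding _)
    (fun q => (Subtype.val ⁻¹' A).indicator (fun _ => (1:ℝ)) q.1 * f q.2)
  rw [integral_prod_mul (fun θ => (Subtype.val ⁻¹' A).indicator (fun _ => (1:ℝ)) θ)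
    (fun r : Ioi (0:ℝ) => f r), integral_indicator mA] at h1
  simp only [integral_const, measureReal_restrict_apply_univ, smul_eq_mul, mul_one] at h1
  have h2 : ∫ x : ({(0)}ᶜ : Set E), A.indicator (fun x => f ‖x‖) x.1
      ∂((volume : Measure E).comap (↑)) = ∫ x, A.indicator (fun x => f ‖x‖) x := by
    rw [integral_subtype_comap (measurableSet_singleton _).compl
      (fun x : E => A.indicator (fun x => f ‖x‖) x), restrict_compl_singleton]
  rw [← h1, ← integral_indicator hA, ← h2]
  refine integral_congr_ae (Eventually.of_forall fun x => ?_)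
  have hx : 0 < ‖(x : E)‖ := norm_pos_iff.2 x.2
  have hm : (homeomorphUnitSphereProd E x).1 ∈ (Subtype.val ⁻¹' A) ↔ (x : E) ∈ A := by
    rw [mem_preimage, homeomorphUnitSphereProd_apply_fst_coe]
    exact hc _ _ (by positivity)
  by_cases h : (x : E) ∈ A
  · simp only [indicator_of_mem h, indicator_of_mem (hm.2 h), homeomorphUnitSphereProd_apply_snd_coe,
      one_mul]
  · simp only [indicator_of_notMem h, indicator_of_notMem (fun h' => h (hm.1 h')), zero_mul]

lemma cone_norm (E : Type) [NormedAddCommGroup E] [InnerProductSpace ℝ E] [FiniteDimensional ℝ E]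
    [MeasurableSpace E] [BorelSpace E] [Nontrivial E] : ∃ m : ℝ, ∀ A : Set E, MeasurableSet A →
      IsConeSet A → ∫ x in A, ‖x‖ ∂stdGaussian E = m * (stdGaussian E).real A := by
  obtain ⟨K, hK, hd⟩ := exists_density E
  have key : ∀ (A : Set E), MeasurableSet A → IsConeSet A → ∀ g : ℝ → ℝ,
      ∫ x in A, g ‖x‖ ∂stdGaussian E = (volume : Measure E).toSphere.real (Subtype.val ⁻¹' A) *
        ∫ r : Ioi (0:ℝ), K * Real.exp (-(r:ℝ) ^ 2 / 2) * g r
          ∂Measure.volumeIoiPow (Module.finrank ℝ E - 1) := by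
    intro A hA hc g
    rw [← cone_vol hA hc (fun r => K * Real.exp (-r ^ 2 / 2) * g r), hd,
      setIntegral_withDensity_eq_setIntegral_toReal_smul (by fun_prop) (by simp) _ hA]
    refine integral_congr_ae (Eventually.of_forall fun x => ?_)
    simp only
    rw [ENNReal.toReal_ofReal (by positivity), smul_eq_mul]
  set I0 := ∫ r : Ioi (0:ℝ), K * Real.exp (-(r:ℝ) ^ 2 / 2) * 1
    ∂Measure.volumeIoiPow (Module.finrank ℝ E - 1) with hI0
  have h0 : I0 ≠ 0 := by
    intro h
    have := key univ MeasurableSet.univ (fun _ _ _ => by simp) (fun _ => 1)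
    rw [← hI0, h] at this
    simp at this
  refine ⟨(∫ r : Ioi (0:ℝ), K * Real.exp (-(r:ℝ) ^ 2 / 2) * r
    ∂Measure.volumeIoiPow (Module.finrank ℝ E - 1)) / I0, fun A hA hc => ?_⟩
  have h1 := key A hA hc (fun _ => 1)
  have h2 := key A hA hc (fun r => r)
  simp only [integral_const, measureReal_restrict_apply_univ, smul_eq_mul] at h1
  rw [mul_one, ← hI0] at h1
  rw [h2, h1]; field_simp

end

lemma int_mul_exp {b : ℝ} (hb : 0 < b) :
    IntegrableOn (fun x : ℝ => x * Real.exp (-b * x ^ 2)) (Ioi 0) ∧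
      ∫ x in Ioi (0:ℝ), x * Real.exp (-b * x ^ 2) = 1 / (2 * b) := by
  have hd : ∀ t ∈ Ici (0:ℝ), HasDerivAt (fun t => -Real.exp (-b * t ^ 2) / (2 * b))
      (t * Real.exp (-b * t ^ 2)) t := by
    intro t _
    refine ((((hasDerivAt_pow 2 t).const_mul (-b)).exp.neg).div_const (2 * b)).congr_deriv ?_
    simp; field_simp
  have ht : Tendsto (fun t : ℝ => -Real.exp (-b * t ^ 2) / (2 * b)) atTop (𝓝 (-0 / (2 * b))) := by
    refine (Real.tendsto_exp_atBot.comp ?_).neg.div_const _
    exact (tendsto_pow_atTop two_ne_zero).const_mul_atTop_of_neg (by linarith)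
  have hp : ∀ t ∈ Ioi (0:ℝ), 0 ≤ t * Real.exp (-b * t ^ 2) := fun t ht =>
    mul_nonneg (le_of_lt ht) (Real.exp_pos _).le
  refine ⟨integrableOn_Ioi_deriv_of_nonneg' hd hp ht, ?_⟩
  rw [integral_Ioi_of_hasDerivAt_of_nonneg' hd hp ht]
  simp [neg_div]

abbrev E2 : Type := EuclideanSpace ℝ (Fin 2)
abbrev F3 : Type := WithLp 2 (ℝ × E2)

lemma disc_prob {s : ℝ} (hs : 0 ≤ s) :
    (stdGaussian E2).real {y | ‖y‖ < s} = 1 - Real.exp (-s ^ 2 / 2) := by
  obtain ⟨K, hK, hd⟩ := exists_density E2
  have key : ∀ g : ℝ → ℝ, ∫ x, g ‖x‖ ∂stdGaussian E2 =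
      (2 * (volume : Measure E2).real (Metric.ball 0 1) * K) *
        ∫ y in Ioi (0:ℝ), y * Real.exp (-y ^ 2 / 2) * g y := by
    intro g
    rw [hd, integral_withDensity_eq_integral_toReal_smul (by fun_prop) (by simp)]
    have h1 := integral_fun_norm_addHaar (volume : Measure E2)
      (fun r => K * Real.exp (-r ^ 2 / 2) * g r)
    simp only [finrank_euclideanSpace, Fintype.card_fin, Nat.add_one_sub_one, pow_one,
      smul_eq_mul, nsmul_eq_mul, Nat.cast_ofNat] at h1
    rw [mul_assoc, mul_assoc, ← integral_const_mul K]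
    refine Eq.trans ?_ (h1.trans ?_)
    · refine integral_congr_ae (Eventually.of_forall fun x => ?_)
      simp only
      rw [ENNReal.toReal_ofReal (by positivity), smul_eq_mul]
    · congr 3; ext y; ring
  have h1 := key (fun _ => 1)
  have h2 := (int_mul_exp (b := 1 / 2) (by norm_num)).2
  have h3 : ∫ y in Ioi (0:ℝ), y * Real.exp (-y ^ 2 / 2) * 1 = 1 := by
    rw [show (1:ℝ) / (2 * (1 / 2)) = 1 by norm_num] at h2
    refine Eq.trans ?_ h2
    congr 1; ext y; rw [mul_one]; congr 2; ring
  rw [h3] at h1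
  simp only [integral_const, probReal_univ, smul_eq_mul, mul_one] at h1
  have h4 := key ((Iio s).indicator 1)
  rw [← h1, one_mul] at h4
  have h5 : (stdGaussian E2).real {y | ‖y‖ < s} =
      ∫ x, (Iio s).indicator 1 ‖x‖ ∂stdGaussian E2 := by
    rw [← integral_indicator_one (measurableSet_lt (by fun_prop) measurable_const)]
    rfl
  rw [h5, h4]
  have h6 : ∫ y in Ioi (0:ℝ), y * Real.exp (-y ^ 2 / 2) * (Iio s).indicator 1 y =
      ∫ y in Ioo (0:ℝ) s, y * Real.exp (-y ^ 2 / 2) := by
    rw [← Ioi_inter_Iio, inter_comm, ← setIntegral_indicator measurableSet_Ioi,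
      ← integral_indicator measurableSet_Iio, ← integral_indicator measurableSet_Ioi]
    congr 1; ext y
    by_cases h : y < s <;> by_cases h' : 0 < y <;> simp [indicator, h, h']
  rw [h6, ← integral_Ioc_eq_integral_Ioo, ← intervalIntegral.integral_of_le hs,
    intervalIntegral.integral_eq_sub_of_hasDerivAt (f := fun y => -Real.exp (-y ^ 2 / 2))]
  · simp; ring
  · intro y _
    refine (((hasDerivAt_pow 2 y).neg.div_const 2).exp.neg).congr_deriv ?_
    simp; ring
  · exact Continuous.intervalIntegrable (by fun_prop) _ _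

lemma std_F3 : stdGaussian F3 = (g1.prod (stdGaussian E2)).map (WithLp.toLp 2) := by
  have : IsProbabilityMeasure ((g1.prod (stdGaussian E2)).map (WithLp.toLp 2)) :=
    Measure.isProbabilityMeasure_map (Measurable.aemeasurable (by fun_prop))
  apply Measure.ext_of_charFun
  ext t
  rw [charFun_prod, ← std_real, charFun_stdGaussian, charFun_stdGaussian, charFun_stdGaussian,
    ← Complex.exp_add, ← Complex.ofReal_pow, WithLp.prod_norm_sq_eq_of_L2]
  congr 1
  push_cast
  simp only [WithLp.fst, WithLp.snd]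
  ring

lemma cap_integral {t : ℝ} (h0 : 0 < t) (h1 : t < 1) {f : ℝ → ℝ} (hf : Measurable f)
    (hi : Integrable f g1) :
    ∫ x in {x : F3 | t * ‖x‖ < x.fst}, f x.fst ∂stdGaussian F3 =
      ∫ a in Ioi (0:ℝ), cc * f a * (Real.exp (-(1 / 2) * a ^ 2)
        - Real.exp (-(1 / (2 * t ^ 2)) * a ^ 2)) := by
  have mA : MeasurableSet {x : F3 | t * ‖x‖ < x.fst} :=
    (isOpen_lt (by fun_prop) (by fun_prop)).measurableSet
  have mf : Measurable (fun x : F3 => f x.fst) := hf.comp (Continuous.measurable (by fun_prop))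
  have hi2 : Integrable (fun q : ℝ × E2 => f q.1) (g1.prod (stdGaussian E2)) := hi.comp_fst _
  rw [← integral_indicator mA, std_F3, integral_map (by fun_prop)
    (mf.indicator mA).aestronglyMeasurable, integral_prod]
  swap
  · exact hi2.indicator (mA.preimage (WithLp.measurable_toLp _ _))
  rw [integral_g1, ← integral_indicator measurableSet_Ioi]
  congr 1; ext a
  have ht2 : 0 < 1 - t ^ 2 := by nlinarith
  by_cases ha : 0 < a
  · have hs : ∀ y : E2, (WithLp.toLp 2 (a, y) : F3) ∈ {x : F3 | t * ‖x‖ < x.fst} ↔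
        y ∈ {y : E2 | ‖y‖ < √(1 - t ^ 2) / t * a} := by
      intro y
      simp only [mem_ofPred_eq, WithLp.toLp_fst]
      rw [← sq_lt_sq₀ (by positivity) ha.le, ← sq_lt_sq₀ (norm_nonneg y) (by positivity), mul_pow,
        WithLp.prod_norm_sq_eq_of_L2, mul_pow, div_pow, Real.sq_sqrt ht2.le, div_mul_eq_mul_div,
        lt_div_iff₀ (by positivity)]
      simp only [WithLp.toLp_fst, WithLp.toLp_snd, Real.norm_eq_abs, sq_abs]
      constructor <;> intro h <;> linarith
    have : ∀ y : E2, {x : F3 | t * ‖x‖ < x.fst}.indicator (fun x : F3 => f x.fst)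
        (WithLp.toLp 2 (a, y)) = {y : E2 | ‖y‖ < √(1 - t ^ 2) / t * a}.indicator (fun _ => f a) y := by
      intro y
      by_cases hy : y ∈ {y : E2 | ‖y‖ < √(1 - t ^ 2) / t * a}
      · rw [indicator_of_mem hy, indicator_of_mem ((hs y).2 hy)]; rfl
      · rw [indicator_of_notMem hy, indicator_of_notMem (fun h => hy ((hs y).1 h))]
    simp_rw [this]
    rw [integral_indicator_const _ (measurableSet_lt (by fun_prop) measurable_const),
      disc_prob (by positivity), indicator_of_mem (show a ∈ Ioi 0 from ha), ph, smul_eq_mul,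
      mul_pow, div_pow, Real.sq_sqrt ht2.le]
    have e : Real.exp (-(1 / (2 * t ^ 2)) * a ^ 2) =
        Real.exp (-a ^ 2 / 2) * Real.exp (-((1 - t ^ 2) / t ^ 2 * a ^ 2) / 2) := by
      rw [← Real.exp_add]; congr 1; field_simp; ring
    rw [e, show -(1 / 2) * a ^ 2 = -a ^ 2 / 2 by ring]; ring
  · have : ∀ y : E2, {x : F3 | t * ‖x‖ < x.fst}.indicator (fun x : F3 => f x.fst)
        (WithLp.toLp 2 (a, y)) = 0 := by
      intro y
      refine indicator_of_notMem (fun h => ha ?_) _
      exact lt_of_le_of_lt (by positivity) h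
    simp_rw [this]
    rw [indicator_of_notMem (show a ∉ Ioi 0 from ha)]; simp

lemma cap_prob {t : ℝ} (h0 : 0 < t) (h1 : t < 1) :
    (stdGaussian F3).real {x : F3 | t * ‖x‖ < x.fst} = (1 - t) / 2 := by
  have h := cap_integral h0 h1 (f := fun _ => 1) measurable_const (integrable_const _)
  simp only [integral_const, measureReal_restrict_apply_univ, smul_eq_mul, mul_one] at h
  rw [h, integral_const_mul, integral_sub (integrable_exp_neg_mul_sq (by norm_num)).integrableOn
    (integrable_exp_neg_mul_sq (by positivity)).integrableOn, integral_gaussian_Ioi,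
    integral_gaussian_Ioi, show π / (1 / 2) = 2 * π by ring,
    show π / (1 / (2 * t ^ 2)) = 2 * π * t ^ 2 by field_simp,
    Real.sqrt_mul (by positivity) (t ^ 2), Real.sqrt_sq h0.le, cc]
  have : 0 < √(2 * π) := by positivity
  field_simp

lemma cap_moment {t : ℝ} (h0 : 0 < t) (h1 : t < 1) :
    ∫ x in {x : F3 | t * ‖x‖ < x.fst}, x.fst ∂stdGaussian F3 = cc * (1 - t ^ 2) := by
  have h := cap_integral h0 h1 (f := fun a => a) measurable_id IsGaussian.integrable_fun_id
  obtain ⟨i1, j1⟩ := int_mul_exp (b := 1 / 2) (by norm_num)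
  obtain ⟨i2, j2⟩ := int_mul_exp (b := 1 / (2 * t ^ 2)) (by positivity)
  rw [h]
  simp_rw [mul_assoc cc, mul_sub]
  rw [← mul_sub, integral_sub (i1.const_mul cc) (i2.const_mul cc), integral_const_mul,
    integral_const_mul, j1, j2]
  field_simp

lemma cap3 {A : Set F3} (hA : MeasurableSet A) (hc : IsConeSet A)
    (h0 : 0 < (stdGaussian F3).real A) (h1 : (stdGaussian F3).real A < 1 / 2) :
    ∫ x in A, x.fst ∂stdGaussian F3 ≤
      4 * cc * ((stdGaussian F3).real A * (1 - (stdGaussian F3).real A)) := by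
  obtain ⟨m, hm⟩ := cone_norm F3
  set p := (stdGaussian F3).real A with hp
  set t := 1 - 2 * p with ht
  have t0 : 0 < t := by linarith
  have t1 : t < 1 := by linarith
  set B := {x : F3 | t * ‖x‖ < x.fst} with hB
  have mB : MeasurableSet B := (isOpen_lt (by fun_prop) (by fun_prop)).measurableSet
  have cB : IsConeSet B := by
    intro r x hr
    simp only [hB, mem_ofPred_eq, norm_smul, Real.norm_eq_abs, abs_of_pos hr, WithLp.smul_fst,
      smul_eq_mul]
    rw [mul_left_comm, mul_lt_mul_iff_right₀ hr]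
  have i1 : Integrable (fun x : F3 => x.fst) (stdGaussian F3) :=
    (IsGaussian.integrable_fun_id (μ := stdGaussian F3)).norm.mono'
      (Continuous.aestronglyMeasurable (by fun_prop))
      (Eventually.of_forall fun x => WithLp.norm_fst_le _ x)
  have i2 : Integrable (fun x : F3 => t * ‖x‖) (stdGaussian F3) :=
    (IsGaussian.integrable_fun_id (μ := stdGaussian F3)).norm.const_mul t
  have h2 : ∫ x in A, (x.fst - t * ‖x‖) ∂stdGaussian F3 ≤
      ∫ x in B, (x.fst - t * ‖x‖) ∂stdGaussian F3 := by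
    rw [← integral_indicator hA, ← integral_indicator mB]
    refine integral_mono ((i1.sub i2).indicator hA) ((i1.sub i2).indicator mB) fun x => ?_
    by_cases ha : x ∈ A <;> by_cases hb : x ∈ B <;>
      simp only [indicator, ha, hb, if_true, if_false, le_refl]
    · exact sub_nonpos.2 (not_lt.1 hb)
    · exact sub_nonneg.2 (le_of_lt hb)
  rw [integral_sub i1.restrict i2.restrict, integral_sub i1.restrict i2.restrict,
    integral_const_mul, integral_const_mul, hm A hA hc, hm B mB cB, cap_prob t0 t1,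
    cap_moment t0 t1, ← hp, show (1 - t) / 2 = p by rw [ht]; ring] at h2
  rw [show 4 * cc * (p * (1 - p)) = cc * (1 - t ^ 2) by rw [ht]; ring]
  linarith

variable {E : Type} [NormedAddCommGroup E] [InnerProductSpace ℝ E] [FiniteDimensional ℝ E]
  [MeasurableSpace E] [BorelSpace E] {ι : Type} [Fintype ι] [DecidableEq ι] {z : ι → E}

lemma Crit.cap (h : Crit z) (hk : Fintype.card ι = 4) (i : ι)
    (hp : (stdGaussian E).real (cell z i) < 1 / 2) :
    ‖z i‖ ≤ 4 * cc * ((stdGaussian E).real (cell z i) * (1 - (stdGaussian E).real (cell z i))) := by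
  set V := Submodule.span ℝ (range fun j : {j // j ≠ i} => z i - z j) with hV
  have dV : Module.finrank ℝ V = 3 := by
    rw [hV, finrank_span_eq_card (h.li i), Fintype.card_subtype_compl, hk]; simp
  have dF : Module.finrank ℝ F3 = 3 := by
    rw [(WithLp.linearEquiv 2 ℝ (ℝ × E2)).finrank_eq]; simp
  have dj : ∀ j, j ≠ i → z i - z j ∈ V := fun j hj => Submodule.subset_span ⟨⟨j, hj⟩, rfl⟩
  have zi : z i ∈ V := by
    have h1 : ∑ j, (z i - z j) ∈ V := V.sum_mem fun j _ => by
      by_cases hj : j = i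
      · simp [hj]
      · exact dj j hj
    rw [Finset.sum_sub_distrib, h.sum, sub_zero, Finset.sum_const, Finset.card_univ, hk,
      ← Nat.cast_smul_eq_nsmul ℝ] at h1
    have := V.smul_mem (4:ℝ)⁻¹ h1
    rwa [smul_smul, Nat.cast_ofNat, inv_mul_cancel₀ (by norm_num), one_smul] at this
  have z0 : z i ≠ 0 := fun h0 => by simpa [h0] using h.sq_pos (by omega) i
  set e : V := ⟨‖z i‖⁻¹ • z i, V.smul_mem _ zi⟩ with he
  have ne : ‖e‖ = 1 := norm_normalize z0
  set f : F3 := WithLp.toLp 2 (1, 0) with hf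
  have nf : ‖f‖ = 1 := by
    have := WithLp.prod_norm_sq_eq_of_L2 f
    simp only [hf, WithLp.toLp_fst, WithLp.toLp_snd, norm_one, norm_zero] at this
    have h2 := norm_nonneg f
    nlinarith
  obtain ⟨T, hT⟩ : ∃ T : V ≃ₗᵢ[ℝ] F3, T e = f := by
    let T0 := (stdOrthonormalBasis ℝ V).equiv (stdOrthonormalBasis ℝ F3)
      (finCongr (dV.trans dF.symm))
    exact ⟨T0.trans (Submodule.reflection (ℝ ∙ (T0 e - f))ᗮ),
      Submodule.reflection_sub (by rw [T0.norm_map, ne, nf])⟩
  set P : E → F3 := fun x => T (V.orthogonalProjectionOnto x) with hP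
  have mP : Measurable P := Continuous.measurable (by fun_prop)
  have adj : ∀ s x, ⟪P x, s⟫ = ⟪x, (T.symm s : E)⟫ := fun s x => by
    rw [← Submodule.inner_orthogonalProjectionOnto_eq_of_mem_right, ← T.inner_map_map,
      T.apply_symm_apply]
  have hpush := push (fun s : F3 => (T.symm s : E)) P mP adj
    (fun s => T.symm.norm_map s)
  set A : Set F3 := {s | ∀ j, j ≠ i → 0 < ⟪z i - z j, (T.symm s : E)⟫} with hA
  have oA : IsOpen A := by
    have : A = ⋂ j, ⋂ (_ : j ≠ i), {s : F3 | 0 < ⟪z i - z j, (T.symm s : E)⟫} := by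
      ext x; simp [hA]
    rw [this]
    exact isOpen_iInter_of_finite fun j => isOpen_iInter_of_finite fun _ =>
      isOpen_lt (by fun_prop) (by fun_prop)
  have cA : IsConeSet A := by
    intro r x hr
    simp only [hA, mem_ofPred_eq, map_smul, Submodule.coe_smul, inner_smul_right,
      mul_pos_iff_of_pos_left hr]
  have pre : P ⁻¹' A = cell z i := by
    ext x
    simp only [hA, hP, mem_preimage, mem_ofPred_eq, T.symm_apply_apply, cell]
    refine forall_congr' fun j => forall_congr' fun hj => ?_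
    have := Submodule.inner_orthogonalProjectionOnto_eq_of_mem_left (K := V) ⟨_, dj j hj⟩ x
    rw [Submodule.coe_inner] at this
    rw [this, inner_sub_left, sub_pos]
  have hpA : (stdGaussian F3).real A = (stdGaussian E).real (cell z i) := by
    rw [← hpush, map_measureReal_apply mP oA.measurableSet, pre]
  have h1 := cap3 oA.measurableSet cA (hpA ▸ h.p_pos (by omega) i) (hpA ▸ hp)
  rw [hpA, ← hpush, setIntegral_map oA.measurableSet
    (Continuous.aestronglyMeasurable (by fun_prop)) mP.aemeasurable, pre] at h1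
  refine le_trans (le_of_eq ?_) h1
  have h2 : ∀ x, (P x).fst = ⟪‖z i‖⁻¹ • z i, x⟫ := fun x => by
    have : (P x).fst = ⟪P x, f⟫ := by simp [hf, WithLp.prod_inner_apply]
    rw [this, adj, ← hT, T.symm_apply_apply, real_inner_comm]
  simp_rw [h2]
  rw [integral_inner IsGaussian.integrable_fun_id.restrict, h.mom, inner_smul_left,
    real_inner_self_eq_norm_sq]
  have := norm_ne_zero_iff.2 z0
  simp; field_simp

end Vale.Agent.P226
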