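import Vale.Agent.P226.G1

/-! The three-term convexity lemma behind the Ehrhard inequality for intervals. -/

open MeasureTheory ProbabilityTheory Set Filter Topology Real

namespace Vale.Agent.P226

lemma key_aux {u1 u2 u3 w1 w2 w3 : ℝ} (h1 : u1 < 0) (h2 : u2 < 0)
    (hs : Ph u1 + Ph u2 + Ph u3 = 1) (hw : ph u1 * w1 + ph u2 * w2 + ph u3 * w3 = 0)
    (hne : ¬ (w1 = 0 ∧ w2 = 0 ∧ w3 = 0)) :
    u1 * ph u1 * w1 ^ 2 + u2 * ph u2 * w2 ^ 2 + u3 * ph u3 * w3 ^ 2 < 0 := by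
  have p1 := ph_pos u1
  have p2 := ph_pos u2
  have p3 := ph_pos u3
  have hS : 0 < -u1 * ph u1 * w1 ^ 2 + -u2 * ph u2 * w2 ^ 2 := by
    have a1 : 0 < -u1 * ph u1 := mul_pos (by linarith) p1
    have a2 : 0 < -u2 * ph u2 := mul_pos (by linarith) p2
    by_cases hw1 : w1 = 0
    · by_cases hw2 : w2 = 0
      · exfalso; apply hne
        refine ⟨hw1, hw2, ?_⟩
        rw [hw1, hw2] at hw
        simpa [p3.ne'] using hw
      · have : 0 < w2 ^ 2 := by positivity
        have := mul_pos a2 this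
        have := mul_nonneg a1.le (sq_nonneg w1)
        linarith
    · have : 0 < w1 ^ 2 := by positivity
      have := mul_pos a1 this
      have := mul_nonneg a2.le (sq_nonneg w2)
      linarith
  rcases le_or_gt u3 0 with h3 | h3
  · have : u3 * ph u3 * w3 ^ 2 ≤ 0 :=
      mul_nonpos_of_nonpos_of_nonneg (mul_nonpos_of_nonpos_of_nonneg h3 p3.le) (sq_nonneg _)
    linarith
  · have hv : Ph (-u3) = Ph u1 + Ph u2 := by rw [Ph_neg]; linarith
    have l1 : u1 < -u3 := strictMono_Ph.lt_iff_lt.1 (by have := Ph_pos u2; linarith)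
    have l2 : u2 < -u3 := strictMono_Ph.lt_iff_lt.1 (by have := Ph_pos u1; linarith)
    have m1 := mul_Ph_lt l1
    have m2 := mul_Ph_lt l2
    rw [ph_neg] at m1 m2
    set x1 := -u1 with hx1
    set x2 := -u2 with hx2
    have e1 : u1 = -x1 := by linarith
    have e2 : u2 = -x2 := by linarith
    have y1 : 0 < x1 := by linarith
    have y2 : 0 < x2 := by linarith
    have P := Ph_pos (-u3)
    -- u3 * (ph u1 / x1 + ph u2 / x2) < ph u3
    have hG : u3 * (ph u1 / x1 + ph u2 / x2) < ph u3 := by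
      have g1 : u3 * (ph u1 / x1) * Ph (-u3) < ph u3 * Ph u1 := by
        rw [show u3 * (ph u1 / x1) * Ph (-u3) = u3 * Ph (-u3) * ph u1 / x1 by ring,
          div_lt_iff₀ y1]
        nlinarith
      have g2 : u3 * (ph u2 / x2) * Ph (-u3) < ph u3 * Ph u2 := by
        rw [show u3 * (ph u2 / x2) * Ph (-u3) = u3 * Ph (-u3) * ph u2 / x2 by ring,
          div_lt_iff₀ y2]
        nlinarith
      have : u3 * (ph u1 / x1 + ph u2 / x2) * Ph (-u3) < ph u3 * Ph (-u3) := by
        rw [hv] at *; nlinarith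
      exact lt_of_mul_lt_mul_right this P.le
    have hCS : (ph u1 * w1 + ph u2 * w2) ^ 2 ≤
        (ph u1 / x1 + ph u2 / x2) * (x1 * ph u1 * w1 ^ 2 + x2 * ph u2 * w2 ^ 2) := by
      have : (ph u1 / x1 + ph u2 / x2) * (x1 * ph u1 * w1 ^ 2 + x2 * ph u2 * w2 ^ 2)
          - (ph u1 * w1 + ph u2 * w2) ^ 2
          = ph u1 * ph u2 / (x1 * x2) * (x1 * w1 - x2 * w2) ^ 2 := by
        field_simp; ring
      have h' : 0 ≤ ph u1 * ph u2 / (x1 * x2) * (x1 * w1 - x2 * w2) ^ 2 := by positivity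
      linarith
    have h4 : (ph u3 * w3) ^ 2 = (ph u1 * w1 + ph u2 * w2) ^ 2 := by
      rw [show ph u3 * w3 = -(ph u1 * w1 + ph u2 * w2) by linarith]; ring
    have h5 : ph u3 * (u3 * ph u3 * w3 ^ 2) <
        ph u3 * (x1 * ph u1 * w1 ^ 2 + x2 * ph u2 * w2 ^ 2) := by
      calc ph u3 * (u3 * ph u3 * w3 ^ 2) = u3 * (ph u3 * w3) ^ 2 := by ring
        _ ≤ u3 * ((ph u1 / x1 + ph u2 / x2) * (x1 * ph u1 * w1 ^ 2 + x2 * ph u2 * w2 ^ 2)) := by
          rw [h4]; exact mul_le_mul_of_nonneg_left hCS h3.le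
        _ < _ := by rw [← mul_assoc]; exact mul_lt_mul_of_pos_right hG hS
    have h6 := lt_of_mul_lt_mul_left h5 p3.le
    rw [hx1, hx2] at h6
    linarith

lemma key_ineq {u1 u2 u3 w1 w2 w3 : ℝ}
    (hs : Ph u1 + Ph u2 + Ph u3 = 1) (hw : ph u1 * w1 + ph u2 * w2 + ph u3 * w3 = 0)
    (hne : ¬ (w1 = 0 ∧ w2 = 0 ∧ w3 = 0)) :
    u1 * ph u1 * w1 ^ 2 + u2 * ph u2 * w2 ^ 2 + u3 * ph u3 * w3 ^ 2 < 0 := by
  have hh : ∀ u, 0 ≤ u → 1 / 2 ≤ Ph u := fun u hu => Ph_zero ▸ strictMono_Ph.monotone hu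
  have q1 := Ph_pos u1
  have q2 := Ph_pos u2
  have q3 := Ph_pos u3
  by_cases h1 : u1 < 0
  · by_cases h2 : u2 < 0
    · exact key_aux h1 h2 hs hw hne
    · have h3 : u3 < 0 := by
        by_contra h3
        have := hh u2 (not_lt.1 h2); have := hh u3 (not_lt.1 h3); linarith
      have := key_aux (u3 := u2) (w1 := w1) (w2 := w3) (w3 := w2) h1 h3 (by linarith) (by linarith)
        (by tauto)
      linarith
  · have h2 : u2 < 0 := by
      by_contra h2
      have := hh u1 (not_lt.1 h1); have := hh u2 (not_lt.1 h2); linarith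
    have h3 : u3 < 0 := by
      by_contra h3
      have := hh u1 (not_lt.1 h1); have := hh u3 (not_lt.1 h3); linarith
    have := key_aux (u3 := u1) (w1 := w2) (w2 := w3) (w3 := w1) h2 h3 (by linarith) (by linarith)
      (by tauto)
    linarith

/-- one-sided derivative test -/
lemma deriv_nonneg_of_right {f : ℝ → ℝ} {f' x : ℝ} (hf : HasDerivAt f f' x)
    (h : ∀ᶠ y in 𝓝[>] x, f x ≤ f y) : 0 ≤ f' := by
  have ht := (hasDerivAt_iff_tendsto_slope_left_right.1 hf).2
  refine ge_of_tendsto ht ?_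
  filter_upwards [h, self_mem_nhdsWithin] with y hy hy'
  rw [slope_def_field]
  exact div_nonneg (by linarith) (by simp at hy'; linarith)

lemma three_convex {u1 u2 u3 w1 w2 w3 t : ℝ} (h0 : Ph u1 + Ph u2 + Ph u3 < 1)
    (h1 : Ph (u1 + w1) + Ph (u2 + w2) + Ph (u3 + w3) < 1) (ht0 : 0 ≤ t) (ht1 : t ≤ 1) :
    Ph (u1 + t * w1) + Ph (u2 + t * w2) + Ph (u3 + t * w3) < 1 := by
  by_contra hcon
  push Not at hcon
  set f : ℝ × ℝ → ℝ := fun q => Ph (u1 + q.1 * w1 - q.2) + Ph (u2 + q.1 * w2 - q.2)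
    + Ph (u3 + q.1 * w3 - q.2) with hf
  have fc : Continuous f := by have := continuous_Ph; fun_prop
  obtain ⟨b, hb⟩ := (tendsto_Ph_atBot.eventually (gt_mem_nhds (show (0:ℝ) < 1 / 3 by norm_num))).exists
  set M : ℝ := |u1| + |w1| + |u2| + |w2| + |u3| + |w3| + |b| with hM
  have hM0 : 0 ≤ M := by positivity
  have hlow : ∀ u w l : ℝ, 0 ≤ l → l ≤ 1 → |u| + |w| + |b| ≤ M → Ph (u + l * w - M) < 1 / 3 := by
    intro u w l hl0 hl1 hh
    refine lt_of_le_of_lt (strictMono_Ph.monotone ?_) hb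
    have := le_abs_self u
    have := neg_abs_le b
    have : l * w ≤ |w| := by
      have := le_abs_self w
      have := abs_nonneg w
      nlinarith
    linarith
  set K : Set (ℝ × ℝ) := (Icc 0 1 ×ˢ Icc 0 M) ∩ {q | 1 ≤ f q} with hK
  have Kc : IsCompact K := (isCompact_Icc.prod isCompact_Icc).inter_right
    (isClosed_le continuous_const fc)
  have Kne : K.Nonempty := ⟨(t, 0), ⟨⟨ht0, ht1⟩, ⟨le_rfl, hM0⟩⟩, by simpa [hf] using hcon⟩
  obtain ⟨⟨l0, τ0⟩, ⟨⟨hl0, hτ0⟩, hq⟩, hmax⟩ := Kc.exists_isMaxOn Kne continuous_snd.continuousOn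
  simp only [mem_ofPred_eq] at hq hl0 hτ0
  have hτM : τ0 < M := by
    refine lt_of_le_of_ne hτ0.2 fun h => ?_
    have a1 := hlow u1 w1 l0 hl0.1 hl0.2 (by
      rw [hM]; have := abs_nonneg u2; have := abs_nonneg w2; have := abs_nonneg u3
      have := abs_nonneg w3; linarith)
    have a2 := hlow u2 w2 l0 hl0.1 hl0.2 (by
      rw [hM]; have := abs_nonneg u1; have := abs_nonneg w1; have := abs_nonneg u3
      have := abs_nonneg w3; linarith)
    have a3 := hlow u3 w3 l0 hl0.1 hl0.2 (by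
      rw [hM]; have := abs_nonneg u2; have := abs_nonneg w2; have := abs_nonneg u1
      have := abs_nonneg w1; linarith)
    simp only [hf, h] at hq
    linarith
  have hle : ∀ l ∈ Icc (0:ℝ) 1, f (l, τ0) ≤ 1 := by
    intro l hl
    by_contra hc
    push Not at hc
    have h1 : ∀ᶠ τ in 𝓝 τ0, 1 < f (l, τ) :=
      ((fc.comp (Continuous.prodMk_right l)).continuousAt (x := τ0)).eventually (lt_mem_nhds hc)
    have h2 : ∀ᶠ τ in 𝓝[>] τ0, 1 < f (l, τ) ∧ τ < M :=
      (h1.and (gt_mem_nhds hτM)).filter_mono nhdsWithin_le_nhds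
    obtain ⟨τ, ⟨h3, h4⟩, h5⟩ := (h2.and self_mem_nhdsWithin).exists
    have h5' : τ0 < τ := h5
    have := hmax (show (l, τ) ∈ K from ⟨⟨hl, ⟨by linarith [hτ0.1], h4.le⟩⟩, h3.le⟩)
    simp at this; linarith
  have heq : f (l0, τ0) = 1 := le_antisymm (hle l0 hl0) hq
  have mono : ∀ x, Ph (x - τ0) ≤ Ph x := fun x => strictMono_Ph.monotone (by linarith [hτ0.1])
  have hl0' : l0 ≠ 0 := by
    rintro rfl
    simp only [hf, zero_mul, add_zero] at heq
    have := mono u1; have := mono u2; have := mono u3; linarith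
  have hl1' : l0 ≠ 1 := by
    rintro rfl
    simp only [hf, one_mul] at heq
    have := mono (u1 + w1); have := mono (u2 + w2); have := mono (u3 + w3); linarith
  have hin : Icc (0:ℝ) 1 ∈ 𝓝 l0 :=
    Icc_mem_nhds (lt_of_le_of_ne hl0.1 hl0'.symm) (lt_of_le_of_ne hl0.2 hl1')
  set g : ℝ → ℝ := fun l => f (l, τ0) with hg
  set g' : ℝ → ℝ := fun l => ph (u1 + l * w1 - τ0) * w1 + ph (u2 + l * w2 - τ0) * w2
    + ph (u3 + l * w3 - τ0) * w3 with hg'
  have lin : ∀ u w l : ℝ, HasDerivAt (fun l => u + l * w - τ0) w l := fun u w l => by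
    simpa using (((hasDerivAt_id l).mul_const w).const_add u).sub_const τ0
  have gd : ∀ l, HasDerivAt g (g' l) l := fun l =>
    (((hasDerivAt_Ph _).comp l (lin u1 w1 l)).add ((hasDerivAt_Ph _).comp l (lin u2 w2 l))).add
      ((hasDerivAt_Ph _).comp l (lin u3 w3 l))
  have hlm : IsLocalMax g l0 := by
    filter_upwards [hin] with l hl
    simp only [hg]; rw [heq]; exact hle l hl
  have g0 : g' l0 = 0 := hlm.hasDerivAt_eq_zero (gd l0)
  have hne : ¬ (w1 = 0 ∧ w2 = 0 ∧ w3 = 0) := by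
    rintro ⟨rfl, rfl, rfl⟩
    simp only [hf, mul_zero, add_zero] at heq
    have := mono u1; have := mono u2; have := mono u3; linarith
  have hk := key_ineq (u1 := u1 + l0 * w1 - τ0) (u2 := u2 + l0 * w2 - τ0)
    (u3 := u3 + l0 * w3 - τ0) heq g0 hne
  have gdd : HasDerivAt g' (-((u1 + l0 * w1 - τ0) * ph (u1 + l0 * w1 - τ0) * w1 ^ 2
      + (u2 + l0 * w2 - τ0) * ph (u2 + l0 * w2 - τ0) * w2 ^ 2
      + (u3 + l0 * w3 - τ0) * ph (u3 + l0 * w3 - τ0) * w3 ^ 2)) l0 := by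
    refine (((((hasDerivAt_ph _).comp l0 (lin u1 w1 l0)).mul_const w1).add
      (((hasDerivAt_ph _).comp l0 (lin u2 w2 l0)).mul_const w2)).add
      (((hasDerivAt_ph _).comp l0 (lin u3 w3 l0)).mul_const w3)).congr_deriv ?_
    ring
  -- g' is positive just to the right of l0
  have hpos : ∀ᶠ l in 𝓝[>] l0, 0 < g' l := by
    have ht := (hasDerivAt_iff_tendsto_slope_left_right.1 gdd).2
    filter_upwards [ht.eventually (lt_mem_nhds (show (0:ℝ) < _ by linarith)),
      self_mem_nhdsWithin] with l hl hl'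
    rw [slope_def_field, g0, sub_zero] at hl
    have : 0 < l - l0 := by simp at hl'; linarith
    exact (div_pos_iff_of_pos_right this).1 hl
  obtain ⟨r, hr, hsub⟩ := (mem_nhdsGT_iff_exists_Ioo_subset).1
    (hpos.and (hlm.filter_mono nhdsWithin_le_nhds))
  have hr' : l0 < r := hr
  obtain ⟨c, hc, hc'⟩ := exists_hasDerivAt_eq_slope g g' (show l0 < (l0 + r) / 2 by linarith)
    (fun x _ => (gd x).continuousAt.continuousWithinAt) (fun x _ => gd x)
  have b1 := (hsub (show c ∈ Ioo l0 r from ⟨hc.1, by linarith [hc.2]⟩)).1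
  have b2 := (hsub (show (l0 + r) / 2 ∈ Ioo l0 r from ⟨by linarith, by linarith⟩)).2
  rw [hc'] at b1
  have := (div_pos_iff_of_pos_right (by linarith)).1 b1
  linarith

/-- Gaussian isoperimetry for intervals. -/
lemma three_recede {u1 u2 u3 b : ℝ} (h0 : Ph u1 + Ph u2 + Ph u3 < 1) (hb : 0 ≤ b) :
    Ph (u1 - b) + Ph (u2 - b) + Ph (u3 + b) < 1 := by
  have hc : ∀ᶠ s in 𝓝 u3, Ph u1 + Ph u2 + Ph s < 1 :=
    (continuous_const.add continuous_Ph).continuousAt.eventually (gt_mem_nhds h0)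
  obtain ⟨s, hs, hs'⟩ := ((hc.filter_mono nhdsWithin_le_nhds).and
    (self_mem_nhdsWithin (a := u3) (s := Ioi u3))).exists
  have hs'' : u3 < s := hs'
  have hd : ∀ t, HasDerivAt (fun t => Ph (u1 - t) + Ph (u2 - t) + Ph (s + t))
      (ph (s + t) - ph (u1 - t) - ph (u2 - t)) t := fun t => by
    refine ((((hasDerivAt_Ph _).comp t ((hasDerivAt_id t).const_sub u1)).add
      ((hasDerivAt_Ph _).comp t ((hasDerivAt_id t).const_sub u2))).add
      ((hasDerivAt_Ph _).comp t ((hasDerivAt_id t).const_add s))).congr_deriv ?_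
    simp; ring
  have := image_le_of_deriv_right_lt_deriv_boundary (a := 0) (b := b) (B := fun _ => 1)
    (B' := fun _ => 0) (fun t _ => (hd t).continuousAt.continuousWithinAt)
    (fun t _ => (hd t).hasDerivWithinAt) (by simpa using hs.le) (fun x => hasDerivAt_const x 1)
    (fun t _ ht => by
      have hv : Ph (-(s + t)) = Ph (u1 - t) + Ph (u2 - t) := by rw [Ph_neg]; linarith
      have l1 : u1 - t < -(s + t) :=
        strictMono_Ph.lt_iff_lt.1 (by have := Ph_pos (u2 - t); linarith)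
      have l2 : u2 - t < -(s + t) :=
        strictMono_Ph.lt_iff_lt.1 (by have := Ph_pos (u1 - t); linarith)
      have m1 := ph_mul_Ph_lt l1
      have m2 := ph_mul_Ph_lt l2
      rw [ph_neg] at m1 m2
      have P := Ph_pos (-(s + t))
      have : ph (s + t) * Ph (-(s + t)) < (ph (u1 - t) + ph (u2 - t)) * Ph (-(s + t)) := by
        nth_rewrite 1 [hv]; nlinarith
      have := lt_of_mul_lt_mul_right this P.le
      linarith) (show b ∈ Icc 0 b from ⟨hb, le_rfl⟩)
  have h2 : Ph (u3 + b) < Ph (s + b) := strictMono_Ph (by linarith)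
  linarith

end Vale.Agent.P226
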