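import Vale.Agent.P226.E1

/-! The Ehrhard inequality for sections of open convex sets, by Gaussian symmetrization. -/

open MeasureTheory ProbabilityTheory Set Filter Topology Real

namespace Vale.Agent.P226

def Sym {V X : Type} [MeasurableSpace X] (μ : Measure X) (C : Set (V × X)) : Set (V × ℝ) :=
  {q | Ph q.2 < μ.real {x | (q.1, x) ∈ C}}

def Ehr (X : Type) [NormedAddCommGroup X] [NormedSpace ℝ X] [MeasurableSpace X]
    (μ : Measure X) : Prop :=
  ∀ (V : Type) [NormedAddCommGroup V] [NormedSpace ℝ V] (C : Set (V × X)),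
    IsOpen C → Convex ℝ C → Convex ℝ (Sym μ C)

lemma lsc {V X : Type} [TopologicalSpace V] [TopologicalSpace X] [MeasurableSpace X]
    (μ : Measure X) [IsFiniteMeasure μ] [μ.Regular] {C : Set (V × X)} (hC : IsOpen C) {y : V}
    {r : ℝ} (hr : r < μ.real {x | (y, x) ∈ C}) :
    ∀ᶠ y' in 𝓝 y, r < μ.real {x | (y', x) ∈ C} := by
  rcases lt_or_ge r 0 with h0 | h0
  · exact Eventually.of_forall fun _ => h0.trans_le measureReal_nonneg
  have ho : IsOpen {x | (y, x) ∈ C} := hC.preimage (Continuous.prodMk_right y)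
  have h1 : ENNReal.ofReal r < μ {x | (y, x) ∈ C} :=
    (ENNReal.ofReal_lt_iff_lt_toReal h0 (measure_ne_top _ _)).2 hr
  obtain ⟨K, hK, hKc, hK'⟩ := ho.exists_lt_isCompact h1
  have := hKc.eventually_forall_of_forall_eventually (x₀ := y) (P := fun y' x => (y', x) ∈ C)
    (fun x hx => hC.mem_nhds (hK hx))
  filter_upwards [this] with y' hy'
  exact (ENNReal.ofReal_lt_iff_lt_toReal h0 (measure_ne_top _ _)).1
    (hK'.trans_le (measure_mono hy'))

lemma isOpen_Sym {V X : Type} [TopologicalSpace V] [TopologicalSpace X] [MeasurableSpace X]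
    (μ : Measure X) [IsFiniteMeasure μ] [μ.Regular] {C : Set (V × X)} (hC : IsOpen C) :
    IsOpen (Sym μ C) := by
  rw [isOpen_iff_mem_nhds]
  rintro ⟨y, s⟩ hq
  obtain ⟨r, hr1, hr2⟩ := exists_between (show Ph s < μ.real {x | (y, x) ∈ C} from hq)
  have h1 := lsc μ hC hr2
  have h2 : ∀ᶠ s' in 𝓝 s, Ph s' < r := continuous_Ph.continuousAt.eventually (gt_mem_nhds hr1)
  rw [nhds_prod_eq]
  filter_upwards [h1.prod_mk h2] with q hq using hq.2.trans hq.1

lemma g1_sub {m : ℝ} (h0 : 0 ≤ m) (h1 : m ≤ 1) : g1 {s | Ph s < m} = ENNReal.ofReal m := by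
  rcases h0.eq_or_lt with rfl | h0
  · have : {s | Ph s < 0} = ∅ := by
      ext s; simp [Ph_nonneg s]
    simp [this]
  rcases h1.eq_or_lt with rfl | h1
  · have : {s | Ph s < 1} = univ := by
      ext s; simp [Ph_lt_one s]
    simp [this]
  obtain ⟨a, rfl⟩ := exists_Ph h0 h1
  have : {s | Ph s < Ph a} = Iio a := by
    ext s; simp [strictMono_Ph.lt_iff_lt]
  rw [this, g1_Iio]

lemma exists_Icc {I : Set ℝ} (hI : IsOpen I) {s : ℝ} (hs : Ph s < g1.real I) :
    ∃ α ∈ I, ∃ β ∈ I, α ≤ β ∧ Ph α + Ph (-β) + Ph s < 1 := by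
  have h1 : ENNReal.ofReal (Ph s) < g1 I :=
    (ENNReal.ofReal_lt_iff_lt_toReal (Ph_nonneg s) (measure_ne_top _ _)).2 hs
  obtain ⟨K, hK, hKc, hK'⟩ := hI.exists_lt_isCompact h1
  have hne : K.Nonempty := by
    rw [Set.nonempty_iff_ne_empty]; rintro rfl; simp at hK'
  have hsub : K ⊆ Icc (sInf K) (sSup K) := fun x hx =>
    ⟨csInf_le hKc.bddBelow hx, le_csSup hKc.bddAbove hx⟩
  have hle : sInf K ≤ sSup K := (hsub hne.some_mem).1.trans (hsub hne.some_mem).2
  refine ⟨sInf K, hK (hKc.sInf_mem hne), sSup K, hK (hKc.sSup_mem hne), hle, ?_⟩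
  have h2 := (ENNReal.ofReal_lt_iff_lt_toReal (Ph_nonneg s) (measure_ne_top _ _)).1
    (hK'.trans_le (measure_mono hsub))
  have h3 := g1_real_Icc hle
  rw [Measure.real] at h3
  rw [Ph_neg]; linarith

lemma lt_of_Icc {I : Set ℝ} (hI : Convex ℝ I) {α β s : ℝ} (ha : α ∈ I) (hb : β ∈ I) (h : α ≤ β)
    (hs : Ph α + Ph (-β) + Ph s < 1) : Ph s < g1.real I := by
  have h1 : g1.real (Icc α β) ≤ g1.real I :=
    measureReal_mono (hI.ordConnected.out ha hb)
  rw [g1_real_Icc h] at h1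
  rw [Ph_neg] at hs; linarith

lemma convex_section {V X : Type} [AddCommGroup V] [Module ℝ V] [AddCommGroup X] [Module ℝ X]
    {C : Set (V × X)} (hC : Convex ℝ C) (y : V) : Convex ℝ {x | (y, x) ∈ C} := by
  intro x1 h1 x2 h2 a b ha hb hab
  have := hC h1 h2 ha hb hab
  simp only [Prod.smul_mk, Prod.mk_add_mk, ← add_smul, hab, one_smul] at this
  exact this

lemma ehr_one : Ehr ℝ g1 := by
  intro V _ _ C hO hC
  rintro ⟨y1, s1⟩ h1 ⟨y2, s2⟩ h2 a b ha hb hab
  obtain ⟨α1, ha1, β1, hb1, hl1, e1⟩ := exists_Icc (hO.preimage (Continuous.prodMk_right y1)) h1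
  obtain ⟨α2, ha2, β2, hb2, hl2, e2⟩ := exists_Icc (hO.preimage (Continuous.prodMk_right y2)) h2
  have hA := hC ha1 ha2 ha hb hab
  have hB := hC hb1 hb2 ha hb hab
  refine lt_of_Icc (convex_section hC _) (α := a * α1 + b * α2) (β := a * β1 + b * β2) hA hB
    (by nlinarith) ?_
  have := three_convex (u1 := α1) (u2 := -β1) (u3 := s1) (w1 := α2 - α1) (w2 := β1 - β2)
    (w3 := s2 - s1) (t := b) e1 (by convert e2 using 4 <;> ring) hb (by linarith)
  have ha' : a = 1 - b := by linarith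
  convert this using 4 <;> simp [ha'] <;> ring

/-- symmetrization in the last factor, keeping a real coordinate -/
def Sy {V X : Type} [MeasurableSpace X] (μ : Measure X) (C : Set (V × (ℝ × X))) :
    Set (V × (ℝ × ℝ)) :=
  {q | Ph q.2.2 < μ.real {x | (q.1, (q.2.1, x)) ∈ C}}

section
variable {V X : Type} [NormedAddCommGroup V] [NormedSpace ℝ V] [NormedAddCommGroup X]
  [NormedSpace ℝ X] [MeasurableSpace X] [BorelSpace X] [SecondCountableTopology X]
  (μ : Measure X) [IsProbabilityMeasure μ] [μ.Regular] {C : Set (V × (ℝ × X))}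

omit [NormedSpace ℝ V] [NormedSpace ℝ X] [BorelSpace X] [SecondCountableTopology X] in
lemma isOpen_Sy (hO : IsOpen C) : IsOpen (Sy μ C) := by
  have h1 : IsOpen {p : (V × ℝ) × X | (p.1.1, (p.1.2, p.2)) ∈ C} := hO.preimage (by fun_prop)
  exact (isOpen_Sym μ h1).preimage
    (f := fun q : V × (ℝ × ℝ) => ((q.1, q.2.1), q.2.2)) (by fun_prop)

omit [BorelSpace X] [SecondCountableTopology X] [IsProbabilityMeasure μ] [μ.Regular] in
lemma convex_Sy (hE : Ehr X μ) (hO : IsOpen C) (hC : Convex ℝ C) : Convex ℝ (Sy μ C) := by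
  have h1 : IsOpen {p : (V × ℝ) × X | (p.1.1, (p.1.2, p.2)) ∈ C} := hO.preimage (by fun_prop)
  have h2 : Convex ℝ {p : (V × ℝ) × X | (p.1.1, (p.1.2, p.2)) ∈ C} :=
    fun p hp q hq a b ha hb hab => hC hp hq ha hb hab
  have h3 := hE (V × ℝ) _ h1 h2
  intro p hp q hq a b ha hb hab
  exact h3 (x := ((p.1, p.2.1), p.2.2)) hp (y := ((q.1, q.2.1), q.2.2)) hq ha hb hab

omit [NormedSpace ℝ V] [NormedSpace ℝ X] in
lemma measure_Sy (hO : IsOpen C) (y : V) :
    (g1.prod g1).real {w | (y, w) ∈ Sy μ C} = (g1.prod μ).real {w | (y, w) ∈ C} := by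
  have m1 : MeasurableSet {w | (y, w) ∈ Sy μ C} :=
    ((isOpen_Sy μ hO).preimage (Continuous.prodMk_right y)).measurableSet
  have m2 : MeasurableSet {w | (y, w) ∈ C} :=
    (hO.preimage (Continuous.prodMk_right y)).measurableSet
  rw [Measure.real, Measure.real, Measure.prod_apply m1, Measure.prod_apply m2]
  congr 1
  refine lintegral_congr fun r => ?_
  have := g1_sub (m := μ.real {x | (y, (r, x)) ∈ C}) measureReal_nonneg measureReal_le_one
  rw [ofReal_measureReal] at this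
  exact this

end

def Rot {V : Type} (θ : ℝ) (C : Set (V × (ℝ × ℝ))) : Set (V × (ℝ × ℝ)) :=
  {q | (q.1, ContinuousLinearMap.rotation θ q.2) ∈ C}

def Rec {V : Type} (ε : ℝ) (C : Set (V × (ℝ × ℝ))) : Prop :=
  ∀ y u v t, 0 ≤ t → (y, (u, v)) ∈ C →
    (y, (u + t * sin ε, v + t * cos ε)) ∈ C ∧ (y, (u + t * sin ε, v - t * cos ε)) ∈ C

section
variable {V : Type} [NormedAddCommGroup V] [NormedSpace ℝ V] {C : Set (V × (ℝ × ℝ))}

omit [NormedSpace ℝ V] in
lemma isOpen_Rot (θ : ℝ) (hO : IsOpen C) : IsOpen (Rot θ C) := hO.preimage (by fun_prop)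

lemma convex_Rot (θ : ℝ) (hC : Convex ℝ C) : Convex ℝ (Rot θ C) := by
  intro p hp q hq a b ha hb hab
  have := hC hp hq ha hb hab
  simp only [Rot, mem_ofPred_eq, Prod.fst_add, Prod.smul_fst, Prod.snd_add, Prod.smul_snd,
    map_add, map_smul]
  exact this

omit [NormedSpace ℝ V] in
lemma measure_Rot (θ : ℝ) (hO : IsOpen C) (y : V) :
    (g1.prod g1).real {w | (y, w) ∈ Rot θ C} = (g1.prod g1).real {w | (y, w) ∈ C} := by
  have m2 : MeasurableSet {w | (y, w) ∈ C} :=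
    (hO.preimage (Continuous.prodMk_right y)).measurableSet
  have := IsGaussian.map_rotation_eq_self (μ := g1) (by simp) θ
  conv_rhs => rw [← this]
  rw [Measure.real, Measure.real, Measure.map_apply (by fun_prop) m2]
  rfl

omit [NormedAddCommGroup V] [NormedSpace ℝ V] in
lemma Sy_down {y : V} {u v t : ℝ} (ht : 0 ≤ t) (h : (y, (u, v)) ∈ Sy g1 C) :
    (y, (u, v - t)) ∈ Sy g1 C :=
  lt_of_le_of_lt (strictMono_Ph.monotone (by simpa using ht)) h

lemma Sy_up {ε : ℝ} (hε : 0 ≤ cos ε) (hO : IsOpen C) (hC : Convex ℝ C) (hR : Rec ε C)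
    {y : V} {u v t : ℝ} (ht : 0 ≤ t) (h : (y, (u, v)) ∈ Sy g1 C) :
    (y, (u + t * sin ε, v + t * cos ε)) ∈ Sy g1 C := by
  have ho : IsOpen {x | (y, (u, x)) ∈ C} := hO.preimage (by fun_prop)
  obtain ⟨α, ha, β, hb, hl, e⟩ := exists_Icc ho h
  have hb0 : 0 ≤ t * cos ε := mul_nonneg ht hε
  have hcv : Convex ℝ {x | (y, (u + t * sin ε, x)) ∈ C} :=
    convex_section (convex_section hC y) _
  refine lt_of_Icc hcv (α := α - t * cos ε) (β := β + t * cos ε) (hR y u α t ht ha).2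
    (hR y u β t ht hb).1 (by linarith) ?_
  have := three_recede e hb0
  convert this using 4
  ring

omit [NormedAddCommGroup V] [NormedSpace ℝ V] in
lemma rec_rot {ε : ℝ} {D : Set (V × (ℝ × ℝ))}
    (h1 : ∀ y u v t, 0 ≤ t → (y, (u, v)) ∈ D → (y, (u + t * sin ε, v + t * cos ε)) ∈ D)
    (h2 : ∀ y u v t, 0 ≤ t → (y, (u, v)) ∈ D → (y, (u, v - t)) ∈ D) :
    Rec (ε / 2) (Rot (ε / 2) D) := by
  intro y u v t ht h
  have es : sin ε = 2 * sin (ε / 2) * cos (ε / 2) := by rw [← sin_two_mul]; ring_nf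
  have ec : cos ε = cos (ε / 2) ^ 2 - sin (ε / 2) ^ 2 := by rw [← cos_two_mul']; ring_nf
  have e1 := sin_sq_add_cos_sq (ε / 2)
  simp only [Rot, mem_ofPred_eq, ContinuousLinearMap.rotation_apply, smul_eq_mul] at h ⊢
  constructor
  · convert h1 _ _ _ t ht h using 3
    · rw [es]; ring
    · rw [ec]; ring
  · convert h2 _ _ _ t ht h using 3
    · ring
    · linear_combination (-t) * e1

lemma exists_rec (hO : IsOpen C) (hC : Convex ℝ C) (n : ℕ) :
    ∃ D : Set (V × (ℝ × ℝ)), IsOpen D ∧ Convex ℝ D ∧ Rec (π / 2 / 2 ^ n) D ∧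
      ∀ y, (g1.prod g1).real {w | (y, w) ∈ D} = (g1.prod g1).real {w | (y, w) ∈ C} := by
  induction n with
  | zero =>
    refine ⟨Rot (π / 2) (Sy g1 C), isOpen_Rot _ (isOpen_Sy g1 hO),
      convex_Rot _ (convex_Sy g1 ehr_one hO hC), ?_, fun y => ?_⟩
    · rw [pow_zero, div_one]
      refine rec_rot (fun y u v t ht h => ?_) (fun y u v t ht h => Sy_down ht h)
      simpa [sub_eq_add_neg] using Sy_down ht h
    · rw [measure_Rot _ (isOpen_Sy g1 hO), measure_Sy g1 hO]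
  | succ n ih =>
    obtain ⟨D, h1, h2, h3, h4⟩ := ih
    refine ⟨Rot (π / 2 / 2 ^ n / 2) (Sy g1 D), isOpen_Rot _ (isOpen_Sy g1 h1),
      convex_Rot _ (convex_Sy g1 ehr_one h1 h2), ?_, fun y => ?_⟩
    · rw [pow_succ, ← div_div (π / 2)]
      refine rec_rot (fun y u v t ht h => Sy_up ?_ h1 h2 h3 ht h)
        (fun y u v t ht h => Sy_down ht h)
      have hp := pi_pos
      have h5 : (1:ℝ) ≤ 2 ^ n := one_le_pow₀ (by norm_num)
      refine cos_nonneg_of_mem_Icc ⟨?_, div_le_self (by positivity) h5⟩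
      have : 0 ≤ π / 2 / 2 ^ n := by positivity
      linarith
    · rw [measure_Rot _ (isOpen_Sy g1 h1), measure_Sy g1 h1, h4]

omit [NormedAddCommGroup V] [NormedSpace ℝ V] in
lemma rec_cone {ε : ℝ} (hs : 0 < sin ε) (hc : 0 < cos ε) (hR : Rec ε C) {y : V} {u v u' v' : ℝ}
    (h : (y, (u, v)) ∈ C) (hw : |v' - v| * sin ε < (u' - u) * cos ε) : (y, (u', v')) ∈ C := by
  have k1 := le_abs_self (v' - v)
  have k2 := neg_abs_le (v' - v)
  have t1 : 0 ≤ ((u' - u) / sin ε + (v' - v) / cos ε) / 2 := by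
    rw [div_add_div _ _ hs.ne' hc.ne']
    have : 0 ≤ (u' - u) * cos ε + sin ε * (v' - v) := by nlinarith
    positivity
  have t2 : 0 ≤ ((u' - u) / sin ε - (v' - v) / cos ε) / 2 := by
    rw [div_sub_div _ _ hs.ne' hc.ne']
    have : 0 ≤ (u' - u) * cos ε - sin ε * (v' - v) := by nlinarith
    positivity
  convert (hR _ _ _ _ t2 (hR _ _ _ _ t1 h).1).2 using 3 <;> field_simp <;> ring

end

lemma cone_eventually {σ s r : ℝ} (hσ : σ = 1 ∨ σ = -1) (hr : r < Ph s) :
    ∀ᶠ n : ℕ in atTop, r < (g1.prod g1).real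
      {w : ℝ × ℝ | |w.2| * sin (π / 2 / 2 ^ n) < (σ * w.1 + s) * cos (π / 2 / 2 ^ n)} := by
  have ho : IsOpen {q : ℝ × (ℝ × ℝ) | |q.2.2| * sin q.1 < (σ * q.2.1 + s) * cos q.1} :=
    isOpen_lt (by fun_prop) (by fun_prop)
  have h0 : r < (g1.prod g1).real
      {w : ℝ × ℝ | ((0:ℝ), w) ∈ {q : ℝ × (ℝ × ℝ) | |q.2.2| * sin q.1 < (σ * q.2.1 + s) * cos q.1}} := by
    rcases hσ with rfl | rfl
    · have : {w : ℝ × ℝ | ((0:ℝ), w) ∈
          {q : ℝ × (ℝ × ℝ) | |q.2.2| * sin q.1 < (1 * q.2.1 + s) * cos q.1}} = Ioi (-s) ×ˢ univ := by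
        ext w; simp [neg_lt_iff_pos_add]
      rw [this, measureReal_prod_prod, g1_real_Ioi]; simpa using hr
    · have : {w : ℝ × ℝ | ((0:ℝ), w) ∈
          {q : ℝ × (ℝ × ℝ) | |q.2.2| * sin q.1 < (-1 * q.2.1 + s) * cos q.1}} = Iio s ×ˢ univ := by
        ext w; simp
      rw [this, measureReal_prod_prod, g1_real_Iio]; simpa using hr
  have ht : Tendsto (fun n : ℕ => π / 2 / 2 ^ n) atTop (𝓝 0) :=
    tendsto_const_nhds.div_atTop (tendsto_pow_atTop_atTop_of_one_lt (by norm_num))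
  exact ht.eventually (lsc (g1.prod g1) ho h0)

lemma ehr_two : Ehr (ℝ × ℝ) (g1.prod g1) := by
  intro V _ _ C hO hC
  rintro ⟨y1, s1⟩ h1 ⟨y2, s2⟩ h2 a b ha hb hab
  have h1' : Ph s1 < (g1.prod g1).real {w | (y1, w) ∈ C} := h1
  have h2' : Ph s2 < (g1.prod g1).real {w | (y2, w) ∈ C} := h2
  have e1 : ∀ᶠ δ in 𝓝 (0:ℝ), Ph (s1 + δ) < (g1.prod g1).real {w | (y1, w) ∈ C} :=
    (continuous_Ph.comp (continuous_const.add continuous_id)).continuousAt.eventually
      (gt_mem_nhds (by simpa using h1'))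
  have e2 : ∀ᶠ δ in 𝓝 (0:ℝ), Ph (s2 + δ) < (g1.prod g1).real {w | (y2, w) ∈ C} :=
    (continuous_Ph.comp (continuous_const.add continuous_id)).continuousAt.eventually
      (gt_mem_nhds (by simpa using h2'))
  obtain ⟨δ, ⟨d1, d2⟩, hδ⟩ := (((e1.and e2).filter_mono nhdsWithin_le_nhds).and
    (self_mem_nhdsWithin (a := (0:ℝ)) (s := Ioi 0))).exists
  have hδ' : 0 < δ := hδ
  have c1 := cone_eventually (σ := -1) (s := -(s1 + δ))
    (r := 1 - (g1.prod g1).real {w | (y1, w) ∈ C}) (Or.inr rfl) (by rw [Ph_neg]; linarith)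
  have c2 := cone_eventually (σ := -1) (s := -(s2 + δ))
    (r := 1 - (g1.prod g1).real {w | (y2, w) ∈ C}) (Or.inr rfl) (by rw [Ph_neg]; linarith)
  have c3 := cone_eventually (σ := 1) (s := a * s1 + b * s2 + δ) (r := Ph (a * s1 + b * s2))
    (Or.inl rfl) (strictMono_Ph (by linarith))
  obtain ⟨n, ⟨⟨n1, n2⟩, n3⟩, hn⟩ := (((c1.and c2).and c3).and (eventually_ge_atTop 1)).exists
  obtain ⟨D, hDo, hDc, hDr, hDm⟩ := exists_rec hO hC n
  have hp := pi_pos
  have h5 : (1:ℝ) < 2 ^ n := one_lt_pow₀ (by norm_num) (by omega)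
  have hpos : 0 < π / 2 / 2 ^ n := by positivity
  have hlt : π / 2 / 2 ^ n < π / 2 := div_lt_self (by positivity) h5
  have hs : 0 < sin (π / 2 / 2 ^ n) := sin_pos_of_pos_of_lt_pi hpos (by linarith)
  have hc : 0 < cos (π / 2 / 2 ^ n) := cos_pos_of_mem_Ioo ⟨by linarith, hlt⟩
  have key : ∀ y s, 1 - (g1.prod g1).real {w | (y, w) ∈ C} < (g1.prod g1).real
      {w : ℝ × ℝ | |w.2| * sin (π / 2 / 2 ^ n) < (-1 * w.1 + -s) * cos (π / 2 / 2 ^ n)} →
      (y, (-s, 0)) ∈ D := by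
    intro y s h
    by_contra hn
    have m2 : MeasurableSet {w | (y, w) ∈ D} :=
      (hDo.preimage (Continuous.prodMk_right y)).measurableSet
    have : {w : ℝ × ℝ | |w.2| * sin (π / 2 / 2 ^ n) < (-1 * w.1 + -s) * cos (π / 2 / 2 ^ n)}
        ⊆ {w | (y, w) ∈ D}ᶜ := by
      rintro ⟨u, v⟩ hw hw'
      refine hn (rec_cone hs hc hDr hw' ?_)
      simp only [mem_ofPred_eq] at hw
      rw [zero_sub, abs_neg]; linarith
    have h3 := measureReal_mono this (measure_ne_top (g1.prod g1) _)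
    rw [measureReal_compl m2, hDm, probReal_univ] at h3
    linarith
  have q := hDc (key _ _ n1) (key _ _ n2) ha hb hab
  simp only [Prod.smul_mk, Prod.mk_add_mk, smul_eq_mul, mul_zero, add_zero] at q
  change Ph (a * s1 + b * s2) < (g1.prod g1).real {w | (a • y1 + b • y2, w) ∈ C}
  rw [← hDm]
  refine n3.trans_le (measureReal_mono ?_)
  rintro ⟨u, v⟩ hw
  refine rec_cone hs hc hDr q ?_
  simp only [mem_ofPred_eq] at hw
  rw [sub_zero]
  convert hw using 2
  linear_combination δ * hab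

lemma ehr_prod {X : Type} [NormedAddCommGroup X]
    [NormedSpace ℝ X] [MeasurableSpace X] [BorelSpace X] [SecondCountableTopology X]
    (μ : Measure X) [IsProbabilityMeasure μ] [μ.Regular] (hE : Ehr X μ) :
    Ehr (ℝ × X) (g1.prod μ) := by
  intro V _ _ C hO hC
  have := ehr_two V _ (isOpen_Sy μ hO) (convex_Sy μ hE hO hC)
  simpa only [Sym, measure_Sy μ hO] using this

lemma ehr_map {X Y : Type} [NormedAddCommGroup X] [NormedSpace ℝ X] [MeasurableSpace X]
    [BorelSpace X] [NormedAddCommGroup Y] [NormedSpace ℝ Y] [MeasurableSpace Y] [BorelSpace Y]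
    (μ : Measure X) (T : X →L[ℝ] Y) (hE : Ehr X μ) : Ehr Y (μ.map T) := by
  intro V _ _ C hO hC
  have h1 : IsOpen {p : V × X | (p.1, T p.2) ∈ C} := hO.preimage (by fun_prop)
  have h2 : Convex ℝ {p : V × X | (p.1, T p.2) ∈ C} := by
    intro p hp q hq a b ha hb hab
    have := hC hp hq ha hb hab
    simp only [mem_ofPred_eq, Prod.fst_add, Prod.smul_fst, Prod.snd_add, Prod.smul_snd,
      map_add, map_smul]
    exact this
  have h3 := hE V _ h1 h2
  convert h3 using 1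
  ext q
  have m2 : MeasurableSet {w | (q.1, w) ∈ C} :=
    (hO.preimage (Continuous.prodMk_right q.1)).measurableSet
  simp only [Sym, mem_ofPred_eq, Measure.real]
  rw [Measure.map_apply (by fun_prop) m2]
  rfl

lemma ehr_pi (d : ℕ) : Ehr (Fin d → ℝ) (Measure.pi fun _ => g1) := by
  induction d with
  | zero =>
    intro V _ _ C hO hC
    have key : ∀ y s, (y, s) ∈ Sym (Measure.pi fun _ : Fin 0 => g1) C ↔ (y, 0) ∈ C := by
      intro y s
      by_cases h : (y, 0) ∈ C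
      · have : {x | (y, x) ∈ C} = univ := by
          ext x; rw [Subsingleton.elim x 0]; exact iff_of_true h trivial
        refine iff_of_true ?_ h
        simp [Sym, this, Ph_lt_one]
      · have : {x | (y, x) ∈ C} = ∅ := by
          ext x; rw [Subsingleton.elim x 0]; exact iff_of_false h id
        refine iff_of_false ?_ h
        simp [Sym, this, Ph_nonneg]
    rintro ⟨y1, s1⟩ h1 ⟨y2, s2⟩ h2 a b ha hb hab
    rw [key] at h1 h2
    have := hC h1 h2 ha hb hab
    simp only [Prod.smul_mk, Prod.mk_add_mk] at this ⊢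
    rw [key]; rwa [smul_zero, smul_zero, add_zero] at this
  | succ d ih =>
    have h1 := ehr_map _ (Fin.consEquivL ℝ (fun _ : Fin (d + 1) => ℝ)).toContinuousLinearMap
      (ehr_prod _ ih)
    have h2 := (measurePreserving_piFinSuccAbove (fun _ : Fin (d + 1) => g1) 0).symm.map_eq
    rw [← h2]
    convert h1 using 2
    ext p i
    simp [MeasurableEquiv.piFinSuccAbove, Fin.consEquivL, Fin.consLinearEquiv]

theorem ehr_std (E : Type) [NormedAddCommGroup E] [InnerProductSpace ℝ E] [FiniteDimensional ℝ E]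
    [MeasurableSpace E] [BorelSpace E] : Ehr E (stdGaussian E) := by
  let T : (Fin (Module.finrank ℝ E) → ℝ) →L[ℝ] E :=
    ∑ i, (ContinuousLinearMap.proj i : (Fin (Module.finrank ℝ E) → ℝ) →L[ℝ] ℝ).smulRight
      (stdOrthonormalBasis ℝ E i)
  have := ehr_map _ T (ehr_pi _)
  convert this using 1
  rw [stdGaussian]
  congr 1
  ext x
  simp [T]

end Vale.Agent.P226
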