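import Mathlib

/-! One-dimensional Gaussian toolkit. -/

open MeasureTheory ProbabilityTheory Set Filter Topology Real

namespace Vale.Agent.P226

noncomputable def cc : ℝ := (Real.sqrt (2 * π))⁻¹
noncomputable def ph (x : ℝ) : ℝ := cc * Real.exp (-x ^ 2 / 2)
noncomputable abbrev g1 : Measure ℝ := gaussianReal 0 1
noncomputable def Ph (x : ℝ) : ℝ := g1.real (Iic x)
noncomputable def ps (x : ℝ) : ℝ := ph x + x * Ph x
noncomputable def JJ (x : ℝ) : ℝ := ph x * ps x

lemma cc_pos : 0 < cc := by unfold cc; positivity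

lemma cc_sq : cc ^ 2 = (2 * π)⁻¹ := by
  unfold cc; rw [inv_pow, Real.sq_sqrt (by positivity)]

lemma cc_bounds : 0.398942 < cc ∧ cc < 0.398943 := by
  have h := cc_sq
  have h1 := Real.pi_gt_d6
  have h2 := Real.pi_lt_d6
  have h0 := cc_pos
  have h3 : cc ^ 2 * (2 * π) = 1 := by rw [h]; field_simp
  constructor
  · by_contra hc
    push Not at hc
    have : cc ^ 2 ≤ 0.398942 ^ 2 := by gcongr
    nlinarith
  · by_contra hc
    push Not at hc
    have : 0.398943 ^ 2 ≤ cc ^ 2 := by gcongr
    nlinarith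

lemma ph_pos (x : ℝ) : 0 < ph x := by unfold ph; have := cc_pos; positivity

lemma ph_neg (x : ℝ) : ph (-x) = ph x := by simp [ph]

lemma ph_zero : ph 0 = cc := by simp [ph]

lemma ph_le (x : ℝ) : ph x ≤ cc := by
  unfold ph
  have : Real.exp (-x ^ 2 / 2) ≤ 1 := Real.exp_le_one_iff.2 (by nlinarith [sq_nonneg x])
  have := cc_pos
  nlinarith

lemma pdf_eq (x : ℝ) : gaussianPDFReal 0 1 x = ph x := by
  simp [gaussianPDFReal, ph, cc]

lemma continuous_ph : Continuous ph := by unfold ph; fun_prop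

lemma integrable_ph : Integrable ph := by
  have := integrable_gaussianPDFReal 0 1
  rwa [show gaussianPDFReal 0 1 = ph from funext pdf_eq] at this

lemma g1_eq : g1 = volume.withDensity (fun x => ENNReal.ofReal (ph x)) := by
  rw [g1, gaussianReal_of_var_ne_zero 0 one_ne_zero]
  congr 1; ext x; rw [gaussianPDF, pdf_eq]

lemma g1_real (s : Set ℝ) : g1.real s = ∫ x in s, ph x := by
  rw [Measure.real, gaussianReal_apply_eq_integral 0 one_ne_zero, ENNReal.toReal_ofReal]
  · simp [pdf_eq]
  · exact integral_nonneg fun x => gaussianPDFReal_nonneg _ _ _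

lemma integral_g1 (f : ℝ → ℝ) : ∫ x, f x ∂g1 = ∫ x, ph x * f x := by
  rw [integral_gaussianReal_eq_integral_smul one_ne_zero]; simp [pdf_eq]

lemma hasDerivAt_ph (x : ℝ) : HasDerivAt ph (-x * ph x) x := by
  unfold ph
  have h : HasDerivAt (fun x : ℝ => -x ^ 2 / 2) (-x) x := by
    have := ((hasDerivAt_pow 2 x).neg).div_const 2
    refine this.congr_deriv ?_; simp; ring
  refine ((h.exp).const_mul cc).congr_deriv ?_; ring

lemma Ph_eq (x : ℝ) : Ph x = Ph 0 + ∫ t in (0:ℝ)..x, ph t := by
  unfold Ph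
  rw [g1_real, g1_real, ← intervalIntegral.integral_Iic_sub_Iic integrable_ph.integrableOn
    integrable_ph.integrableOn]
  ring

lemma hasDerivAt_Ph (x : ℝ) : HasDerivAt Ph (ph x) x := by
  have : Ph = fun x => Ph 0 + ∫ t in (0:ℝ)..x, ph t := funext Ph_eq
  rw [this]
  exact (intervalIntegral.integral_hasDerivAt_right (continuous_ph.intervalIntegrable _ _)
      (continuous_ph.stronglyMeasurableAtFilter _ _) continuous_ph.continuousAt).const_add _

lemma continuous_Ph : Continuous Ph :=
  continuous_iff_continuousAt.2 fun x => (hasDerivAt_Ph x).continuousAt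

lemma strictMono_Ph : StrictMono Ph :=
  strictMono_of_hasDerivAt_pos hasDerivAt_Ph ph_pos

lemma tendsto_Ph_atBot : Tendsto Ph atBot (𝓝 0) := by
  have := tendsto_cdf_atBot g1
  rwa [show (cdf g1 : ℝ → ℝ) = Ph from funext fun x => cdf_eq_real g1 x] at this

lemma tendsto_Ph_atTop : Tendsto Ph atTop (𝓝 1) := by
  have := tendsto_cdf_atTop g1
  rwa [show (cdf g1 : ℝ → ℝ) = Ph from funext fun x => cdf_eq_real g1 x] at this

lemma Ph_nonneg (x : ℝ) : 0 ≤ Ph x := measureReal_nonneg

lemma Ph_pos (x : ℝ) : 0 < Ph x := (Ph_nonneg (x - 1)).trans_lt (strictMono_Ph (by linarith))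

lemma Ph_le_one (x : ℝ) : Ph x ≤ 1 := measureReal_le_one

lemma Ph_lt_one (x : ℝ) : Ph x < 1 := (strictMono_Ph (by linarith)).trans_le (Ph_le_one (x + 1))

lemma Ph_neg (x : ℝ) : Ph (-x) = 1 - Ph x := by
  have h : ∀ x, HasDerivAt (fun x => Ph (-x) + Ph x) 0 x := fun x => by
    have h1 := (hasDerivAt_Ph (-x)).comp x (hasDerivAt_neg x)
    refine (h1.add (hasDerivAt_Ph x)).congr_deriv ?_
    rw [ph_neg]; ring
  have hc : ∀ y, Ph (-y) + Ph y = Ph (-x) + Ph x := fun y =>
    is_const_of_deriv_eq_zero (fun x => (h x).differentiableAt) (fun x => (h x).deriv) y x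
  have ht : Tendsto (fun y => Ph (-y) + Ph y) atTop (𝓝 (0 + 1)) :=
    (tendsto_Ph_atBot.comp tendsto_neg_atTop_atBot).add tendsto_Ph_atTop
  simp only [hc] at ht
  have := tendsto_nhds_unique ht tendsto_const_nhds
  linarith

lemma Ph_zero : Ph 0 = 1 / 2 := by
  have := Ph_neg 0
  simp at this; linarith

lemma exists_Ph {p : ℝ} (h0 : 0 < p) (h1 : p < 1) : ∃ a, Ph a = p := by
  obtain ⟨a, ha⟩ := (tendsto_Ph_atBot.eventually (gt_mem_nhds h0)).exists
  obtain ⟨b, hb⟩ := (tendsto_Ph_atTop.eventually (lt_mem_nhds h1)).exists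
  exact intermediate_value_univ a b continuous_Ph ⟨ha.le, hb.le⟩

instance : NullSingletonClass g1 := nullSingletonClass_gaussianReal one_ne_zero

lemma g1_Iic (x : ℝ) : g1 (Iic x) = ENNReal.ofReal (Ph x) := by
  rw [Ph, ofReal_measureReal]

lemma g1_Iio (x : ℝ) : g1 (Iio x) = ENNReal.ofReal (Ph x) := by
  rw [← g1_Iic, measure_congr Iio_ae_eq_Iic]

lemma g1_real_Iio (x : ℝ) : g1.real (Iio x) = Ph x := by
  rw [Measure.real, g1_Iio, ENNReal.toReal_ofReal (Ph_nonneg x)]

lemma g1_real_Ioi (x : ℝ) : g1.real (Ioi x) = Ph (-x) := by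
  rw [← compl_Iic, measureReal_compl measurableSet_Iic, Ph_neg]; simp [Ph]

lemma g1_real_Icc {a b : ℝ} (h : a ≤ b) : g1.real (Icc a b) = Ph b - Ph a := by
  have : Iic b = Iio a ∪ Icc a b := by
    ext x; simp only [mem_Iic, mem_union, mem_Iio, mem_Icc]
    constructor
    · intro hx; by_cases h' : x < a
      · exact Or.inl h'
      · exact Or.inr ⟨not_lt.1 h', hx⟩
    · rintro (hx | hx)
      · linarith
      · exact hx.2
  have h2 : g1.real (Iic b) = g1.real (Iio a) + g1.real (Icc a b) := by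
    rw [this, measureReal_union _ measurableSet_Icc]
    rw [Set.disjoint_left]; intro x hx hx'; exact absurd hx'.1 (not_le.2 hx)
  rw [g1_real_Iio] at h2
  unfold Ph at *; linarith

lemma tendsto_ph_atBot : Tendsto ph atBot (𝓝 0) := by
  have h : Tendsto (fun x : ℝ => -x ^ 2 / 2) atBot atBot := by
    refine tendsto_atBot_mono' _ ?_ tendsto_id
    filter_upwards [eventually_le_atBot (-2)] with x hx
    simp only [id]; nlinarith
  have := (Real.tendsto_exp_atBot.comp h).const_mul cc
  rw [mul_zero] at this; exact this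

lemma tendsto_mul_ph_atBot : Tendsto (fun x => x * ph x) atBot (𝓝 0) := by
  have h1 : Tendsto (fun x : ℝ => -(cc * ((-x) ^ 1 * Real.exp (-(-x))))) atBot (𝓝 (-(cc * 0))) :=
    (((Real.tendsto_pow_mul_exp_neg_atTop_nhds_zero 1).comp tendsto_neg_atBot_atTop).const_mul cc).neg
  rw [mul_zero, neg_zero] at h1
  refine tendsto_of_tendsto_of_tendsto_of_le_of_le' h1 tendsto_const_nhds ?_ ?_
  · filter_upwards [eventually_le_atBot (-2)] with x hx
    have : Real.exp (-x ^ 2 / 2) ≤ Real.exp (- -x) := Real.exp_le_exp.2 (by nlinarith)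
    have h2 := cc_pos
    unfold ph
    have h3 : 0 ≤ cc * (-x) := by nlinarith
    nlinarith [mul_le_mul_of_nonneg_left this h3]
  · filter_upwards [eventually_le_atBot 0] with x hx
    exact mul_nonpos_of_nonpos_of_nonneg hx (ph_pos x).le

/-- A function with nonnegative derivative and limit zero at minus infinity is nonnegative. -/
lemma nonneg_of_deriv {f f' : ℝ → ℝ} (hf : ∀ x, HasDerivAt f (f' x) x) (h0 : ∀ x, 0 ≤ f' x)
    (ht : Tendsto f atBot (𝓝 0)) (x : ℝ) : 0 ≤ f x := by
  have hm : Monotone f := monotone_of_hasDerivAt_nonneg hf h0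
  exact le_of_tendsto ht ((eventually_le_atBot x).mono fun y hy => hm hy)

lemma neg_mul_Ph_le {x : ℝ} (hx : x < 0) : -x * Ph x ≤ ph x := by
  have hd : ∀ y < 0, HasDerivAt (fun y => ph y / (-y) - Ph y) (ph y / y ^ 2) y := fun y hy => by
    have h1 := ((hasDerivAt_ph y).div (hasDerivAt_neg y) (by linarith)).sub (hasDerivAt_Ph y)
    refine h1.congr_deriv ?_
    have : y ≠ 0 := hy.ne
    field_simp; ring
  have hm : MonotoneOn (fun y => ph y / (-y) - Ph y) (Iio 0) := by
    refine monotoneOn_of_deriv_nonneg (convex_Iio 0)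
      (fun y hy => (hd y hy).continuousAt.continuousWithinAt) ?_ ?_
    · rw [interior_Iio]; exact fun y hy => (hd y hy).differentiableAt.differentiableWithinAt
    · rw [interior_Iio]; intro y hy; rw [(hd y hy).deriv]
      have := ph_pos y; positivity
  have ht : Tendsto (fun y => ph y / (-y) - Ph y) atBot (𝓝 (0 - 0)) := by
    refine Tendsto.sub ?_ tendsto_Ph_atBot
    exact tendsto_ph_atBot.div_atTop tendsto_neg_atBot_atTop
  have : 0 - 0 ≤ ph x / (-x) - Ph x :=
    le_of_tendsto ht ((eventually_le_atBot x).mono fun y hy => hm (lt_of_le_of_lt hy hx) hx hy)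
  have h2 : Ph x ≤ ph x / (-x) := by linarith
  rw [le_div_iff₀ (by linarith)] at h2
  linarith

lemma tendsto_mul_Ph_atBot : Tendsto (fun x => x * Ph x) atBot (𝓝 0) := by
  have h1 := tendsto_ph_atBot.neg
  rw [neg_zero] at h1
  refine tendsto_of_tendsto_of_tendsto_of_le_of_le' h1 tendsto_const_nhds ?_ ?_
  · filter_upwards [eventually_lt_atBot 0] with x hx
    have := neg_mul_Ph_le hx; linarith
  · filter_upwards [eventually_le_atBot 0] with x hx
    exact mul_nonpos_of_nonpos_of_nonneg hx (Ph_nonneg x)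

lemma hasDerivAt_ps (x : ℝ) : HasDerivAt ps (Ph x) x := by
  unfold ps
  refine ((hasDerivAt_ph x).add ((hasDerivAt_id x).mul (hasDerivAt_Ph x))).congr_deriv ?_
  simp

lemma tendsto_ps_atBot : Tendsto ps atBot (𝓝 0) := by
  have := tendsto_ph_atBot.add tendsto_mul_Ph_atBot
  rw [add_zero] at this; exact this

lemma ps_nonneg (x : ℝ) : 0 ≤ ps x := nonneg_of_deriv hasDerivAt_ps Ph_nonneg tendsto_ps_atBot x

lemma ps_pos (x : ℝ) : 0 < ps x :=
  (ps_nonneg (x - 1)).trans_lt
    (strictMono_of_hasDerivAt_pos hasDerivAt_ps Ph_pos (by linarith))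

lemma ps_zero : ps 0 = cc := by simp [ps, ph_zero]

/-- Mills ratio inequality. -/
lemma mills_pos (x : ℝ) : 0 < Ph x + x * ps x := by
  have hd : ∀ x, HasDerivAt (fun x => Ph x + x * ps x) (2 * ps x) x := fun x => by
    refine ((hasDerivAt_Ph x).add ((hasDerivAt_id x).mul (hasDerivAt_ps x))).congr_deriv ?_
    simp [ps]; ring
  have hsm : StrictMono (fun x => Ph x + x * ps x) :=
    strictMono_of_hasDerivAt_pos hd fun x => by have := ps_pos x; positivity
  have ht : Tendsto (fun x => Ph x + x * ps x) atBot (𝓝 0) := by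
    have h1 : Tendsto (fun x => x * ps x) atBot (𝓝 0) := by
      refine tendsto_of_tendsto_of_tendsto_of_le_of_le' tendsto_mul_ph_atBot tendsto_const_nhds ?_ ?_
      · filter_upwards [eventually_lt_atBot 0] with x hx
        have := Ph_nonneg x
        unfold ps
        nlinarith [mul_nonneg (sq_nonneg x) this]
      · filter_upwards [eventually_le_atBot 0] with x hx
        exact mul_nonpos_of_nonpos_of_nonneg hx (ps_nonneg x)
    simpa using tendsto_Ph_atBot.add h1
  have := nonneg_of_deriv hd (fun x => by have := ps_pos x; positivity) ht (x - 1)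
  exact this.trans_lt (hsm (by linarith))

/-- `ph / Ph` is strictly decreasing. -/
lemma ph_mul_Ph_lt {u v : ℝ} (h : u < v) : ph v * Ph u < ph u * Ph v := by
  have hd : ∀ x, HasDerivAt (fun x => Ph x / ph x) (ps x / ph x) x := fun x => by
    refine ((hasDerivAt_Ph x).div (hasDerivAt_ph x) (ph_pos x).ne').congr_deriv ?_
    have := (ph_pos x).ne'
    unfold ps; field_simp; ring
  have hsm : StrictMono (fun x => Ph x / ph x) :=
    strictMono_of_hasDerivAt_pos hd fun x => div_pos (ps_pos x) (ph_pos x)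
  have := hsm h
  simp only at this
  rw [div_lt_div_iff₀ (ph_pos _) (ph_pos _)] at this
  linarith

/-- `x * Ph x / ph x` is strictly increasing. -/
lemma mul_Ph_lt {u v : ℝ} (h : u < v) : u * Ph u * ph v < v * Ph v * ph u := by
  have hd : ∀ x, HasDerivAt (fun x => x * Ph x / ph x) ((Ph x + x * ps x) / ph x) x := fun x => by
    refine (((hasDerivAt_id x).mul (hasDerivAt_Ph x)).div (hasDerivAt_ph x) (ph_pos x).ne').congr_deriv ?_
    have := (ph_pos x).ne'
    unfold ps; simp only [id, Pi.mul_apply]; field_simp; ring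
  have hsm : StrictMono (fun x => x * Ph x / ph x) :=
    strictMono_of_hasDerivAt_pos hd fun x => div_pos (mills_pos x) (ph_pos x)
  have := hsm h
  simp only at this
  rwa [div_lt_div_iff₀ (ph_pos _) (ph_pos _)] at this

lemma hasDerivAt_JJ (x : ℝ) : HasDerivAt JJ (ph x * (Ph x - x * ps x)) x := by
  unfold JJ
  refine ((hasDerivAt_ph x).mul (hasDerivAt_ps x)).congr_deriv ?_
  ring

lemma JJ_pos (x : ℝ) : 0 < JJ x := mul_pos (ph_pos x) (ps_pos x)

lemma tendsto_JJ_atBot : Tendsto JJ atBot (𝓝 0) := by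
  have := tendsto_ph_atBot.mul tendsto_ps_atBot
  rw [mul_zero] at this; exact this

lemma JJ_le_sq (x : ℝ) : JJ x ≤ Ph x ^ 2 := by
  have hd : ∀ x, HasDerivAt (fun x => Ph x ^ 2 - JJ x) (ph x * (Ph x + x * ps x)) x := fun x => by
    refine (((hasDerivAt_Ph x).pow 2).sub (hasDerivAt_JJ x)).congr_deriv ?_
    simp; ring
  have ht : Tendsto (fun x => Ph x ^ 2 - JJ x) atBot (𝓝 0) := by
    simpa using (tendsto_Ph_atBot.pow 2).sub tendsto_JJ_atBot
  have := nonneg_of_deriv hd (fun x => (mul_pos (ph_pos x) (mills_pos x)).le) ht x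
  linarith

/-- chord bound for `JJ` as a function of `Ph`. -/
lemma JJ_chord {a0 a1 a α β : ℝ} (h0 : a0 ≤ a) (h1 : a ≤ a1) (h2 : a1 ≤ 0)
    (e0 : JJ a0 ≤ α * Ph a0 + β) (e1 : JJ a1 ≤ α * Ph a1 + β) : JJ a ≤ α * Ph a + β := by
  have hm : MonotoneOn (fun x => Ph x - x * ps x) (Iic 0) := by
    have hd : ∀ x, HasDerivAt (fun x => Ph x - x * ps x) (-2 * x * Ph x) x := fun x => by
      refine ((hasDerivAt_Ph x).sub ((hasDerivAt_id x).mul (hasDerivAt_ps x))).congr_deriv ?_
      simp [ps]; ring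
    refine monotoneOn_of_deriv_nonneg (convex_Iic 0)
      (fun y _ => (hd y).continuousAt.continuousWithinAt)
      (fun y _ => (hd y).differentiableAt.differentiableWithinAt) ?_
    rw [interior_Iic]; intro y hy; rw [(hd y).deriv]
    have := Ph_nonneg y
    have : y < 0 := hy
    nlinarith
  have hd : ∀ x, HasDerivAt (fun x => JJ x - α * Ph x) (ph x * (Ph x - x * ps x - α)) x :=
    fun x => by
      refine ((hasDerivAt_JJ x).sub ((hasDerivAt_Ph x).const_mul α)).congr_deriv ?_; ring
  by_cases hc : Ph a - a * ps a ≤ α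
  · have : AntitoneOn (fun x => JJ x - α * Ph x) (Icc a0 a) := by
      refine antitoneOn_of_deriv_nonpos (convex_Icc _ _)
        (fun y _ => (hd y).continuousAt.continuousWithinAt)
        (fun y _ => (hd y).differentiableAt.differentiableWithinAt) ?_
      rw [interior_Icc]; intro y hy; rw [(hd y).deriv]
      have h3 := hm (show y ∈ Iic 0 from by simp; linarith [hy.2])
        (show a ∈ Iic 0 from by simp; linarith) hy.2.le
      simp only at h3
      exact mul_nonpos_of_nonneg_of_nonpos (ph_pos y).le (by linarith)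
    have := this ⟨le_rfl, h0⟩ ⟨h0, le_rfl⟩ h0
    simp only at this; linarith
  · have : MonotoneOn (fun x => JJ x - α * Ph x) (Icc a a1) := by
      refine monotoneOn_of_deriv_nonneg (convex_Icc _ _)
        (fun y _ => (hd y).continuousAt.continuousWithinAt)
        (fun y _ => (hd y).differentiableAt.differentiableWithinAt) ?_
      rw [interior_Icc]; intro y hy; rw [(hd y).deriv]
      have h3 := hm (show a ∈ Iic 0 from by simp; linarith)
        (show y ∈ Iic 0 from by simp; linarith [hy.2]) hy.1.le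
      simp only at h3
      exact mul_nonneg (ph_pos y).le (by linarith)
    have := this ⟨le_rfl, h1⟩ ⟨h1, le_rfl⟩ h1
    simp only at this; linarith

/-- tangent bound for `ph ^ 2` as a function of `Ph`. -/
lemma ph_sq_tangent {a0 a : ℝ} (h0 : a0 ∈ Icc (-1 : ℝ) 1) (h : a ∈ Icc (-1 : ℝ) 1) :
    ph a ^ 2 ≤ ph a0 ^ 2 - 2 * a0 * ph a0 * (Ph a - Ph a0) := by
  have hm : MonotoneOn (fun x => x * ph x) (Icc (-1) 1) := by
    have hd : ∀ x, HasDerivAt (fun x => x * ph x) ((1 - x ^ 2) * ph x) x := fun x => by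
      refine ((hasDerivAt_id x).mul (hasDerivAt_ph x)).congr_deriv ?_
      simp; ring
    refine monotoneOn_of_deriv_nonneg (convex_Icc _ _)
      (fun y _ => (hd y).continuousAt.continuousWithinAt)
      (fun y _ => (hd y).differentiableAt.differentiableWithinAt) ?_
    rw [interior_Icc]; intro y hy; rw [(hd y).deriv]
    exact mul_nonneg (by nlinarith [hy.1, hy.2]) (ph_pos y).le
  have hd : ∀ x, HasDerivAt (fun x => ph x ^ 2 + 2 * a0 * ph a0 * Ph x)
      (2 * ph x * (a0 * ph a0 - x * ph x)) x := fun x => by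
    refine (((hasDerivAt_ph x).pow 2).add ((hasDerivAt_Ph x).const_mul (2 * a0 * ph a0))).congr_deriv ?_
    simp; ring
  rcases le_total a a0 with hc | hc
  · have : MonotoneOn (fun x => ph x ^ 2 + 2 * a0 * ph a0 * Ph x) (Icc a a0) := by
      refine monotoneOn_of_deriv_nonneg (convex_Icc _ _)
        (fun y _ => (hd y).continuousAt.continuousWithinAt)
        (fun y _ => (hd y).differentiableAt.differentiableWithinAt) ?_
      rw [interior_Icc]; intro y hy; rw [(hd y).deriv]
      have h3 := hm (show y ∈ Icc (-1:ℝ) 1 from ⟨by linarith [hy.1, h.1], by linarith [hy.2, h0.2]⟩)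
        h0 hy.2.le
      simp only at h3
      exact mul_nonneg (by have := ph_pos y; positivity) (by linarith)
    have := this ⟨le_rfl, hc⟩ ⟨hc, le_rfl⟩ hc
    simp only at this; linarith
  · have : AntitoneOn (fun x => ph x ^ 2 + 2 * a0 * ph a0 * Ph x) (Icc a0 a) := by
      refine antitoneOn_of_deriv_nonpos (convex_Icc _ _)
        (fun y _ => (hd y).continuousAt.continuousWithinAt)
        (fun y _ => (hd y).differentiableAt.differentiableWithinAt) ?_
      rw [interior_Icc]; intro y hy; rw [(hd y).deriv]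
      have h3 := hm h0
        (show y ∈ Icc (-1:ℝ) 1 from ⟨by linarith [hy.1, h0.1], by linarith [hy.2, h.2]⟩) hy.1.le
      simp only at h3
      exact mul_nonpos_of_nonneg_of_nonpos (by have := ph_pos y; positivity) (by linarith)
    have := this ⟨le_rfl, hc⟩ ⟨hc, le_rfl⟩ hc
    simp only at this; linarith

lemma ph_anti {a b : ℝ} (h0 : 0 ≤ a) (h : a ≤ b) : ph b ≤ ph a := by
  unfold ph
  exact mul_le_mul_of_nonneg_left (Real.exp_le_exp.2 (by nlinarith)) cc_pos.le

end Vale.Agent.P226
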