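import Vale.Agent.P226.E2

/-! Standard Gaussian measure on a Euclidean space: marginals, resampling, density, shifts. -/

open MeasureTheory ProbabilityTheory Set Filter Topology Real
open scoped RealInnerProductSpace ENNReal

namespace Vale.Agent.P226

variable {E : Type} [NormedAddCommGroup E] [InnerProductSpace ℝ E] [FiniteDimensional ℝ E]
  [MeasurableSpace E] [BorelSpace E]

lemma push {F : Type} [NormedAddCommGroup F] [InnerProductSpace ℝ F] [FiniteDimensional ℝ F]
    [MeasurableSpace F] [BorelSpace F] (L : F → E) (P : E → F) (hP : Measurable P)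
    (hadj : ∀ s x, ⟪P x, s⟫ = ⟪x, L s⟫) (hL : ∀ s, ‖L s‖ = ‖s‖) :
    (stdGaussian E).map P = stdGaussian F := by
  apply Measure.ext_of_charFun
  ext t
  rw [charFun_apply, integral_map hP.aemeasurable (by fun_prop), charFun_stdGaussian, ← hL,
    ← charFun_stdGaussian, charFun_apply]
  simp_rw [hadj]

lemma std_real : stdGaussian ℝ = g1 := by
  apply Measure.ext_of_charFun
  ext t
  rw [charFun_stdGaussian, charFun_gaussianReal]
  have : ((‖t‖ : ℝ) : ℂ) ^ 2 = (t : ℂ) ^ 2 := by
    rw [← Complex.ofReal_pow, Real.norm_eq_abs, sq_abs, Complex.ofReal_pow]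
  rw [this]; simp [neg_div]

lemma map_inner {e : E} (he : ‖e‖ = 1) : (stdGaussian E).map (fun x => ⟪e, x⟫) = g1 := by
  rw [← std_real]
  refine push (fun s : ℝ => s • e) _ (by fun_prop) (fun s x => ?_) (fun s => ?_)
  · simp [inner_smul_right, real_inner_comm]
  · simp [norm_smul, he]

lemma resample {e : E} (he : ‖e‖ = 1) :
    ((stdGaussian E).prod g1).map (fun q => q.1 + (q.2 - ⟪e, q.1⟫) • e) = stdGaussian E := by
  have : IsProbabilityMeasure
      (((stdGaussian E).prod g1).map (fun q => q.1 + (q.2 - ⟪e, q.1⟫) • e)) :=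
    Measure.isProbabilityMeasure_map (Measurable.aemeasurable (by fun_prop))
  apply Measure.ext_of_charFun
  ext t
  rw [charFun_apply, integral_map (Measurable.aemeasurable (by fun_prop)) (by fun_prop)]
  have h : ∀ q : E × ℝ, Complex.exp (⟪q.1 + (q.2 - ⟪e, q.1⟫) • e, t⟫ * Complex.I) =
      Complex.exp (⟪q.1, t - ⟪e, t⟫ • e⟫ * Complex.I) *
        Complex.exp ((⟪e, t⟫ : ℝ) * q.2 * Complex.I) := by
    intro q
    rw [← Complex.exp_add]
    congr 1
    rw [inner_add_left, inner_sub_right, inner_smul_left, inner_smul_right, real_inner_comm e q.1]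
    simp only [conj_trivial]
    push_cast; ring
  simp_rw [h]
  rw [integral_prod_mul (fun x : E => Complex.exp (⟪x, t - ⟪e, t⟫ • e⟫ * Complex.I))
    (fun s : ℝ => Complex.exp ((⟪e, t⟫ : ℝ) * s * Complex.I)), ← charFun_apply,
    ← charFun_apply_real, charFun_stdGaussian, charFun_stdGaussian, charFun_gaussianReal,
    ← Complex.exp_add]
  congr 1
  have : ‖t - ⟪e, t⟫ • e‖ ^ 2 = ‖t‖ ^ 2 - ⟪e, t⟫ ^ 2 := by
    rw [norm_sub_sq_real, inner_smul_right, norm_smul, he, real_inner_comm e t]
    simp; ring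
  rw [← Complex.ofReal_pow, this]
  push_cast; simp; ring

lemma lintegral_resample {e : E} (he : ‖e‖ = 1) {G : E → ℝ≥0∞} (hG : Measurable G) :
    ∫⁻ x, G x ∂stdGaussian E =
      ∫⁻ x, ∫⁻ s, G (x + (s - ⟪e, x⟫) • e) ∂g1 ∂stdGaussian E := by
  conv_lhs => rw [← resample he]
  rw [lintegral_map hG (by fun_prop), lintegral_prod]
  exact (hG.comp (by fun_prop)).aemeasurable

lemma exists_density (E : Type) [NormedAddCommGroup E] [InnerProductSpace ℝ E]
    [FiniteDimensional ℝ E] [MeasurableSpace E] [BorelSpace E] : ∃ K : ℝ, 0 < K ∧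
    stdGaussian E = volume.withDensity fun x => ENNReal.ofReal (K * Real.exp (-‖x‖ ^ 2 / 2)) := by
  set K0 : ℝ := (π / (1 / 2)) ^ (Module.finrank ℝ E / 2 : ℝ) with hK0
  have hK : 0 < K0 := by positivity
  have hb : 0 < ((1 / 2 : ℝ) : ℂ).re := by simp
  have hint : Integrable (fun x : E => K0⁻¹ * Real.exp (-‖x‖ ^ 2 / 2)) := by
    have := (GaussianFourier.integrable_cexp_neg_mul_sq_norm_add hb 0 (0 : E)).norm
    refine (this.congr (Eventually.of_forall fun x => ?_)).const_mul _
    simp only [Complex.norm_exp]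
    congr 1
    simp [← Complex.ofReal_pow]; ring
  refine ⟨K0⁻¹, by positivity, ?_⟩
  have : IsFiniteMeasure
      (volume.withDensity fun x : E => ENNReal.ofReal (K0⁻¹ * Real.exp (-‖x‖ ^ 2 / 2))) :=
    isFiniteMeasure_withDensity_ofReal hint.2
  apply Measure.ext_of_charFun
  ext t
  rw [charFun_stdGaussian, charFun_apply, integral_withDensity_eq_integral_toReal_smul
    (by fun_prop) (by simp)]
  have h1 := GaussianFourier.integral_cexp_neg_mul_sq_norm_add hb Complex.I t
  have h2 : ((π : ℂ) / ((1 / 2 : ℝ) : ℂ)) ^ (Module.finrank ℝ E / 2 : ℂ) = (K0 : ℂ) := by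
    rw [hK0, Complex.ofReal_cpow (by positivity)]; push_cast; rfl
  rw [h2] at h1
  have h3 : ∀ x : E, (ENNReal.ofReal (K0⁻¹ * Real.exp (-‖x‖ ^ 2 / 2))).toReal •
      Complex.exp (⟪x, t⟫ * Complex.I) = (K0⁻¹ : ℂ) *
        Complex.exp (-((1 / 2 : ℝ) : ℂ) * ‖x‖ ^ 2 + Complex.I * ⟪t, x⟫) := by
    intro x
    rw [ENNReal.toReal_ofReal (by positivity), Complex.exp_add, real_inner_comm t x]
    simp only [Complex.real_smul]
    push_cast
    rw [mul_assoc]
    congr 3 <;> ring
  simp_rw [h3]
  rw [integral_const_mul, h1, ← mul_assoc, inv_mul_cancel₀ (by exact_mod_cast hK.ne'), one_mul]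
  congr 1
  rw [Complex.I_sq]; push_cast; ring

lemma integrable_inner (v : E) : Integrable (fun x => ⟪v, x⟫) (stdGaussian E) :=
  (IsGaussian.integrable_id (μ := stdGaussian E)).const_inner v

lemma integral_inner_std (v : E) : ∫ x, ⟪v, x⟫ ∂stdGaussian E = 0 := by
  rw [integral_inner IsGaussian.integrable_fun_id, integral_id_stdGaussian, inner_zero_right]

lemma ofReal_integral_le {X : Type} [MeasurableSpace X] {μ : Measure X} {g : X → ℝ}
    (hg : Integrable g μ) : ENNReal.ofReal (∫ x, g x ∂μ) ≤ ∫⁻ x, ENNReal.ofReal (g x) ∂μ := by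
  have h1 : ∫ x, g x ∂μ ≤ ∫ x, max (g x) 0 ∂μ :=
    integral_mono hg hg.pos_part fun x => le_max_left _ _
  refine (ENNReal.ofReal_le_ofReal h1).trans ?_
  rw [ofReal_integral_eq_lintegral_ofReal hg.pos_part
    (Eventually.of_forall fun x => le_max_right _ _)]
  simp

/-- Cameron-Martin lower bound. -/
lemma shift_ge {A : Set E} (hA : MeasurableSet A) (w : E) :
    Real.exp (-‖w‖ ^ 2 / 2) * ((stdGaussian E).real A + ∫ x in A, ⟪w, x⟫ ∂stdGaussian E) ≤
      (stdGaussian E).real {x | x + w ∈ A} := by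
  obtain ⟨K, hK, hd⟩ := exists_density E
  have m1 : MeasurableSet {x | x + w ∈ A} := hA.preimage (measurable_add_const w)
  have h1 : stdGaussian E {x | x + w ∈ A} =
      ∫⁻ x in A, ENNReal.ofReal (Real.exp (⟪w, x⟫ - ‖w‖ ^ 2 / 2)) ∂stdGaussian E := by
    rw [hd, withDensity_apply _ m1, setLIntegral_withDensity_eq_setLIntegral_mul _ (by fun_prop)
      (by fun_prop) hA, ← lintegral_indicator m1, ← lintegral_indicator hA,
      ← lintegral_add_right_eq_self _ (-w)]
    refine lintegral_congr fun x => ?_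
    by_cases hx : x ∈ A
    · rw [indicator_of_mem hx, indicator_of_mem (by simpa using hx), Pi.mul_apply,
        ← ENNReal.ofReal_mul (by positivity), mul_assoc, ← Real.exp_add]
      congr 3
      rw [← sub_eq_add_neg, norm_sub_sq_real, real_inner_comm]; ring
    · rw [indicator_of_notMem hx, indicator_of_notMem (by simpa using hx)]
  have hi : Integrable (fun x => Real.exp (-‖w‖ ^ 2 / 2) * (1 + ⟪w, x⟫))
      ((stdGaussian E).restrict A) :=
    ((integrable_const _).add (integrable_inner w).restrict).const_mul _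
  have h2 := ofReal_integral_le hi
  rw [integral_const_mul, integral_add (integrable_const _) (integrable_inner w).restrict] at h2
  simp only [integral_const, smul_eq_mul, mul_one, measureReal_restrict_apply_univ] at h2
  refine (ENNReal.ofReal_le_iff_le_toReal (measure_ne_top _ _)).1 (h2.trans ?_)
  rw [h1]
  refine lintegral_mono fun x => ENNReal.ofReal_le_ofReal ?_
  rw [show ⟪w, x⟫ - ‖w‖ ^ 2 / 2 = -‖w‖ ^ 2 / 2 + ⟪w, x⟫ by ring, Real.exp_add]
  exact mul_le_mul_of_nonneg_left (by linarith [Real.add_one_le_exp ⟪w, x⟫]) (Real.exp_pos _).le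

lemma pos_part_le {X : Type} [MeasurableSpace X] {μ : Measure X} {f : X → ℝ}
    (hf : Integrable f μ) {a k : ℝ} (hk : 0 < k)
    (h : ∀ t, 0 < t → μ.real {x | t < f x} ≤ Ph (a - k * t)) :
    ∫ x, max (f x) 0 ∂μ ≤ ps a / k := by
  rw [hf.pos_part.integral_eq_integral_meas_lt (Eventually.of_forall fun x => le_max_right _ _)]
  have hd : ∀ t ∈ Ici (0:ℝ), HasDerivAt (fun t => -ps (a - k * t) / k) (Ph (a - k * t)) t := by
    intro t _
    have h1 : HasDerivAt (fun t => a - k * t) (-k) t := by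
      simpa using ((hasDerivAt_id t).const_mul k).const_sub a
    refine ((((hasDerivAt_ps _).comp t h1).neg).div_const k).congr_deriv ?_
    field_simp
  have ht : Tendsto (fun t => -ps (a - k * t) / k) atTop (𝓝 (-0 / k)) := by
    refine (tendsto_ps_atBot.comp ?_).neg.div_const k
    exact tendsto_atBot_add_const_left _ a
      (tendsto_neg_atTop_atBot.comp (tendsto_id.const_mul_atTop hk))
  have h1 := integral_Ioi_of_hasDerivAt_of_nonneg' hd (fun t _ => Ph_nonneg _) ht
  have h2 := integrableOn_Ioi_deriv_of_nonneg' hd (fun t _ => Ph_nonneg _) ht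
  refine (integral_mono_of_nonneg (Eventually.of_forall fun t => measureReal_nonneg) h2 ?_).trans
    (le_of_eq ?_)
  · filter_upwards [ae_restrict_mem measurableSet_Ioi] with t ht
    have ht' : 0 < t := ht
    refine le_trans (le_of_eq ?_) (h t ht')
    congr 1; ext x; simp [ht'.not_gt]
  · rw [h1]; simp [neg_div]

lemma real_lt_inner {e : E} (he : ‖e‖ = 1) (t : ℝ) :
    (stdGaussian E).real {x | t < ⟪e, x⟫} = Ph (-t) := by
  rw [← g1_real_Ioi, ← map_inner he, map_measureReal_apply (by fun_prop) measurableSet_Ioi]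
  rfl

omit [FiniteDimensional ℝ E] [MeasurableSpace E] [BorelSpace E] in
lemma norm_normalize {v : E} (hv : v ≠ 0) : ‖(‖v‖⁻¹ : ℝ) • v‖ = 1 := by
  rw [norm_smul, norm_inv, norm_norm, inv_mul_cancel₀ (norm_ne_zero_iff.2 hv)]

lemma null_hyperplane {v : E} (hv : v ≠ 0) : stdGaussian E {x | ⟪v, x⟫ = 0} = 0 := by
  have h := map_inner (norm_normalize hv)
  have h2 : g1 {0} = 0 := measure_singleton 0
  rw [← h, Measure.map_apply (by fun_prop) (measurableSet_singleton 0)] at h2
  convert h2 using 2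
  ext x
  simp [inner_smul_left, hv]

lemma integral_pos_inner (v : E) : ∫ x, max ⟪v, x⟫ 0 ∂stdGaussian E ≤ cc * ‖v‖ := by
  by_cases hv : v = 0
  · simp [hv]
  have hn : 0 < ‖v‖ := norm_pos_iff.2 hv
  have := pos_part_le (integrable_inner v) (a := 0) (k := ‖v‖⁻¹) (by positivity) (fun t _ => by
    rw [zero_sub, ← real_lt_inner (norm_normalize hv)]
    refine le_of_eq ?_
    congr 1; ext x
    simp only [mem_ofPred_eq, inner_smul_left, conj_trivial]
    rw [mul_lt_mul_iff_right₀ (by positivity)])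
  rwa [ps_zero, div_inv_eq_mul] at this

lemma integral_abs_inner (v : E) : ∫ x, |⟪v, x⟫| ∂stdGaussian E ≤ 2 * cc * ‖v‖ := by
  have h : ∀ x, |⟪v, x⟫| = max ⟪v, x⟫ 0 + max ⟪-v, x⟫ 0 := fun x => by
    rw [inner_neg_left]
    rcases le_total ⟪v, x⟫ 0 with h | h
    · rw [abs_of_nonpos h, max_eq_right h, max_eq_left (by linarith)]; ring
    · rw [abs_of_nonneg h, max_eq_left h, max_eq_right (by linarith)]; ring
  simp_rw [h]
  rw [integral_add (integrable_inner v).pos_part (integrable_inner (-v)).pos_part]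
  have h1 := integral_pos_inner v
  have h2 := integral_pos_inner (-v)
  rw [norm_neg] at h2
  linarith

/-- bathtub bound for the first moment of a set -/
lemma norm_moment_le {A : Set E} {a : ℝ}
    (ha : (stdGaussian E).real A = Ph a) : ‖∫ x in A, x ∂stdGaussian E‖ ≤ ph a := by
  set z := ∫ x in A, x ∂stdGaussian E with hz
  by_cases h0 : z = 0
  · rw [h0, norm_zero]; exact (ph_pos a).le
  set e := (‖z‖⁻¹ : ℝ) • z with he
  have he1 : ‖e‖ = 1 := norm_normalize h0
  have h1 : ‖z‖ = ∫ x in A, ⟪e, x⟫ ∂stdGaussian E := by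
    rw [integral_inner IsGaussian.integrable_fun_id.restrict, ← hz, he, inner_smul_left,
      real_inner_self_eq_norm_sq]
    have := norm_ne_zero_iff.2 h0
    simp; field_simp
  have hi : Integrable (fun x => ⟪e, x⟫ + a) (stdGaussian E) :=
    (integrable_inner e).add (integrable_const a)
  have h2 := pos_part_le hi (a := a) (k := 1) one_pos (fun t _ => by
    rw [show a - 1 * t = -(t - a) by ring, ← real_lt_inner he1]
    refine le_of_eq ?_
    congr 1; ext x
    simp [sub_lt_iff_lt_add])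
  have h3 : ∫ x in A, (⟪e, x⟫ + a) ∂stdGaussian E ≤ ∫ x, max (⟪e, x⟫ + a) 0 ∂stdGaussian E :=
    (integral_mono hi.restrict hi.pos_part.restrict fun x => le_max_left _ _).trans
      (setIntegral_le_integral hi.pos_part (Eventually.of_forall fun x => le_max_right _ _))
  rw [integral_add (integrable_inner e).restrict (integrable_const a)] at h3
  simp only [integral_const, measureReal_restrict_apply_univ, smul_eq_mul, ha] at h3
  unfold ps at h2
  linarith

lemma lintegral_cube_g1 : ∫⁻ s, ENNReal.ofReal (max s 0 ^ 3) ∂g1 = ENNReal.ofReal (2 * cc) := by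
  have hd : ∀ t ∈ Ici (0:ℝ), HasDerivAt (fun t => -((t ^ 2 + 2) * ph t)) (ph t * t ^ 3) t := by
    intro t _
    refine ((((hasDerivAt_pow 2 t).add_const 2).mul (hasDerivAt_ph t)).neg).congr_deriv ?_
    simp; ring
  have ht : Tendsto (fun t => -((t ^ 2 + 2) * ph t)) atTop (𝓝 (-0)) := by
    refine Tendsto.neg ?_
    have h1 : Tendsto (fun t : ℝ => cc * (t ^ 2 * Real.exp (-t) + 2 * (t ^ 0 * Real.exp (-t))))
        atTop (𝓝 (cc * (0 + 2 * 0))) :=
      ((Real.tendsto_pow_mul_exp_neg_atTop_nhds_zero 2).add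
        ((Real.tendsto_pow_mul_exp_neg_atTop_nhds_zero 0).const_mul 2)).const_mul cc
    simp only [mul_zero, add_zero] at h1
    refine tendsto_of_tendsto_of_tendsto_of_le_of_le' tendsto_const_nhds h1 ?_ ?_
    · exact Eventually.of_forall fun t => by have := ph_pos t; positivity
    · filter_upwards [eventually_ge_atTop 2] with t ht
      have : Real.exp (-t ^ 2 / 2) ≤ Real.exp (-t) := Real.exp_le_exp.2 (by nlinarith)
      have h3 : 0 ≤ cc * (t ^ 2 + 2) := by have := cc_pos; positivity
      unfold ph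
      nlinarith [mul_le_mul_of_nonneg_left this h3]
  have hp : ∀ t ∈ Ioi (0:ℝ), 0 ≤ ph t * t ^ 3 := fun t ht => by
    have := ph_pos t
    have : 0 < t := ht
    positivity
  have h1 := integral_Ioi_of_hasDerivAt_of_nonneg' hd hp ht
  have h2 := integrableOn_Ioi_deriv_of_nonneg' hd hp ht
  rw [g1_eq, lintegral_withDensity_eq_lintegral_mul _ (continuous_ph.measurable.ennreal_ofReal)
    (by fun_prop)]
  have h3 : ∀ s, ((fun x => ENNReal.ofReal (ph x)) * fun s => ENNReal.ofReal (max s 0 ^ 3)) s =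
      (Ioi (0:ℝ)).indicator (fun s => ENNReal.ofReal (ph s * s ^ 3)) s := by
    intro s
    by_cases hs : 0 < s
    · rw [indicator_of_mem (show s ∈ Ioi 0 from hs), Pi.mul_apply, max_eq_left hs.le,
        ENNReal.ofReal_mul (ph_pos s).le]
    · rw [indicator_of_notMem (show s ∉ Ioi 0 from hs), Pi.mul_apply,
        max_eq_right (not_lt.1 hs)]
      simp
  simp_rw [h3]
  rw [lintegral_indicator measurableSet_Ioi, ← ofReal_integral_eq_lintegral_ofReal h2
    ((ae_restrict_mem measurableSet_Ioi).mono hp), h1]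
  simp [ph_zero]

lemma lintegral_cube (v : E) : ∫⁻ x, ENNReal.ofReal (max ⟪v, x⟫ 0 ^ 3) ∂stdGaussian E =
    ENNReal.ofReal (2 * cc * ‖v‖ ^ 3) := by
  by_cases hv : v = 0
  · simp [hv]
  have hn : 0 < ‖v‖ := norm_pos_iff.2 hv
  have h := lintegral_cube_g1
  rw [← map_inner (norm_normalize hv), lintegral_map (by fun_prop) (by fun_prop)] at h
  rw [mul_comm, ENNReal.ofReal_mul (by positivity), ← h, ← lintegral_const_mul _ (by fun_prop)]
  refine lintegral_congr fun x => ?_
  rw [← ENNReal.ofReal_mul (by positivity), ← mul_pow, inner_smul_left, mul_max_of_nonneg _ _ hn.le]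
  simp [hn.ne']

lemma g1_le (G : ℝ → ℝ≥0∞) (hG : Measurable G) :
    ∫⁻ s, G s ∂g1 ≤ ENNReal.ofReal cc * ∫⁻ s, G s := by
  rw [g1_eq, lintegral_withDensity_eq_lintegral_mul _ (continuous_ph.measurable.ennreal_ofReal) hG,
    ← lintegral_const_mul _ hG]
  exact lintegral_mono fun s => mul_le_mul_left (ENNReal.ofReal_le_ofReal (ph_le s)) _

end Vale.Agent.P226
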