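import Vale.Agent.P226.C1

/-! Certified numerical values of the Gaussian density and distribution function. -/

open MeasureTheory ProbabilityTheory Set Filter Topology Real

namespace Vale.Agent.P226

noncomputable def PP (n : ℕ) (y : ℝ) : ℝ := ∑ j ∈ Finset.range n, (-y) ^ j / j.factorial
noncomputable def QQ (n : ℕ) (x : ℝ) : ℝ :=
  ∑ j ∈ Finset.range n, (-1) ^ j * x ^ (2 * j + 1) / (2 ^ j * j.factorial * (2 * j + 1))

lemma nonneg_of_deriv_Ici {f f' : ℝ → ℝ} (hf : ∀ x, HasDerivAt f (f' x) x)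
    (h0 : ∀ x, 0 ≤ x → 0 ≤ f' x) (h1 : f 0 = 0) {x : ℝ} (hx : 0 ≤ x) : 0 ≤ f x := by
  have : MonotoneOn f (Ici 0) := by
    refine monotoneOn_of_deriv_nonneg (convex_Ici 0)
      (fun y _ => (hf y).continuousAt.continuousWithinAt)
      (fun y _ => (hf y).differentiableAt.differentiableWithinAt) ?_
    rw [interior_Ici]; intro y hy; rw [(hf y).deriv]; exact h0 y (le_of_lt hy)
  exact h1 ▸ this (le_refl (0:ℝ)) hx hx

lemma hasDerivAt_PP (n : ℕ) (y : ℝ) : HasDerivAt (PP (n + 1)) (-PP n y) y := by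
  induction n with
  | zero =>
    have : PP (0 + 1) = fun _ => 1 := by ext y; simp [PP]
    rw [this]; simpa [PP] using hasDerivAt_const y (1:ℝ)
  | succ n ih =>
    have : PP (n + 1 + 1) = fun y => PP (n + 1) y + (-y) ^ (n + 1) / (n + 1).factorial := by
      ext y; rw [PP, Finset.sum_range_succ]; rfl
    rw [this]
    refine (ih.add ((((hasDerivAt_neg y).pow (n + 1))).div_const _)).congr_deriv ?_
    rw [PP, PP, Finset.sum_range_succ, Nat.factorial_succ]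
    have : (n.factorial : ℝ) ≠ 0 := by positivity
    push_cast
    field_simp; ring

lemma exp_PP (n : ℕ) {y : ℝ} (hy : 0 ≤ y) : 0 ≤ (-1) ^ n * (Real.exp (-y) - PP n y) := by
  induction n generalizing y with
  | zero => simpa [PP] using (Real.exp_pos _).le
  | succ n ih =>
    refine nonneg_of_deriv_Ici (f := fun y => (-1) ^ (n + 1) * (Real.exp (-y) - PP (n + 1) y))
      (f' := fun y => (-1) ^ n * (Real.exp (-y) - PP n y)) (fun y => ?_) (fun y hy => ih hy) ?_ hy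
    · refine (((hasDerivAt_neg y).exp.sub (hasDerivAt_PP n y)).const_mul _).congr_deriv ?_
      ring
    · simp [PP, Finset.sum_range_succ']

lemma Ph_QQ (n : ℕ) {x : ℝ} (hx : 0 ≤ x) : 0 ≤ (-1) ^ n * (1 / 2 - Ph (-x) - cc * QQ n x) := by
  have hQ : ∀ x, HasDerivAt (QQ n) (PP n (x ^ 2 / 2)) x := fun x => by
    unfold QQ PP
    refine HasDerivAt.fun_sum fun j _ => ?_
    refine (((hasDerivAt_pow (2 * j + 1) x).const_mul _).div_const _).congr_deriv ?_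
    have : (j.factorial : ℝ) ≠ 0 := by positivity
    rw [neg_pow (x ^ 2 / 2), div_pow, ← pow_mul, Nat.add_sub_cancel]
    push_cast
    field_simp
  refine nonneg_of_deriv_Ici (f := fun x => (-1) ^ n * (1 / 2 - Ph (-x) - cc * QQ n x))
    (f' := fun x => cc * ((-1) ^ n * (Real.exp (-(x ^ 2 / 2)) - PP n (x ^ 2 / 2)))) (fun x => ?_)
    (fun x _ => mul_nonneg cc_pos.le (exp_PP n (by positivity))) ?_ hx
  · refine (((((hasDerivAt_Ph _).comp x (hasDerivAt_neg x)).const_sub _).sub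
      ((hQ x).const_mul cc)).const_mul _).congr_deriv ?_
    rw [ph_neg, ph, neg_div]; ring
  · simp [QQ, Ph_zero]

lemma ph_PP (n : ℕ) (x : ℝ) : 0 ≤ (-1) ^ n * (ph (-x) - cc * PP n (x ^ 2 / 2)) := by
  have := mul_nonneg cc_pos.le (exp_PP n (show 0 ≤ x ^ 2 / 2 by positivity))
  rw [ph_neg, ph, neg_div]; linarith

lemma node0 : (13361/200000:ℝ) ≤ Ph (-(3/2:ℝ)) ∧ Ph (-(3/2:ℝ)) ≤ (66809/1000000:ℝ) ∧
    (32379/250000:ℝ) ≤ ph (-(3/2:ℝ)) ∧ ph (-(3/2:ℝ)) ≤ (1619/12500:ℝ) := by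
  have h1 := Ph_QQ 12 (x := (3/2:ℝ)) (by norm_num)
  have h2 := Ph_QQ 11 (x := (3/2:ℝ)) (by norm_num)
  have h3 := ph_PP 12 (3/2:ℝ)
  have h4 := ph_PP 11 (3/2:ℝ)
  have hc := cc_bounds
  norm_num [QQ, PP, Finset.sum_range_succ, Nat.factorial] at h1 h2 h3 h4 ⊢
  refine ⟨?_, ?_, ?_, ?_⟩ <;> linarith [hc.1, hc.2]

lemma node1 : (28767/250000:ℝ) ≤ Ph (-(6/5:ℝ)) ∧ Ph (-(6/5:ℝ)) ≤ (1798/15625:ℝ) ∧
    (24273/125000:ℝ) ≤ ph (-(6/5:ℝ)) ∧ ph (-(6/5:ℝ)) ≤ (48547/250000:ℝ) := by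
  have h1 := Ph_QQ 12 (x := (6/5:ℝ)) (by norm_num)
  have h2 := Ph_QQ 11 (x := (6/5:ℝ)) (by norm_num)
  have h3 := ph_PP 12 (6/5:ℝ)
  have h4 := ph_PP 11 (6/5:ℝ)
  have hc := cc_bounds
  norm_num [QQ, PP, Finset.sum_range_succ, Nat.factorial] at h1 h2 h3 h4 ⊢
  refine ⟨?_, ?_, ?_, ?_⟩ <;> linarith [hc.1, hc.2]

lemma node2 : (158653/1000000:ℝ) ≤ Ph (-(1:ℝ)) ∧ Ph (-(1:ℝ)) ≤ (158657/1000000:ℝ) ∧
    (241969/1000000:ℝ) ≤ ph (-(1:ℝ)) ∧ ph (-(1:ℝ)) ≤ (241973/1000000:ℝ) := by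
  have h1 := Ph_QQ 12 (x := (1:ℝ)) (by norm_num)
  have h2 := Ph_QQ 11 (x := (1:ℝ)) (by norm_num)
  have h3 := ph_PP 12 (1:ℝ)
  have h4 := ph_PP 11 (1:ℝ)
  have hc := cc_bounds
  norm_num [QQ, PP, Finset.sum_range_succ, Nat.factorial] at h1 h2 h3 h4 ⊢
  refine ⟨?_, ?_, ?_, ?_⟩ <;> linarith [hc.1, hc.2]

lemma node3 : (197661/1000000:ℝ) ≤ Ph (-(17/20:ℝ)) ∧ Ph (-(17/20:ℝ)) ≤ (39533/200000:ℝ) ∧
    (277983/1000000:ℝ) ≤ ph (-(17/20:ℝ)) ∧ ph (-(17/20:ℝ)) ≤ (277987/1000000:ℝ) := by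
  have h1 := Ph_QQ 12 (x := (17/20:ℝ)) (by norm_num)
  have h2 := Ph_QQ 11 (x := (17/20:ℝ)) (by norm_num)
  have h3 := ph_PP 12 (17/20:ℝ)
  have h4 := ph_PP 11 (17/20:ℝ)
  have hc := cc_bounds
  norm_num [QQ, PP, Finset.sum_range_succ, Nat.factorial] at h1 h2 h3 h4 ⊢
  refine ⟨?_, ?_, ?_, ?_⟩ <;> linarith [hc.1, hc.2]

lemma node4 : (120981/500000:ℝ) ≤ Ph (-(7/10:ℝ)) ∧ Ph (-(7/10:ℝ)) ≤ (120983/500000:ℝ) ∧
    (78063/250000:ℝ) ≤ ph (-(7/10:ℝ)) ∧ ph (-(7/10:ℝ)) ≤ (4879/15625:ℝ) := by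
  have h1 := Ph_QQ 12 (x := (7/10:ℝ)) (by norm_num)
  have h2 := Ph_QQ 11 (x := (7/10:ℝ)) (by norm_num)
  have h3 := ph_PP 12 (7/10:ℝ)
  have h4 := ph_PP 11 (7/10:ℝ)
  have hc := cc_bounds
  norm_num [QQ, PP, Finset.sum_range_succ, Nat.factorial] at h1 h2 h3 h4 ⊢
  refine ⟨?_, ?_, ?_, ?_⟩ <;> linarith [hc.1, hc.2]

lemma node5 : (274251/1000000:ℝ) ≤ Ph (-(3/5:ℝ)) ∧ Ph (-(3/5:ℝ)) ≤ (54851/200000:ℝ) ∧
    (333223/1000000:ℝ) ≤ ph (-(3/5:ℝ)) ∧ ph (-(3/5:ℝ)) ≤ (333227/1000000:ℝ) := by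
  have h1 := Ph_QQ 12 (x := (3/5:ℝ)) (by norm_num)
  have h2 := Ph_QQ 11 (x := (3/5:ℝ)) (by norm_num)
  have h3 := ph_PP 12 (3/5:ℝ)
  have h4 := ph_PP 11 (3/5:ℝ)
  have hc := cc_bounds
  norm_num [QQ, PP, Finset.sum_range_succ, Nat.factorial] at h1 h2 h3 h4 ⊢
  refine ⟨?_, ?_, ?_, ?_⟩ <;> linarith [hc.1, hc.2]

lemma node6 : (38567/125000:ℝ) ≤ Ph (-(1/2:ℝ)) ∧ Ph (-(1/2:ℝ)) ≤ (15427/50000:ℝ) ∧
    (352063/1000000:ℝ) ≤ ph (-(1/2:ℝ)) ∧ ph (-(1/2:ℝ)) ≤ (352067/1000000:ℝ) := by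
  have h1 := Ph_QQ 12 (x := (1/2:ℝ)) (by norm_num)
  have h2 := Ph_QQ 11 (x := (1/2:ℝ)) (by norm_num)
  have h3 := ph_PP 12 (1/2:ℝ)
  have h4 := ph_PP 11 (1/2:ℝ)
  have hc := cc_bounds
  norm_num [QQ, PP, Finset.sum_range_succ, Nat.factorial] at h1 h2 h3 h4 ⊢
  refine ⟨?_, ?_, ?_, ?_⟩ <;> linarith [hc.1, hc.2]

lemma node7 : (5384/15625:ℝ) ≤ Ph (-(2/5:ℝ)) ∧ Ph (-(2/5:ℝ)) ≤ (17229/50000:ℝ) ∧
    (92067/250000:ℝ) ≤ ph (-(2/5:ℝ)) ∧ ph (-(2/5:ℝ)) ≤ (23017/62500:ℝ) := by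
  have h1 := Ph_QQ 12 (x := (2/5:ℝ)) (by norm_num)
  have h2 := Ph_QQ 11 (x := (2/5:ℝ)) (by norm_num)
  have h3 := ph_PP 12 (2/5:ℝ)
  have h4 := ph_PP 11 (2/5:ℝ)
  have hc := cc_bounds
  norm_num [QQ, PP, Finset.sum_range_succ, Nat.factorial] at h1 h2 h3 h4 ⊢
  refine ⟨?_, ?_, ?_, ?_⟩ <;> linarith [hc.1, hc.2]

lemma node8 : (100323/250000:ℝ) ≤ Ph (-(1/4:ℝ)) ∧ Ph (-(1/4:ℝ)) ≤ (25081/62500:ℝ) ∧
    (193333/500000:ℝ) ≤ ph (-(1/4:ℝ)) ∧ ph (-(1/4:ℝ)) ≤ (38667/100000:ℝ) := by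
  have h1 := Ph_QQ 12 (x := (1/4:ℝ)) (by norm_num)
  have h2 := Ph_QQ 11 (x := (1/4:ℝ)) (by norm_num)
  have h3 := ph_PP 12 (1/4:ℝ)
  have h4 := ph_PP 11 (1/4:ℝ)
  have hc := cc_bounds
  norm_num [QQ, PP, Finset.sum_range_succ, Nat.factorial] at h1 h2 h3 h4 ⊢
  refine ⟨?_, ?_, ?_, ?_⟩ <;> linarith [hc.1, hc.2]

lemma nodeJ0 : JJ (-(3/2:ℝ)) ≤ (759311/200000000:ℝ) := by
  obtain ⟨h1, -, -, h4⟩ := node0
  have h5 : ps (-(3/2:ℝ)) ≤ (469/16000:ℝ) := by unfold ps; linarith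
  have := mul_le_mul h4 h5 (ps_nonneg _) (by norm_num)
  unfold JJ; linarith

lemma nodeJ1 : JJ (-(6/5:ℝ)) ≤ (3404746751/312500000000:ℝ) := by
  obtain ⟨h1, -, -, h4⟩ := node1
  have h5 : ps (-(6/5:ℝ)) ≤ (70133/1250000:ℝ) := by unfold ps; linarith
  have := mul_le_mul h4 h5 (ps_nonneg _) (by norm_num)
  unfold JJ; linarith

lemma nodeJ2 : JJ (-(1:ℝ)) ≤ (504029759/25000000000:ℝ) := by
  obtain ⟨h1, -, -, h4⟩ := node2
  have h5 : ps (-(1:ℝ)) ≤ (2083/25000:ℝ) := by unfold ps; linarith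
  have := mul_le_mul h4 h5 (ps_nonneg _) (by norm_num)
  unfold JJ; linarith

lemma nodeJ3 : JJ (-(17/20:ℝ)) ≤ (611433240461/20000000000000:ℝ) := by
  obtain ⟨h1, -, -, h4⟩ := node3
  have h5 : ps (-(17/20:ℝ)) ≤ (2199503/20000000:ℝ) := by unfold ps; linarith
  have := mul_le_mul h4 h5 (ps_nonneg _) (by norm_num)
  unfold JJ; linarith

lemma nodeJ4 : JJ (-(7/10:ℝ)) ≤ (3485621027/78125000000:ℝ) := by
  obtain ⟨h1, -, -, h4⟩ := node4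
  have h5 : ps (-(7/10:ℝ)) ≤ (714413/5000000:ℝ) := by unfold ps; linarith
  have := mul_le_mul h4 h5 (ps_nonneg _) (by norm_num)
  unfold JJ; linarith

lemma nodeJ5 : JJ (-(3/5:ℝ)) ≤ (140518826857/2500000000000:ℝ) := by
  obtain ⟨h1, -, -, h4⟩ := node5
  have h5 : ps (-(3/5:ℝ)) ≤ (421691/2500000:ℝ) := by unfold ps; linarith
  have := mul_le_mul h4 h5 (ps_nonneg _) (by norm_num)
  unfold JJ; linarith

lemma nodeJ6 : JJ (-(1/2:ℝ)) ≤ (69638500533/1000000000000:ℝ) := by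
  obtain ⟨h1, -, -, h4⟩ := node6
  have h5 : ps (-(1/2:ℝ)) ≤ (197799/1000000:ℝ) := by unfold ps; linarith
  have := mul_le_mul h4 h5 (ps_nonneg _) (by norm_num)
  unfold JJ; linarith

lemma nodeJ7 : JJ (-(2/5:ℝ)) ≤ (1657523221/19531250000:ℝ) := by
  obtain ⟨h1, -, -, h4⟩ := node7
  have h5 : ps (-(2/5:ℝ)) ≤ (72013/312500:ℝ) := by unfold ps; linarith
  have := mul_le_mul h4 h5 (ps_nonneg _) (by norm_num)
  unfold JJ; linarith

lemma JJ_chord0 {a1 a α β : ℝ} (h1 : a ≤ a1) (h2 : a1 ≤ 0) (hα : 0 ≤ α) (hβ : 0 < β)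
    (e1 : JJ a1 ≤ α * Ph a1 + β) : JJ a ≤ α * Ph a + β := by
  obtain ⟨a0, h3, h4⟩ := ((tendsto_JJ_atBot.eventually (gt_mem_nhds hβ)).and
    (eventually_le_atBot a)).exists
  exact JJ_chord h4 h1 h2 (by have := mul_nonneg hα (Ph_nonneg a0); linarith) e1

lemma U_line {K J s c l : ℝ} (hK : 0 ≤ K) (hK' : K ≤ 4) (hc : c ≤ 1 / 8) (hJ : J ≤ l)
    (hl : l ≤ 1 / 8) (h : J ≤ 1 / 8 → s ≤ 2 * J - K * J ^ 2) :
    s ≤ (2 - 2 * K * c) * l + K * c ^ 2 := by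
  have h1 := h (hJ.trans hl)
  have h2 : 0 ≤ 2 - 2 * K * c := by nlinarith
  nlinarith [mul_nonneg hK (sq_nonneg (J - c)), mul_le_mul_of_nonneg_left hJ h2]

lemma CellP.two_sq {K p s : ℝ} (hK : 0 ≤ K) (h : CellP K p s) : s ≤ 2 * p ^ 2 := by
  obtain ⟨a, rfl, -, h1, h2⟩ := h
  have h3 := JJ_le_sq a
  rcases le_total (JJ a) (1 / 8) with h4 | h4
  · have := h2 h4
    nlinarith [mul_nonneg hK (sq_nonneg (JJ a))]
  · have h5 := ph_le a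
    have h6 := ph_pos a
    have h7 := cc_bounds.2
    nlinarith

lemma CellP.pos {K p s : ℝ} (h : CellP K p s) : 0 ≤ s ∧ 0 < p ∧ p < 1 := by
  obtain ⟨a, rfl, h0, -, -⟩ := h
  exact ⟨h0, Ph_pos a, Ph_lt_one a⟩

lemma CellP.glob {K p s : ℝ} (hK : 0 ≤ K) (h : CellP K p s) :
    s ≤ (352067/1000000:ℝ) * p + (479/31250:ℝ) ∧ s ≤ (147309/500000:ℝ) * p + (8527/250000:ℝ) ∧ s ≤ (38667/200000:ℝ) * p + (71931/1000000:ℝ) ∧ s ≤ (0:ℝ) * p + (39789/250000:ℝ) := by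
  have h0 := h.two_sq hK
  obtain ⟨a, rfl, -, h1, -⟩ := h
  have hp := Ph_nonneg a
  have hc : s ≤ (39789/250000:ℝ) := by
    have h5 := ph_le a
    have h6 := ph_pos a
    have h7 := cc_bounds.2
    nlinarith
  rcases le_total a (-1) with h4 | h4
  · have h5 := (strictMono_Ph.monotone h4).trans node2.2.1
    refine ⟨?_, ?_, ?_, ?_⟩ <;> nlinarith
  rcases le_total a 1 with h5 | h5
  · refine ⟨?_, ?_, ?_, by linarith⟩
    · obtain ⟨n1, n2, n3, n4⟩ := node6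
      have := ph_sq_tangent (a0 := -(1/2:ℝ)) (a := a) (by constructor <;> norm_num) ⟨h4, h5⟩
      nlinarith [mul_le_mul n4 n4 (ph_pos _).le (by norm_num), mul_le_mul_of_nonneg_right n4 hp,
        mul_le_mul n3 n1 (by norm_num) (ph_pos _).le]
    · obtain ⟨n1, n2, n3, n4⟩ := node7
      have := ph_sq_tangent (a0 := -(2/5:ℝ)) (a := a) (by constructor <;> norm_num) ⟨h4, h5⟩
      nlinarith [mul_le_mul n4 n4 (ph_pos _).le (by norm_num), mul_le_mul_of_nonneg_right n4 hp,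
        mul_le_mul n3 n1 (by norm_num) (ph_pos _).le]
    · obtain ⟨n1, n2, n3, n4⟩ := node8
      have := ph_sq_tangent (a0 := -(1/4:ℝ)) (a := a) (by constructor <;> norm_num) ⟨h4, h5⟩
      nlinarith [mul_le_mul n4 n4 (ph_pos _).le (by norm_num), mul_le_mul_of_nonneg_right n4 hp,
        mul_le_mul n3 n1 (by norm_num) (ph_pos _).le]
  · have h6 := strictMono_Ph.monotone h5
    have h7 := Ph_neg 1
    have h8 := node2.2.1
    have h9 := (ph_anti zero_le_one h5).trans (ph_neg 1 ▸ node2.2.2.2)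
    have h10 := ph_pos a
    have h11 : s ≤ 6 / 100 := by nlinarith
    refine ⟨?_, ?_, ?_, ?_⟩ <;> linarith

def Pieces (K p s : ℝ) : Prop :=
  ((0:ℝ) ≤ p ∧ p ≤ (1/50:ℝ) ∧ s ≤ (1/25:ℝ) * p + (0:ℝ) ∧ s ≤ (2 - 2 * K * (9/5000:ℝ)) * ((56831/1000000:ℝ) * p + (1/1000000:ℝ)) + K * (9/5000:ℝ) ^ 2) ∨
  ((1/50:ℝ) ≤ p ∧ p ≤ (7/200:ℝ) ∧ s ≤ (11/100:ℝ) * p + (-7/5000:ℝ) ∧ s ≤ (2 - 2 * K * (9/5000:ℝ)) * ((56831/1000000:ℝ) * p + (1/1000000:ℝ)) + K * (9/5000:ℝ) ^ 2) ∨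
  ((7/200:ℝ) ≤ p ∧ p ≤ (1/20:ℝ) ∧ s ≤ (17/100:ℝ) * p + (-7/2000:ℝ) ∧ s ≤ (2 - 2 * K * (9/5000:ℝ)) * ((56831/1000000:ℝ) * p + (1/1000000:ℝ)) + K * (9/5000:ℝ) ^ 2) ∨
  ((1/20:ℝ) ≤ p ∧ p ≤ (66809/1000000:ℝ) ∧ s ≤ (6/25:ℝ) * p + (-7/1000:ℝ) ∧ s ≤ (2 - 2 * K * (9/5000:ℝ)) * ((56831/1000000:ℝ) * p + (1/1000000:ℝ)) + K * (9/5000:ℝ) ^ 2) ∨
  ((13361/200000:ℝ) ≤ p ∧ p ≤ (1798/15625:ℝ) ∧ s ≤ (2 - 2 * K * (73/10000:ℝ)) * ((147083/1000000:ℝ) * p + (-6029/1000000:ℝ)) + K * (73/10000:ℝ) ^ 2) ∨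
  ((28767/250000:ℝ) ≤ p ∧ p ≤ (158657/1000000:ℝ) ∧ s ≤ (2 - 2 * K * (31/2000:ℝ)) * ((212597/1000000:ℝ) * p + (-13567/1000000:ℝ)) + K * (31/2000:ℝ) ^ 2) ∨
  ((158653/1000000:ℝ) ≤ p ∧ p ≤ (39533/200000:ℝ) ∧ s ≤ (2 - 2 * K * (253/10000:ℝ)) * ((266881/1000000:ℝ) * p + (-1109/50000:ℝ)) + K * (253/10000:ℝ) ^ 2) ∨
  ((197661/1000000:ℝ) ≤ p ∧ p ≤ (120983/500000:ℝ) ∧ s ≤ (2 - 2 * K * (3/80:ℝ)) * ((15851/50000:ℝ) * p + (-3209/100000:ℝ)) + K * (3/80:ℝ) ^ 2) ∨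
  ((120981/500000:ℝ) ≤ p ∧ p ≤ (54851/200000:ℝ) ∧ s ≤ (2 - 2 * K * (63/1250:ℝ)) * ((71799/200000:ℝ) * p + (-42247/1000000:ℝ)) + K * (63/1250:ℝ) ^ 2) ∨
  ((274251/1000000:ℝ) ≤ p ∧ p ≤ (15427/50000:ℝ) ∧ s ≤ (2 - 2 * K * (629/10000:ℝ)) * ((78349/200000:ℝ) * p + (-12807/250000:ℝ)) + K * (629/10000:ℝ) ^ 2) ∨
  ((38567/125000:ℝ) ≤ p ∧ p ≤ (17229/50000:ℝ) ∧ s ≤ (2 - 2 * K * (193/2500:ℝ)) * ((84499/200000:ℝ) * p + (-15179/250000:ℝ)) + K * (193/2500:ℝ) ^ 2) ∨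
  (5384/15625:ℝ) ≤ p

lemma CellP.pieces {K p s : ℝ} (hK : 0 ≤ K) (hK' : K ≤ 4) (h : CellP K p s) :
    Pieces K p s := by
  have h0 := h.two_sq hK
  obtain ⟨a, rfl, -, -, h2⟩ := h
  have hp := Ph_nonneg a
  unfold Pieces
  rcases le_total a (-(3/2:ℝ)) with b0 | b0
  · have q1 := (strictMono_Ph.monotone b0).trans node0.2.1
    have q2 : JJ a ≤ (56831/1000000:ℝ) * Ph a + (1/1000000:ℝ) := JJ_chord0 b0 (by norm_num) (by norm_num) (by norm_num)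
      (by have := node0.1; have := nodeJ0; linarith)
    have q3 := U_line hK hK' (c := (9/5000:ℝ)) (by norm_num) q2 (by linarith) h2
    rcases le_total (Ph a) (1/50:ℝ) with r0 | r0
    · exact Or.inl ⟨by linarith, r0, by nlinarith [mul_nonneg (show 0 ≤ Ph a - (0:ℝ) by linarith) (show 0 ≤ (1/50:ℝ) - Ph a by linarith)], q3⟩
    rcases le_total (Ph a) (7/200:ℝ) with r1 | r1
    · exact Or.inr (Or.inl ⟨by linarith, r1, by nlinarith [mul_nonneg (show 0 ≤ Ph a - (1/50:ℝ) by linarith) (show 0 ≤ (7/200:ℝ) - Ph a by linarith)], q3⟩)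
    rcases le_total (Ph a) (1/20:ℝ) with r2 | r2
    · exact Or.inr (Or.inr (Or.inl ⟨by linarith, r2, by nlinarith [mul_nonneg (show 0 ≤ Ph a - (7/200:ℝ) by linarith) (show 0 ≤ (1/20:ℝ) - Ph a by linarith)], q3⟩))
    exact Or.inr (Or.inr (Or.inr (Or.inl ⟨by linarith, q1, by nlinarith [mul_nonneg (show 0 ≤ Ph a - (1/20:ℝ) by linarith) (show 0 ≤ (7/100:ℝ) - Ph a by linarith)], q3⟩)))
  rcases le_total a (-(6/5:ℝ)) with b1 | b1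
  · have q0 := node0.1.trans (strictMono_Ph.monotone b0)
    have q1 := (strictMono_Ph.monotone b1).trans node1.2.1
    have q2 : JJ a ≤ (147083/1000000:ℝ) * Ph a + (-6029/1000000:ℝ) := JJ_chord b0 b1 (by norm_num)
      (by have := node0.1; have := nodeJ0; linarith)
      (by have := node1.1; have := nodeJ1; linarith)
    exact Or.inr (Or.inr (Or.inr (Or.inr (Or.inl ⟨q0, q1, U_line hK hK' (c := (73/10000:ℝ)) (by norm_num) q2 (by linarith) h2⟩))))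
  rcases le_total a (-(1:ℝ)) with b2 | b2
  · have q0 := node1.1.trans (strictMono_Ph.monotone b1)
    have q1 := (strictMono_Ph.monotone b2).trans node2.2.1
    have q2 : JJ a ≤ (212597/1000000:ℝ) * Ph a + (-13567/1000000:ℝ) := JJ_chord b1 b2 (by norm_num)
      (by have := node1.1; have := nodeJ1; linarith)
      (by have := node2.1; have := nodeJ2; linarith)
    exact Or.inr (Or.inr (Or.inr (Or.inr (Or.inr (Or.inl ⟨q0, q1, U_line hK hK' (c := (31/2000:ℝ)) (by norm_num) q2 (by linarith) h2⟩)))))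
  rcases le_total a (-(17/20:ℝ)) with b3 | b3
  · have q0 := node2.1.trans (strictMono_Ph.monotone b2)
    have q1 := (strictMono_Ph.monotone b3).trans node3.2.1
    have q2 : JJ a ≤ (266881/1000000:ℝ) * Ph a + (-1109/50000:ℝ) := JJ_chord b2 b3 (by norm_num)
      (by have := node2.1; have := nodeJ2; linarith)
      (by have := node3.1; have := nodeJ3; linarith)
    exact Or.inr (Or.inr (Or.inr (Or.inr (Or.inr (Or.inr (Or.inl ⟨q0, q1, U_line hK hK' (c := (253/10000:ℝ)) (by norm_num) q2 (by linarith) h2⟩))))))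
  rcases le_total a (-(7/10:ℝ)) with b4 | b4
  · have q0 := node3.1.trans (strictMono_Ph.monotone b3)
    have q1 := (strictMono_Ph.monotone b4).trans node4.2.1
    have q2 : JJ a ≤ (15851/50000:ℝ) * Ph a + (-3209/100000:ℝ) := JJ_chord b3 b4 (by norm_num)
      (by have := node3.1; have := nodeJ3; linarith)
      (by have := node4.1; have := nodeJ4; linarith)
    exact Or.inr (Or.inr (Or.inr (Or.inr (Or.inr (Or.inr (Or.inr (Or.inl ⟨q0, q1, U_line hK hK' (c := (3/80:ℝ)) (by norm_num) q2 (by linarith) h2⟩)))))))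
  rcases le_total a (-(3/5:ℝ)) with b5 | b5
  · have q0 := node4.1.trans (strictMono_Ph.monotone b4)
    have q1 := (strictMono_Ph.monotone b5).trans node5.2.1
    have q2 : JJ a ≤ (71799/200000:ℝ) * Ph a + (-42247/1000000:ℝ) := JJ_chord b4 b5 (by norm_num)
      (by have := node4.1; have := nodeJ4; linarith)
      (by have := node5.1; have := nodeJ5; linarith)
    exact Or.inr (Or.inr (Or.inr (Or.inr (Or.inr (Or.inr (Or.inr (Or.inr (Or.inl ⟨q0, q1, U_line hK hK' (c := (63/1250:ℝ)) (by norm_num) q2 (by linarith) h2⟩))))))))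
  rcases le_total a (-(1/2:ℝ)) with b6 | b6
  · have q0 := node5.1.trans (strictMono_Ph.monotone b5)
    have q1 := (strictMono_Ph.monotone b6).trans node6.2.1
    have q2 : JJ a ≤ (78349/200000:ℝ) * Ph a + (-12807/250000:ℝ) := JJ_chord b5 b6 (by norm_num)
      (by have := node5.1; have := nodeJ5; linarith)
      (by have := node6.1; have := nodeJ6; linarith)
    exact Or.inr (Or.inr (Or.inr (Or.inr (Or.inr (Or.inr (Or.inr (Or.inr (Or.inr (Or.inl ⟨q0, q1, U_line hK hK' (c := (629/10000:ℝ)) (by norm_num) q2 (by linarith) h2⟩)))))))))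
  rcases le_total a (-(2/5:ℝ)) with b7 | b7
  · have q0 := node6.1.trans (strictMono_Ph.monotone b6)
    have q1 := (strictMono_Ph.monotone b7).trans node7.2.1
    have q2 : JJ a ≤ (84499/200000:ℝ) * Ph a + (-15179/250000:ℝ) := JJ_chord b6 b7 (by norm_num)
      (by have := node6.1; have := nodeJ6; linarith)
      (by have := node7.1; have := nodeJ7; linarith)
    exact Or.inr (Or.inr (Or.inr (Or.inr (Or.inr (Or.inr (Or.inr (Or.inr (Or.inr (Or.inr (Or.inl ⟨q0, q1, U_line hK hK' (c := (193/2500:ℝ)) (by norm_num) q2 (by linarith) h2⟩))))))))))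
  exact Or.inr (Or.inr (Or.inr (Or.inr (Or.inr (Or.inr (Or.inr (Or.inr (Or.inr (Or.inr (Or.inr (node7.1.trans (strictMono_Ph.monotone b7))))))))))))

def CapP (p s : ℝ) : Prop := p < 1 / 2 → s ≤ (4 * cc * (p * (1 - p))) ^ 2

lemma cap_lines {p s : ℝ} (h : CapP p s) (hs : s ≤ (39789/250000:ℝ)) (hp : 15 / 100 ≤ p) :
    s ≤ (11544003117/25000000000:ℝ) * p + (-257481460827/10000000000000:ℝ) ∧ s ≤ (5347629/12500000:ℝ) * p + (-16042887/1000000000:ℝ) ∧ s ≤ (9571491963/25000000000:ℝ) * p + (-18579954987/10000000000000:ℝ) ∧ s ≤ (763947/3125000:ℝ) * p + (763947/15625000:ℝ) := by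
  rcases lt_or_ge p (1 / 2) with h1 | h1
  · have h2 := h h1
    have h3 := cc_bounds.2
    have h4 := cc_pos
    have h5 : 16 * cc ^ 2 ≤ 254649 / 100000 := by nlinarith
    have h6 : s ≤ 254649 / 100000 * (p * (1 - p)) ^ 2 := by
      nlinarith [mul_le_mul_of_nonneg_right h5 (sq_nonneg (p * (1 - p)))]
    refine ⟨?_, ?_, ?_, ?_⟩
    · nlinarith [mul_nonneg (sq_nonneg (p - (27/100:ℝ))) (show 0 ≤ -(p ^ 2 + (-73/50:ℝ) * p + (1387/10000:ℝ)) by nlinarith)]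
    · nlinarith [mul_nonneg (sq_nonneg (p - (3/10:ℝ))) (show 0 ≤ -(p ^ 2 + (-7/5:ℝ) * p + (7/100:ℝ)) by nlinarith)]
    · nlinarith [mul_nonneg (sq_nonneg (p - (33/100:ℝ))) (show 0 ≤ -(p ^ 2 + (-67/50:ℝ) * p + (67/10000:ℝ)) by nlinarith)]
    · nlinarith [mul_nonneg (sq_nonneg (p - (2/5:ℝ))) (show 0 ≤ -(p ^ 2 + (-6/5:ℝ) * p + (-3/25:ℝ)) by nlinarith)]
  · refine ⟨?_, ?_, ?_, ?_⟩ <;> linarith

end Vale.Agent.P226
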