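import Vale.Agent.P226.N0

/-! Generated linear case analysis, case 5. -/

set_option linter.unusedVariables false

namespace Vale.Agent.P226

lemma rt5_0 (p s : ℝ) (h : CellP (349/100:ℝ) p s) (h2 : s ≤ (1/25:ℝ)) : s ≤ (2489/10000:ℝ) * p := by
  obtain ⟨g1, g2, g3, g4⟩ := h.glob (by norm_num)
  rcases h.pieces (by norm_num) (by norm_num) with ⟨a, b, c, d⟩ | ⟨a, b, c, d⟩ | ⟨a, b, c, d⟩ | ⟨a, b, c, d⟩ | ⟨a, b, c⟩ | ⟨a, b, c⟩ | ⟨a, b, c⟩ | ⟨a, b, c⟩ | ⟨a, b, c⟩ | ⟨a, b, c⟩ | ⟨a, b, c⟩ | a <;> linarith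

lemma ln5_0 {p s : ℝ} (h : CellP (349/100:ℝ) p s) (h1 : (0:ℝ) ≤ s) (h2 : s ≤ (39789/250000:ℝ)) :
    (1247/500:ℝ) * s + (-1/100000:ℝ) ≤ p := by
  obtain ⟨g1, g2, g3, g4⟩ := h.glob (by norm_num)
  rcases h.pieces (by norm_num) (by norm_num) with ⟨a, b, c, d⟩ | ⟨a, b, c, d⟩ | ⟨a, b, c, d⟩ | ⟨a, b, c, d⟩ | ⟨a, b, c⟩ | ⟨a, b, c⟩ | ⟨a, b, c⟩ | ⟨a, b, c⟩ | ⟨a, b, c⟩ | ⟨a, b, c⟩ | ⟨a, b, c⟩ | a
  · linarith
  · linarith
  · linarith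
  · linarith
  · linarith
  · linarith
  · linarith
  · linarith
  · linarith
  · linarith
  · linarith
  · linarith

lemma ln5_1 {p s : ℝ} (h : CellP (349/100:ℝ) p s) (h1 : (0:ℝ) ≤ s) (h2 : s ≤ (1/25:ℝ)) :
    (4017/1000:ℝ) * s + (-1/100000:ℝ) ≤ p := by
  obtain ⟨g1, g2, g3, g4⟩ := h.glob (by norm_num)
  rcases h.pieces (by norm_num) (by norm_num) with ⟨a, b, c, d⟩ | ⟨a, b, c, d⟩ | ⟨a, b, c, d⟩ | ⟨a, b, c, d⟩ | ⟨a, b, c⟩ | ⟨a, b, c⟩ | ⟨a, b, c⟩ | ⟨a, b, c⟩ | ⟨a, b, c⟩ | ⟨a, b, c⟩ | ⟨a, b, c⟩ | a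
  · linarith
  · linarith
  · linarith
  · linarith
  · linarith
  · linarith
  · linarith
  · linarith
  · linarith
  · linarith
  · linarith
  · linarith

lemma leaf5_0 {s1 s2 s3 s4 sg p1 p2 p3 p4 mu t1 t2 t3 : ℝ}
    (D : Dat (349/100:ℝ) (2:ℝ) (62/625:ℝ) s1 s2 s3 s4 sg p1 p2 p3 p4 mu t1 t2 t3)
    (h0 : s3 ≤ (1/25:ℝ)) (h1 : s4 ≤ (1/25:ℝ)) (h2 : t3 ≤ (13/100:ℝ)) : False := by
  obtain ⟨o1, o2, o3, o4, o5, o6, o7, o8, o9, o10, o11, o12, o13, o14, o15, o16, o17, o18, o19⟩ := D.lin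
  have g0 : s1 ≤ (39789/250000:ℝ) := by have := (D.c1.glob (by norm_num)).2.2.2; linarith only [this]
  have L1 : (0:ℝ) ≤ s1 := by linarith only [o1, o2, o3, o5, o7, o8, o9, o11, o12, o13, o15, o16, o17, o18, o19, o4, g0, h0, h1, h2]
  have U1 : s1 ≤ (39789/250000:ℝ) := by linarith only [o1, o2, o3, o5, o7, o8, o9, o11, o12, o13, o15, o16, o17, o18, o19, o4, g0, h0, h1, h2]
  have L2 : (0:ℝ) ≤ s2 := by linarith only [o1, o2, o3, o5, o7, o8, o9, o11, o12, o13, o15, o16, o17, o18, o19, o4, g0, h0, h1, h2]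
  have U2 : s2 ≤ (39789/250000:ℝ) := by linarith only [o1, o2, o3, o5, o7, o8, o9, o11, o12, o13, o15, o16, o17, o18, o19, o4, g0, h0, h1, h2]
  have L3 : (0:ℝ) ≤ s3 := by linarith only [o1, o2, o3, o5, o7, o8, o9, o11, o12, o13, o15, o16, o17, o18, o19, o4, g0, h0, h1, h2]
  have U3 : s3 ≤ (1/25:ℝ) := by linarith only [o1, o2, o3, o5, o7, o8, o9, o11, o12, o13, o15, o16, o17, o18, o19, o4, g0, h0, h1, h2]
  have L4 : (0:ℝ) ≤ s4 := by linarith only [o1, o2, o3, o5, o7, o8, o9, o11, o12, o13, o15, o16, o17, o18, o19, o4, g0, h0, h1, h2]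
  have U4 : s4 ≤ (1/25:ℝ) := by linarith only [o1, o2, o3, o5, o7, o8, o9, o11, o12, o13, o15, o16, o17, o18, o19, o4, g0, h0, h1, h2]
  have A0 : (0:ℝ) ≤ t1 := by linarith only [o1, o2, o3, o5, o7, o8, o9, o11, o12, o13, o15, o16, o17, o18, o19, o4, g0, h0, h1, h2]
  have B0 : t1 ≤ (39789/250000:ℝ) := by linarith only [o1, o2, o3, o5, o7, o8, o9, o11, o12, o13, o15, o16, o17, o18, o19, o4, g0, h0, h1, h2]
  have A1 : (0:ℝ) ≤ t2 := by linarith only [o1, o2, o3, o5, o7, o8, o9, o11, o12, o13, o15, o16, o17, o18, o19, o4, g0, h0, h1, h2]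
  have B1 : t2 ≤ (39789/250000:ℝ) := by linarith only [o1, o2, o3, o5, o7, o8, o9, o11, o12, o13, o15, o16, o17, o18, o19, o4, g0, h0, h1, h2]
  have A2 : (0:ℝ) ≤ t3 := by linarith only [o1, o2, o3, o5, o7, o8, o9, o11, o12, o13, o15, o16, o17, o18, o19, o4, g0, h0, h1, h2]
  have B2 : t3 ≤ (1/25:ℝ) := by linarith only [o1, o2, o3, o5, o7, o8, o9, o11, o12, o13, o15, o16, o17, o18, o19, o4, g0, h0, h1, h2]
  have m0 := D.tcut _ _ _ _ _ _ (31/100:ℝ) A0 B0 A1 B1 A2 B2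
  have m1 := D.tcut _ _ _ _ _ _ (33/100:ℝ) A0 B0 A1 B1 A2 B2
  have u0 : (0:ℝ) ≤ mu := by linarith only [o1, o2, o3, o5, o7, o8, o9, o11, o12, o13, o15, o16, o17, o18, o19, o4, g0, h0, h1, h2]
  have u1 := D.sqc _ (1:ℝ) u0 (by linarith only [o1, o2, o3, o5, o7, o8, o9, o11, o12, o13, o15, o16, o17, o18, o19, o4, g0, h0, h1, h2])
  have u2 := D.rat _ _ rt5_0 U4
  have l1 := ln5_0 D.c1 L1 U1
  have l2 := ln5_0 D.c2 L2 U2
  have l3 := ln5_1 D.c3 L3 U3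
  have l4 := ln5_1 D.c4 L4 U4
  obtain ⟨g11, g12, g13, -⟩ := D.c1.glob (by norm_num)
  obtain ⟨g21, g22, g23, -⟩ := D.c2.glob (by norm_num)
  obtain ⟨g31, g32, g33, -⟩ := D.c3.glob (by norm_num)
  obtain ⟨g41, g42, g43, -⟩ := D.c4.glob (by norm_num)
  linarith

lemma rt5_1 (p s : ℝ) (h : CellP (349/100:ℝ) p s) (h2 : s ≤ (1/50:ℝ)) : s ≤ (1817/10000:ℝ) * p := by
  obtain ⟨g1, g2, g3, g4⟩ := h.glob (by norm_num)
  rcases h.pieces (by norm_num) (by norm_num) with ⟨a, b, c, d⟩ | ⟨a, b, c, d⟩ | ⟨a, b, c, d⟩ | ⟨a, b, c, d⟩ | ⟨a, b, c⟩ | ⟨a, b, c⟩ | ⟨a, b, c⟩ | ⟨a, b, c⟩ | ⟨a, b, c⟩ | ⟨a, b, c⟩ | ⟨a, b, c⟩ | a <;> linarith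

lemma ln5_2 {p s : ℝ} (h : CellP (349/100:ℝ) p s) (h1 : (1/25:ℝ) ≤ s) (h2 : s ≤ (39789/250000:ℝ)) :
    (223/125:ℝ) * s + (1787/20000:ℝ) ≤ p := by
  obtain ⟨g1, g2, g3, g4⟩ := h.glob (by norm_num)
  rcases h.pieces (by norm_num) (by norm_num) with ⟨a, b, c, d⟩ | ⟨a, b, c, d⟩ | ⟨a, b, c, d⟩ | ⟨a, b, c, d⟩ | ⟨a, b, c⟩ | ⟨a, b, c⟩ | ⟨a, b, c⟩ | ⟨a, b, c⟩ | ⟨a, b, c⟩ | ⟨a, b, c⟩ | ⟨a, b, c⟩ | a
  · linarith
  · linarith
  · linarith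
  · linarith
  · linarith
  · linarith
  · linarith
  · linarith
  · linarith
  · linarith
  · linarith
  · linarith

lemma ln5_3 {p s : ℝ} (h : CellP (349/100:ℝ) p s) (h1 : (0:ℝ) ≤ s) (h2 : s ≤ (1/50:ℝ)) :
    (1101/200:ℝ) * s + (-1/100000:ℝ) ≤ p := by
  obtain ⟨g1, g2, g3, g4⟩ := h.glob (by norm_num)
  rcases h.pieces (by norm_num) (by norm_num) with ⟨a, b, c, d⟩ | ⟨a, b, c, d⟩ | ⟨a, b, c, d⟩ | ⟨a, b, c, d⟩ | ⟨a, b, c⟩ | ⟨a, b, c⟩ | ⟨a, b, c⟩ | ⟨a, b, c⟩ | ⟨a, b, c⟩ | ⟨a, b, c⟩ | ⟨a, b, c⟩ | a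
  · linarith
  · linarith
  · linarith
  · linarith
  · linarith
  · linarith
  · linarith
  · linarith
  · linarith
  · linarith
  · linarith
  · linarith

lemma leaf5_1 {s1 s2 s3 s4 sg p1 p2 p3 p4 mu t1 t2 t3 : ℝ}
    (D : Dat (349/100:ℝ) (2:ℝ) (62/625:ℝ) s1 s2 s3 s4 sg p1 p2 p3 p4 mu t1 t2 t3)
    (h0 : (1/25:ℝ) ≤ s3) (h1 : s4 ≤ (1/50:ℝ)) (h2 : t1 ≤ (2/25:ℝ)) (h3 : t3 ≤ (13/100:ℝ)) : False := by
  obtain ⟨o1, o2, o3, o4, o5, o6, o7, o8, o9, o10, o11, o12, o13, o14, o15, o16, o17, o18, o19⟩ := D.lin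
  have g0 : s1 ≤ (39789/250000:ℝ) := by have := (D.c1.glob (by norm_num)).2.2.2; linarith only [this]
  have L1 : (1/25:ℝ) ≤ s1 := by linarith only [o1, o2, o3, o5, o7, o8, o9, o11, o12, o13, o15, o16, o17, o18, o19, o4, g0, h0, h1, h2, h3]
  have U1 : s1 ≤ (39789/250000:ℝ) := by linarith only [o1, o2, o3, o5, o7, o8, o9, o11, o12, o13, o15, o16, o17, o18, o19, o4, g0, h0, h1, h2, h3]
  have L2 : (1/25:ℝ) ≤ s2 := by linarith only [o1, o2, o3, o5, o7, o8, o9, o11, o12, o13, o15, o16, o17, o18, o19, o4, g0, h0, h1, h2, h3]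
  have U2 : s2 ≤ (39789/250000:ℝ) := by linarith only [o1, o2, o3, o5, o7, o8, o9, o11, o12, o13, o15, o16, o17, o18, o19, o4, g0, h0, h1, h2, h3]
  have L3 : (1/25:ℝ) ≤ s3 := by linarith only [o1, o2, o3, o5, o7, o8, o9, o11, o12, o13, o15, o16, o17, o18, o19, o4, g0, h0, h1, h2, h3]
  have U3 : s3 ≤ (39789/250000:ℝ) := by linarith only [o1, o2, o3, o5, o7, o8, o9, o11, o12, o13, o15, o16, o17, o18, o19, o4, g0, h0, h1, h2, h3]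
  have L4 : (0:ℝ) ≤ s4 := by linarith only [o1, o2, o3, o5, o7, o8, o9, o11, o12, o13, o15, o16, o17, o18, o19, o4, g0, h0, h1, h2, h3]
  have U4 : s4 ≤ (1/50:ℝ) := by linarith only [o1, o2, o3, o5, o7, o8, o9, o11, o12, o13, o15, o16, o17, o18, o19, o4, g0, h0, h1, h2, h3]
  have A0 : (0:ℝ) ≤ t1 := by linarith only [o1, o2, o3, o5, o7, o8, o9, o11, o12, o13, o15, o16, o17, o18, o19, o4, g0, h0, h1, h2, h3]
  have B0 : t1 ≤ (2/25:ℝ) := by linarith only [o1, o2, o3, o5, o7, o8, o9, o11, o12, o13, o15, o16, o17, o18, o19, o4, g0, h0, h1, h2, h3]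
  have A1 : (0:ℝ) ≤ t2 := by linarith only [o1, o2, o3, o5, o7, o8, o9, o11, o12, o13, o15, o16, o17, o18, o19, o4, g0, h0, h1, h2, h3]
  have B1 : t2 ≤ (39789/250000:ℝ) := by linarith only [o1, o2, o3, o5, o7, o8, o9, o11, o12, o13, o15, o16, o17, o18, o19, o4, g0, h0, h1, h2, h3]
  have A2 : (0:ℝ) ≤ t3 := by linarith only [o1, o2, o3, o5, o7, o8, o9, o11, o12, o13, o15, o16, o17, o18, o19, o4, g0, h0, h1, h2, h3]
  have B2 : t3 ≤ (13/100:ℝ) := by linarith only [o1, o2, o3, o5, o7, o8, o9, o11, o12, o13, o15, o16, o17, o18, o19, o4, g0, h0, h1, h2, h3]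
  have m0 := D.tcut _ _ _ _ _ _ (31/100:ℝ) A0 B0 A1 B1 A2 B2
  have m1 := D.tcut _ _ _ _ _ _ (33/100:ℝ) A0 B0 A1 B1 A2 B2
  have u0 := D.mlb _ _ _ (3/200:ℝ) L1 L2 L3 (by norm_num) (by norm_num) (by norm_num) (by norm_num) (by norm_num)
  have u1 := D.sqc _ (1:ℝ) u0 (by linarith only [o1, o2, o3, o5, o7, o8, o9, o11, o12, o13, o15, o16, o17, o18, o19, o4, g0, h0, h1, h2, h3])
  have u2 := D.rat _ _ rt5_1 U4
  have l1 := ln5_2 D.c1 L1 U1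
  have l2 := ln5_2 D.c2 L2 U2
  have l3 := ln5_2 D.c3 L3 U3
  have l4 := ln5_3 D.c4 L4 U4
  obtain ⟨g11, g12, g13, -⟩ := D.c1.glob (by norm_num)
  obtain ⟨g21, g22, g23, -⟩ := D.c2.glob (by norm_num)
  obtain ⟨g31, g32, g33, -⟩ := D.c3.glob (by norm_num)
  obtain ⟨g41, g42, g43, -⟩ := D.c4.glob (by norm_num)
  linarith

lemma rt5_2 (p s : ℝ) (h : CellP (349/100:ℝ) p s) (h2 : s ≤ (1/200:ℝ)) : s ≤ (1001/10000:ℝ) * p := by
  obtain ⟨g1, g2, g3, g4⟩ := h.glob (by norm_num)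
  rcases h.pieces (by norm_num) (by norm_num) with ⟨a, b, c, d⟩ | ⟨a, b, c, d⟩ | ⟨a, b, c, d⟩ | ⟨a, b, c, d⟩ | ⟨a, b, c⟩ | ⟨a, b, c⟩ | ⟨a, b, c⟩ | ⟨a, b, c⟩ | ⟨a, b, c⟩ | ⟨a, b, c⟩ | ⟨a, b, c⟩ | a <;> linarith

lemma ln5_4 {p s : ℝ} (h : CellP (349/100:ℝ) p s) (h1 : (0:ℝ) ≤ s) (h2 : s ≤ (1/200:ℝ)) :
    (10:ℝ) * s + (-1/100000:ℝ) ≤ p := by
  obtain ⟨g1, g2, g3, g4⟩ := h.glob (by norm_num)
  rcases h.pieces (by norm_num) (by norm_num) with ⟨a, b, c, d⟩ | ⟨a, b, c, d⟩ | ⟨a, b, c, d⟩ | ⟨a, b, c, d⟩ | ⟨a, b, c⟩ | ⟨a, b, c⟩ | ⟨a, b, c⟩ | ⟨a, b, c⟩ | ⟨a, b, c⟩ | ⟨a, b, c⟩ | ⟨a, b, c⟩ | a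
  · linarith
  · linarith
  · linarith
  · linarith
  · linarith
  · linarith
  · linarith
  · linarith
  · linarith
  · linarith
  · linarith
  · linarith

lemma leaf5_2 {s1 s2 s3 s4 sg p1 p2 p3 p4 mu t1 t2 t3 : ℝ}
    (D : Dat (349/100:ℝ) (2:ℝ) (62/625:ℝ) s1 s2 s3 s4 sg p1 p2 p3 p4 mu t1 t2 t3)
    (h0 : (1/25:ℝ) ≤ s3) (h1 : s4 ≤ (1/200:ℝ)) (h2 : (2/25:ℝ) ≤ t1) (h3 : t2 ≤ (1/8:ℝ)) (h4 : t3 ≤ (13/100:ℝ)) : False := by
  obtain ⟨o1, o2, o3, o4, o5, o6, o7, o8, o9, o10, o11, o12, o13, o14, o15, o16, o17, o18, o19⟩ := D.lin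
  have g0 : s1 ≤ (39789/250000:ℝ) := by have := (D.c1.glob (by norm_num)).2.2.2; linarith only [this]
  have L1 : (1/25:ℝ) ≤ s1 := by linarith only [o1, o2, o3, o5, o7, o8, o9, o11, o12, o13, o15, o16, o17, o18, o19, o4, g0, h0, h1, h2, h3, h4]
  have U1 : s1 ≤ (39789/250000:ℝ) := by linarith only [o1, o2, o3, o5, o7, o8, o9, o11, o12, o13, o15, o16, o17, o18, o19, o4, g0, h0, h1, h2, h3, h4]
  have L2 : (1/25:ℝ) ≤ s2 := by linarith only [o1, o2, o3, o5, o7, o8, o9, o11, o12, o13, o15, o16, o17, o18, o19, o4, g0, h0, h1, h2, h3, h4]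
  have U2 : s2 ≤ (39789/250000:ℝ) := by linarith only [o1, o2, o3, o5, o7, o8, o9, o11, o12, o13, o15, o16, o17, o18, o19, o4, g0, h0, h1, h2, h3, h4]
  have L3 : (1/25:ℝ) ≤ s3 := by linarith only [o1, o2, o3, o5, o7, o8, o9, o11, o12, o13, o15, o16, o17, o18, o19, o4, g0, h0, h1, h2, h3, h4]
  have U3 : s3 ≤ (39789/250000:ℝ) := by linarith only [o1, o2, o3, o5, o7, o8, o9, o11, o12, o13, o15, o16, o17, o18, o19, o4, g0, h0, h1, h2, h3, h4]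
  have L4 : (0:ℝ) ≤ s4 := by linarith only [o1, o2, o3, o5, o7, o8, o9, o11, o12, o13, o15, o16, o17, o18, o19, o4, g0, h0, h1, h2, h3, h4]
  have U4 : s4 ≤ (1/200:ℝ) := by linarith only [o1, o2, o3, o5, o7, o8, o9, o11, o12, o13, o15, o16, o17, o18, o19, o4, g0, h0, h1, h2, h3, h4]
  have A0 : (2/25:ℝ) ≤ t1 := by linarith only [o1, o2, o3, o5, o7, o8, o9, o11, o12, o13, o15, o16, o17, o18, o19, o4, g0, h0, h1, h2, h3, h4]
  have B0 : t1 ≤ (39789/250000:ℝ) := by linarith only [o1, o2, o3, o5, o7, o8, o9, o11, o12, o13, o15, o16, o17, o18, o19, o4, g0, h0, h1, h2, h3, h4]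
  have A1 : (0:ℝ) ≤ t2 := by linarith only [o1, o2, o3, o5, o7, o8, o9, o11, o12, o13, o15, o16, o17, o18, o19, o4, g0, h0, h1, h2, h3, h4]
  have B1 : t2 ≤ (1/8:ℝ) := by linarith only [o1, o2, o3, o5, o7, o8, o9, o11, o12, o13, o15, o16, o17, o18, o19, o4, g0, h0, h1, h2, h3, h4]
  have A2 : (0:ℝ) ≤ t3 := by linarith only [o1, o2, o3, o5, o7, o8, o9, o11, o12, o13, o15, o16, o17, o18, o19, o4, g0, h0, h1, h2, h3, h4]
  have B2 : t3 ≤ (13/100:ℝ) := by linarith only [o1, o2, o3, o5, o7, o8, o9, o11, o12, o13, o15, o16, o17, o18, o19, o4, g0, h0, h1, h2, h3, h4]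
  have m0 := D.tcut _ _ _ _ _ _ (31/100:ℝ) A0 B0 A1 B1 A2 B2
  have m1 := D.tcut _ _ _ _ _ _ (33/100:ℝ) A0 B0 A1 B1 A2 B2
  have u0 := D.mlb _ _ _ (3/200:ℝ) L1 L2 L3 (by norm_num) (by norm_num) (by norm_num) (by norm_num) (by norm_num)
  have u1 := D.sqc _ (1:ℝ) u0 (by linarith only [o1, o2, o3, o5, o7, o8, o9, o11, o12, o13, o15, o16, o17, o18, o19, o4, g0, h0, h1, h2, h3, h4])
  have u2 := D.rat _ _ rt5_2 U4
  have l1 := ln5_2 D.c1 L1 U1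
  have l2 := ln5_2 D.c2 L2 U2
  have l3 := ln5_2 D.c3 L3 U3
  have l4 := ln5_4 D.c4 L4 U4
  obtain ⟨g11, g12, g13, -⟩ := D.c1.glob (by norm_num)
  obtain ⟨g21, g22, g23, -⟩ := D.c2.glob (by norm_num)
  obtain ⟨g31, g32, g33, -⟩ := D.c3.glob (by norm_num)
  obtain ⟨g41, g42, g43, -⟩ := D.c4.glob (by norm_num)
  linarith

lemma leaf5_3 {s1 s2 s3 s4 sg p1 p2 p3 p4 mu t1 t2 t3 : ℝ}
    (D : Dat (349/100:ℝ) (2:ℝ) (62/625:ℝ) s1 s2 s3 s4 sg p1 p2 p3 p4 mu t1 t2 t3)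
    (h0 : (1/25:ℝ) ≤ s3) (h1 : s4 ≤ (1/200:ℝ)) (h2 : (2/25:ℝ) ≤ t1) (h3 : (1/8:ℝ) ≤ t2) (h4 : t3 ≤ (13/100:ℝ)) : False := by
  obtain ⟨o1, o2, o3, o4, o5, o6, o7, o8, o9, o10, o11, o12, o13, o14, o15, o16, o17, o18, o19⟩ := D.lin
  have g0 : s1 ≤ (39789/250000:ℝ) := by have := (D.c1.glob (by norm_num)).2.2.2; linarith only [this]
  have L1 : (1/25:ℝ) ≤ s1 := by linarith only [o1, o2, o3, o5, o7, o8, o9, o11, o12, o13, o15, o16, o17, o18, o19, o4, g0, h0, h1, h2, h3, h4]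
  have U1 : s1 ≤ (39789/250000:ℝ) := by linarith only [o1, o2, o3, o5, o7, o8, o9, o11, o12, o13, o15, o16, o17, o18, o19, o4, g0, h0, h1, h2, h3, h4]
  have L2 : (1/25:ℝ) ≤ s2 := by linarith only [o1, o2, o3, o5, o7, o8, o9, o11, o12, o13, o15, o16, o17, o18, o19, o4, g0, h0, h1, h2, h3, h4]
  have U2 : s2 ≤ (39789/250000:ℝ) := by linarith only [o1, o2, o3, o5, o7, o8, o9, o11, o12, o13, o15, o16, o17, o18, o19, o4, g0, h0, h1, h2, h3, h4]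
  have L3 : (1/25:ℝ) ≤ s3 := by linarith only [o1, o2, o3, o5, o7, o8, o9, o11, o12, o13, o15, o16, o17, o18, o19, o4, g0, h0, h1, h2, h3, h4]
  have U3 : s3 ≤ (39789/250000:ℝ) := by linarith only [o1, o2, o3, o5, o7, o8, o9, o11, o12, o13, o15, o16, o17, o18, o19, o4, g0, h0, h1, h2, h3, h4]
  have L4 : (0:ℝ) ≤ s4 := by linarith only [o1, o2, o3, o5, o7, o8, o9, o11, o12, o13, o15, o16, o17, o18, o19, o4, g0, h0, h1, h2, h3, h4]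
  have U4 : s4 ≤ (1/200:ℝ) := by linarith only [o1, o2, o3, o5, o7, o8, o9, o11, o12, o13, o15, o16, o17, o18, o19, o4, g0, h0, h1, h2, h3, h4]
  have A0 : (2/25:ℝ) ≤ t1 := by linarith only [o1, o2, o3, o5, o7, o8, o9, o11, o12, o13, o15, o16, o17, o18, o19, o4, g0, h0, h1, h2, h3, h4]
  have B0 : t1 ≤ (39789/250000:ℝ) := by linarith only [o1, o2, o3, o5, o7, o8, o9, o11, o12, o13, o15, o16, o17, o18, o19, o4, g0, h0, h1, h2, h3, h4]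
  have A1 : (1/8:ℝ) ≤ t2 := by linarith only [o1, o2, o3, o5, o7, o8, o9, o11, o12, o13, o15, o16, o17, o18, o19, o4, g0, h0, h1, h2, h3, h4]
  have B1 : t2 ≤ (39789/250000:ℝ) := by linarith only [o1, o2, o3, o5, o7, o8, o9, o11, o12, o13, o15, o16, o17, o18, o19, o4, g0, h0, h1, h2, h3, h4]
  have A2 : (0:ℝ) ≤ t3 := by linarith only [o1, o2, o3, o5, o7, o8, o9, o11, o12, o13, o15, o16, o17, o18, o19, o4, g0, h0, h1, h2, h3, h4]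
  have B2 : t3 ≤ (13/100:ℝ) := by linarith only [o1, o2, o3, o5, o7, o8, o9, o11, o12, o13, o15, o16, o17, o18, o19, o4, g0, h0, h1, h2, h3, h4]
  have m0 := D.tcut _ _ _ _ _ _ (31/100:ℝ) A0 B0 A1 B1 A2 B2
  have m1 := D.tcut _ _ _ _ _ _ (33/100:ℝ) A0 B0 A1 B1 A2 B2
  have u0 := D.mlb _ _ _ (3/200:ℝ) L1 L2 L3 (by norm_num) (by norm_num) (by norm_num) (by norm_num) (by norm_num)
  have u1 := D.sqc _ (1:ℝ) u0 (by linarith only [o1, o2, o3, o5, o7, o8, o9, o11, o12, o13, o15, o16, o17, o18, o19, o4, g0, h0, h1, h2, h3, h4])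
  have u2 := D.rat _ _ rt5_2 U4
  have l1 := ln5_2 D.c1 L1 U1
  have l2 := ln5_2 D.c2 L2 U2
  have l3 := ln5_2 D.c3 L3 U3
  have l4 := ln5_4 D.c4 L4 U4
  obtain ⟨g11, g12, g13, -⟩ := D.c1.glob (by norm_num)
  obtain ⟨g21, g22, g23, -⟩ := D.c2.glob (by norm_num)
  obtain ⟨g31, g32, g33, -⟩ := D.c3.glob (by norm_num)
  obtain ⟨g41, g42, g43, -⟩ := D.c4.glob (by norm_num)
  linarith

lemma ln5_5 {p s : ℝ} (h : CellP (349/100:ℝ) p s) (h1 : (1/25:ℝ) ≤ s) (h2 : s ≤ (7/100:ℝ)) :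
    (977/500:ℝ) * s + (1651/20000:ℝ) ≤ p := by
  obtain ⟨g1, g2, g3, g4⟩ := h.glob (by norm_num)
  rcases h.pieces (by norm_num) (by norm_num) with ⟨a, b, c, d⟩ | ⟨a, b, c, d⟩ | ⟨a, b, c, d⟩ | ⟨a, b, c, d⟩ | ⟨a, b, c⟩ | ⟨a, b, c⟩ | ⟨a, b, c⟩ | ⟨a, b, c⟩ | ⟨a, b, c⟩ | ⟨a, b, c⟩ | ⟨a, b, c⟩ | a
  · linarith
  · linarith
  · linarith
  · linarith
  · linarith
  · linarith
  · linarith
  · linarith
  · linarith
  · linarith
  · linarith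
  · linarith

lemma ln5_6 {p s : ℝ} (h : CellP (349/100:ℝ) p s) (h1 : (1/200:ℝ) ≤ s) (h2 : s ≤ (1/50:ℝ)) :
    (4007/1000:ℝ) * s + (749/25000:ℝ) ≤ p := by
  obtain ⟨g1, g2, g3, g4⟩ := h.glob (by norm_num)
  rcases h.pieces (by norm_num) (by norm_num) with ⟨a, b, c, d⟩ | ⟨a, b, c, d⟩ | ⟨a, b, c, d⟩ | ⟨a, b, c, d⟩ | ⟨a, b, c⟩ | ⟨a, b, c⟩ | ⟨a, b, c⟩ | ⟨a, b, c⟩ | ⟨a, b, c⟩ | ⟨a, b, c⟩ | ⟨a, b, c⟩ | a
  · linarith
  · linarith
  · linarith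
  · linarith
  · linarith
  · linarith
  · linarith
  · linarith
  · linarith
  · linarith
  · linarith
  · linarith

lemma leaf5_4 {s1 s2 s3 s4 sg p1 p2 p3 p4 mu t1 t2 t3 : ℝ}
    (D : Dat (349/100:ℝ) (2:ℝ) (62/625:ℝ) s1 s2 s3 s4 sg p1 p2 p3 p4 mu t1 t2 t3)
    (h0 : (1/25:ℝ) ≤ s3) (h1 : s3 ≤ (7/100:ℝ)) (h2 : (1/200:ℝ) ≤ s4) (h3 : s4 ≤ (1/50:ℝ)) (h4 : (2/25:ℝ) ≤ t1) (h5 : t3 ≤ (13/100:ℝ)) (h6 : mu ≤ (2/25:ℝ)) : False := by
  obtain ⟨o1, o2, o3, o4, o5, o6, o7, o8, o9, o10, o11, o12, o13, o14, o15, o16, o17, o18, o19⟩ := D.lin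
  have g0 : s1 ≤ (39789/250000:ℝ) := by have := (D.c1.glob (by norm_num)).2.2.2; linarith only [this]
  have L1 : (1/25:ℝ) ≤ s1 := by linarith only [o1, o2, o3, o5, o7, o8, o9, o11, o12, o13, o15, o16, o17, o18, o19, o4, g0, h0, h1, h2, h3, h4, h5, h6]
  have U1 : s1 ≤ (39789/250000:ℝ) := by linarith only [o1, o2, o3, o5, o7, o8, o9, o11, o12, o13, o15, o16, o17, o18, o19, o4, g0, h0, h1, h2, h3, h4, h5, h6]
  have L2 : (1/25:ℝ) ≤ s2 := by linarith only [o1, o2, o3, o5, o7, o8, o9, o11, o12, o13, o15, o16, o17, o18, o19, o4, g0, h0, h1, h2, h3, h4, h5, h6]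
  have U2 : s2 ≤ (39789/250000:ℝ) := by linarith only [o1, o2, o3, o5, o7, o8, o9, o11, o12, o13, o15, o16, o17, o18, o19, o4, g0, h0, h1, h2, h3, h4, h5, h6]
  have L3 : (1/25:ℝ) ≤ s3 := by linarith only [o1, o2, o3, o5, o7, o8, o9, o11, o12, o13, o15, o16, o17, o18, o19, o4, g0, h0, h1, h2, h3, h4, h5, h6]
  have U3 : s3 ≤ (7/100:ℝ) := by linarith only [o1, o2, o3, o5, o7, o8, o9, o11, o12, o13, o15, o16, o17, o18, o19, o4, g0, h0, h1, h2, h3, h4, h5, h6]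
  have L4 : (1/200:ℝ) ≤ s4 := by linarith only [o1, o2, o3, o5, o7, o8, o9, o11, o12, o13, o15, o16, o17, o18, o19, o4, g0, h0, h1, h2, h3, h4, h5, h6]
  have U4 : s4 ≤ (1/50:ℝ) := by linarith only [o1, o2, o3, o5, o7, o8, o9, o11, o12, o13, o15, o16, o17, o18, o19, o4, g0, h0, h1, h2, h3, h4, h5, h6]
  have A0 : (2/25:ℝ) ≤ t1 := by linarith only [o1, o2, o3, o5, o7, o8, o9, o11, o12, o13, o15, o16, o17, o18, o19, o4, g0, h0, h1, h2, h3, h4, h5, h6]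
  have B0 : t1 ≤ (39789/250000:ℝ) := by linarith only [o1, o2, o3, o5, o7, o8, o9, o11, o12, o13, o15, o16, o17, o18, o19, o4, g0, h0, h1, h2, h3, h4, h5, h6]
  have A1 : (0:ℝ) ≤ t2 := by linarith only [o1, o2, o3, o5, o7, o8, o9, o11, o12, o13, o15, o16, o17, o18, o19, o4, g0, h0, h1, h2, h3, h4, h5, h6]
  have B1 : t2 ≤ (39789/250000:ℝ) := by linarith only [o1, o2, o3, o5, o7, o8, o9, o11, o12, o13, o15, o16, o17, o18, o19, o4, g0, h0, h1, h2, h3, h4, h5, h6]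
  have A2 : (0:ℝ) ≤ t3 := by linarith only [o1, o2, o3, o5, o7, o8, o9, o11, o12, o13, o15, o16, o17, o18, o19, o4, g0, h0, h1, h2, h3, h4, h5, h6]
  have B2 : t3 ≤ (7/100:ℝ) := by linarith only [o1, o2, o3, o5, o7, o8, o9, o11, o12, o13, o15, o16, o17, o18, o19, o4, g0, h0, h1, h2, h3, h4, h5, h6]
  have m0 := D.tcut _ _ _ _ _ _ (31/100:ℝ) A0 B0 A1 B1 A2 B2
  have m1 := D.tcut _ _ _ _ _ _ (33/100:ℝ) A0 B0 A1 B1 A2 B2
  have u0 := D.mlb _ _ _ (3/200:ℝ) L1 L2 L3 (by norm_num) (by norm_num) (by norm_num) (by norm_num) (by norm_num)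
  have u1 := D.sqc _ (2/25:ℝ) u0 (by linarith only [o1, o2, o3, o5, o7, o8, o9, o11, o12, o13, o15, o16, o17, o18, o19, o4, g0, h0, h1, h2, h3, h4, h5, h6])
  have u2 := D.rat _ _ rt5_1 U4
  have l1 := ln5_2 D.c1 L1 U1
  have l2 := ln5_2 D.c2 L2 U2
  have l3 := ln5_5 D.c3 L3 U3
  have l4 := ln5_6 D.c4 L4 U4
  obtain ⟨g11, g12, g13, -⟩ := D.c1.glob (by norm_num)
  obtain ⟨g21, g22, g23, -⟩ := D.c2.glob (by norm_num)
  obtain ⟨g31, g32, g33, -⟩ := D.c3.glob (by norm_num)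
  obtain ⟨g41, g42, g43, -⟩ := D.c4.glob (by norm_num)
  linarith

lemma ln5_7 {p s : ℝ} (h : CellP (349/100:ℝ) p s) (h1 : (7/100:ℝ) ≤ s) (h2 : s ≤ (39789/250000:ℝ)) :
    (423/250:ℝ) * s + (1009/10000:ℝ) ≤ p := by
  obtain ⟨g1, g2, g3, g4⟩ := h.glob (by norm_num)
  rcases h.pieces (by norm_num) (by norm_num) with ⟨a, b, c, d⟩ | ⟨a, b, c, d⟩ | ⟨a, b, c, d⟩ | ⟨a, b, c, d⟩ | ⟨a, b, c⟩ | ⟨a, b, c⟩ | ⟨a, b, c⟩ | ⟨a, b, c⟩ | ⟨a, b, c⟩ | ⟨a, b, c⟩ | ⟨a, b, c⟩ | a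
  · linarith
  · linarith
  · linarith
  · linarith
  · linarith
  · linarith
  · linarith
  · linarith
  · linarith
  · linarith
  · linarith
  · linarith

lemma leaf5_5 {s1 s2 s3 s4 sg p1 p2 p3 p4 mu t1 t2 t3 : ℝ}
    (D : Dat (349/100:ℝ) (2:ℝ) (62/625:ℝ) s1 s2 s3 s4 sg p1 p2 p3 p4 mu t1 t2 t3)
    (h0 : (7/100:ℝ) ≤ s3) (h1 : (1/200:ℝ) ≤ s4) (h2 : s4 ≤ (1/50:ℝ)) (h3 : (2/25:ℝ) ≤ t1) (h4 : t2 ≤ (2/25:ℝ)) (h5 : t3 ≤ (13/100:ℝ)) (h6 : mu ≤ (2/25:ℝ)) : False := by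
  obtain ⟨o1, o2, o3, o4, o5, o6, o7, o8, o9, o10, o11, o12, o13, o14, o15, o16, o17, o18, o19⟩ := D.lin
  have g0 : s1 ≤ (39789/250000:ℝ) := by have := (D.c1.glob (by norm_num)).2.2.2; linarith only [this]
  have L1 : (7/100:ℝ) ≤ s1 := by linarith only [o1, o2, o3, o5, o7, o8, o9, o11, o12, o13, o15, o16, o17, o18, o19, o4, g0, h0, h1, h2, h3, h4, h5, h6]
  have U1 : s1 ≤ (39789/250000:ℝ) := by linarith only [o1, o2, o3, o5, o7, o8, o9, o11, o12, o13, o15, o16, o17, o18, o19, o4, g0, h0, h1, h2, h3, h4, h5, h6]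
  have L2 : (7/100:ℝ) ≤ s2 := by linarith only [o1, o2, o3, o5, o7, o8, o9, o11, o12, o13, o15, o16, o17, o18, o19, o4, g0, h0, h1, h2, h3, h4, h5, h6]
  have U2 : s2 ≤ (39789/250000:ℝ) := by linarith only [o1, o2, o3, o5, o7, o8, o9, o11, o12, o13, o15, o16, o17, o18, o19, o4, g0, h0, h1, h2, h3, h4, h5, h6]
  have L3 : (7/100:ℝ) ≤ s3 := by linarith only [o1, o2, o3, o5, o7, o8, o9, o11, o12, o13, o15, o16, o17, o18, o19, o4, g0, h0, h1, h2, h3, h4, h5, h6]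
  have U3 : s3 ≤ (39789/250000:ℝ) := by linarith only [o1, o2, o3, o5, o7, o8, o9, o11, o12, o13, o15, o16, o17, o18, o19, o4, g0, h0, h1, h2, h3, h4, h5, h6]
  have L4 : (1/200:ℝ) ≤ s4 := by linarith only [o1, o2, o3, o5, o7, o8, o9, o11, o12, o13, o15, o16, o17, o18, o19, o4, g0, h0, h1, h2, h3, h4, h5, h6]
  have U4 : s4 ≤ (1/50:ℝ) := by linarith only [o1, o2, o3, o5, o7, o8, o9, o11, o12, o13, o15, o16, o17, o18, o19, o4, g0, h0, h1, h2, h3, h4, h5, h6]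
  have A0 : (2/25:ℝ) ≤ t1 := by linarith only [o1, o2, o3, o5, o7, o8, o9, o11, o12, o13, o15, o16, o17, o18, o19, o4, g0, h0, h1, h2, h3, h4, h5, h6]
  have B0 : t1 ≤ (39789/250000:ℝ) := by linarith only [o1, o2, o3, o5, o7, o8, o9, o11, o12, o13, o15, o16, o17, o18, o19, o4, g0, h0, h1, h2, h3, h4, h5, h6]
  have A1 : (0:ℝ) ≤ t2 := by linarith only [o1, o2, o3, o5, o7, o8, o9, o11, o12, o13, o15, o16, o17, o18, o19, o4, g0, h0, h1, h2, h3, h4, h5, h6]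
  have B1 : t2 ≤ (2/25:ℝ) := by linarith only [o1, o2, o3, o5, o7, o8, o9, o11, o12, o13, o15, o16, o17, o18, o19, o4, g0, h0, h1, h2, h3, h4, h5, h6]
  have A2 : (0:ℝ) ≤ t3 := by linarith only [o1, o2, o3, o5, o7, o8, o9, o11, o12, o13, o15, o16, o17, o18, o19, o4, g0, h0, h1, h2, h3, h4, h5, h6]
  have B2 : t3 ≤ (13/100:ℝ) := by linarith only [o1, o2, o3, o5, o7, o8, o9, o11, o12, o13, o15, o16, o17, o18, o19, o4, g0, h0, h1, h2, h3, h4, h5, h6]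
  have m0 := D.tcut _ _ _ _ _ _ (31/100:ℝ) A0 B0 A1 B1 A2 B2
  have m1 := D.tcut _ _ _ _ _ _ (33/100:ℝ) A0 B0 A1 B1 A2 B2
  have u0 := D.mlb _ _ _ (1/40:ℝ) L1 L2 L3 (by norm_num) (by norm_num) (by norm_num) (by norm_num) (by norm_num)
  have u1 := D.sqc _ (2/25:ℝ) u0 (by linarith only [o1, o2, o3, o5, o7, o8, o9, o11, o12, o13, o15, o16, o17, o18, o19, o4, g0, h0, h1, h2, h3, h4, h5, h6])
  have u2 := D.rat _ _ rt5_1 U4
  have l1 := ln5_7 D.c1 L1 U1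
  have l2 := ln5_7 D.c2 L2 U2
  have l3 := ln5_7 D.c3 L3 U3
  have l4 := ln5_6 D.c4 L4 U4
  obtain ⟨g11, g12, g13, -⟩ := D.c1.glob (by norm_num)
  obtain ⟨g21, g22, g23, -⟩ := D.c2.glob (by norm_num)
  obtain ⟨g31, g32, g33, -⟩ := D.c3.glob (by norm_num)
  obtain ⟨g41, g42, g43, -⟩ := D.c4.glob (by norm_num)
  linarith

lemma leaf5_6 {s1 s2 s3 s4 sg p1 p2 p3 p4 mu t1 t2 t3 : ℝ}
    (D : Dat (349/100:ℝ) (2:ℝ) (62/625:ℝ) s1 s2 s3 s4 sg p1 p2 p3 p4 mu t1 t2 t3)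
    (h0 : (7/100:ℝ) ≤ s3) (h1 : (1/200:ℝ) ≤ s4) (h2 : s4 ≤ (1/50:ℝ)) (h3 : (2/25:ℝ) ≤ t1) (h4 : (2/25:ℝ) ≤ t2) (h5 : t3 ≤ (7/100:ℝ)) (h6 : mu ≤ (2/25:ℝ)) : False := by
  obtain ⟨o1, o2, o3, o4, o5, o6, o7, o8, o9, o10, o11, o12, o13, o14, o15, o16, o17, o18, o19⟩ := D.lin
  have g0 : s1 ≤ (39789/250000:ℝ) := by have := (D.c1.glob (by norm_num)).2.2.2; linarith only [this]
  have L1 : (7/100:ℝ) ≤ s1 := by linarith only [o1, o2, o3, o5, o7, o8, o9, o11, o12, o13, o15, o16, o17, o18, o19, o4, g0, h0, h1, h2, h3, h4, h5, h6]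
  have U1 : s1 ≤ (39789/250000:ℝ) := by linarith only [o1, o2, o3, o5, o7, o8, o9, o11, o12, o13, o15, o16, o17, o18, o19, o4, g0, h0, h1, h2, h3, h4, h5, h6]
  have L2 : (7/100:ℝ) ≤ s2 := by linarith only [o1, o2, o3, o5, o7, o8, o9, o11, o12, o13, o15, o16, o17, o18, o19, o4, g0, h0, h1, h2, h3, h4, h5, h6]
  have U2 : s2 ≤ (39789/250000:ℝ) := by linarith only [o1, o2, o3, o5, o7, o8, o9, o11, o12, o13, o15, o16, o17, o18, o19, o4, g0, h0, h1, h2, h3, h4, h5, h6]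
  have L3 : (7/100:ℝ) ≤ s3 := by linarith only [o1, o2, o3, o5, o7, o8, o9, o11, o12, o13, o15, o16, o17, o18, o19, o4, g0, h0, h1, h2, h3, h4, h5, h6]
  have U3 : s3 ≤ (39789/250000:ℝ) := by linarith only [o1, o2, o3, o5, o7, o8, o9, o11, o12, o13, o15, o16, o17, o18, o19, o4, g0, h0, h1, h2, h3, h4, h5, h6]
  have L4 : (1/200:ℝ) ≤ s4 := by linarith only [o1, o2, o3, o5, o7, o8, o9, o11, o12, o13, o15, o16, o17, o18, o19, o4, g0, h0, h1, h2, h3, h4, h5, h6]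
  have U4 : s4 ≤ (1/50:ℝ) := by linarith only [o1, o2, o3, o5, o7, o8, o9, o11, o12, o13, o15, o16, o17, o18, o19, o4, g0, h0, h1, h2, h3, h4, h5, h6]
  have A0 : (2/25:ℝ) ≤ t1 := by linarith only [o1, o2, o3, o5, o7, o8, o9, o11, o12, o13, o15, o16, o17, o18, o19, o4, g0, h0, h1, h2, h3, h4, h5, h6]
  have B0 : t1 ≤ (39789/250000:ℝ) := by linarith only [o1, o2, o3, o5, o7, o8, o9, o11, o12, o13, o15, o16, o17, o18, o19, o4, g0, h0, h1, h2, h3, h4, h5, h6]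
  have A1 : (2/25:ℝ) ≤ t2 := by linarith only [o1, o2, o3, o5, o7, o8, o9, o11, o12, o13, o15, o16, o17, o18, o19, o4, g0, h0, h1, h2, h3, h4, h5, h6]
  have B1 : t2 ≤ (39789/250000:ℝ) := by linarith only [o1, o2, o3, o5, o7, o8, o9, o11, o12, o13, o15, o16, o17, o18, o19, o4, g0, h0, h1, h2, h3, h4, h5, h6]
  have A2 : (0:ℝ) ≤ t3 := by linarith only [o1, o2, o3, o5, o7, o8, o9, o11, o12, o13, o15, o16, o17, o18, o19, o4, g0, h0, h1, h2, h3, h4, h5, h6]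
  have B2 : t3 ≤ (7/100:ℝ) := by linarith only [o1, o2, o3, o5, o7, o8, o9, o11, o12, o13, o15, o16, o17, o18, o19, o4, g0, h0, h1, h2, h3, h4, h5, h6]
  have m0 := D.tcut _ _ _ _ _ _ (31/100:ℝ) A0 B0 A1 B1 A2 B2
  have m1 := D.tcut _ _ _ _ _ _ (33/100:ℝ) A0 B0 A1 B1 A2 B2
  have u0 := D.mlb _ _ _ (1/40:ℝ) L1 L2 L3 (by norm_num) (by norm_num) (by norm_num) (by norm_num) (by norm_num)
  have u1 := D.sqc _ (2/25:ℝ) u0 (by linarith only [o1, o2, o3, o5, o7, o8, o9, o11, o12, o13, o15, o16, o17, o18, o19, o4, g0, h0, h1, h2, h3, h4, h5, h6])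
  have u2 := D.rat _ _ rt5_1 U4
  have l1 := ln5_7 D.c1 L1 U1
  have l2 := ln5_7 D.c2 L2 U2
  have l3 := ln5_7 D.c3 L3 U3
  have l4 := ln5_6 D.c4 L4 U4
  obtain ⟨g11, g12, g13, -⟩ := D.c1.glob (by norm_num)
  obtain ⟨g21, g22, g23, -⟩ := D.c2.glob (by norm_num)
  obtain ⟨g31, g32, g33, -⟩ := D.c3.glob (by norm_num)
  obtain ⟨g41, g42, g43, -⟩ := D.c4.glob (by norm_num)
  linarith

lemma ln5_8 {p s : ℝ} (h : CellP (349/100:ℝ) p s) (h1 : (7/100:ℝ) ≤ s) (h2 : s ≤ (2/25:ℝ)) :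
    (907/500:ℝ) * s + (2309/25000:ℝ) ≤ p := by
  obtain ⟨g1, g2, g3, g4⟩ := h.glob (by norm_num)
  rcases h.pieces (by norm_num) (by norm_num) with ⟨a, b, c, d⟩ | ⟨a, b, c, d⟩ | ⟨a, b, c, d⟩ | ⟨a, b, c, d⟩ | ⟨a, b, c⟩ | ⟨a, b, c⟩ | ⟨a, b, c⟩ | ⟨a, b, c⟩ | ⟨a, b, c⟩ | ⟨a, b, c⟩ | ⟨a, b, c⟩ | a
  · linarith
  · linarith
  · linarith
  · linarith
  · linarith
  · linarith
  · linarith
  · linarith
  · linarith
  · linarith
  · linarith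
  · linarith

lemma leaf5_7 {s1 s2 s3 s4 sg p1 p2 p3 p4 mu t1 t2 t3 : ℝ}
    (D : Dat (349/100:ℝ) (2:ℝ) (62/625:ℝ) s1 s2 s3 s4 sg p1 p2 p3 p4 mu t1 t2 t3)
    (h0 : (7/100:ℝ) ≤ s3) (h1 : s3 ≤ (2/25:ℝ)) (h2 : (1/200:ℝ) ≤ s4) (h3 : s4 ≤ (1/50:ℝ)) (h4 : (2/25:ℝ) ≤ t1) (h5 : (2/25:ℝ) ≤ t2) (h6 : (7/100:ℝ) ≤ t3) (h7 : t3 ≤ (13/100:ℝ)) (h8 : mu ≤ (2/25:ℝ)) : False := by
  obtain ⟨o1, o2, o3, o4, o5, o6, o7, o8, o9, o10, o11, o12, o13, o14, o15, o16, o17, o18, o19⟩ := D.lin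
  have g0 : s1 ≤ (39789/250000:ℝ) := by have := (D.c1.glob (by norm_num)).2.2.2; linarith only [this]
  have L1 : (7/100:ℝ) ≤ s1 := by linarith only [o1, o2, o3, o5, o7, o8, o9, o11, o12, o13, o15, o16, o17, o18, o19, o4, g0, h0, h1, h2, h3, h4, h5, h6, h7, h8]
  have U1 : s1 ≤ (39789/250000:ℝ) := by linarith only [o1, o2, o3, o5, o7, o8, o9, o11, o12, o13, o15, o16, o17, o18, o19, o4, g0, h0, h1, h2, h3, h4, h5, h6, h7, h8]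
  have L2 : (7/100:ℝ) ≤ s2 := by linarith only [o1, o2, o3, o5, o7, o8, o9, o11, o12, o13, o15, o16, o17, o18, o19, o4, g0, h0, h1, h2, h3, h4, h5, h6, h7, h8]
  have U2 : s2 ≤ (39789/250000:ℝ) := by linarith only [o1, o2, o3, o5, o7, o8, o9, o11, o12, o13, o15, o16, o17, o18, o19, o4, g0, h0, h1, h2, h3, h4, h5, h6, h7, h8]
  have L3 : (7/100:ℝ) ≤ s3 := by linarith only [o1, o2, o3, o5, o7, o8, o9, o11, o12, o13, o15, o16, o17, o18, o19, o4, g0, h0, h1, h2, h3, h4, h5, h6, h7, h8]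
  have U3 : s3 ≤ (2/25:ℝ) := by linarith only [o1, o2, o3, o5, o7, o8, o9, o11, o12, o13, o15, o16, o17, o18, o19, o4, g0, h0, h1, h2, h3, h4, h5, h6, h7, h8]
  have L4 : (1/200:ℝ) ≤ s4 := by linarith only [o1, o2, o3, o5, o7, o8, o9, o11, o12, o13, o15, o16, o17, o18, o19, o4, g0, h0, h1, h2, h3, h4, h5, h6, h7, h8]
  have U4 : s4 ≤ (1/50:ℝ) := by linarith only [o1, o2, o3, o5, o7, o8, o9, o11, o12, o13, o15, o16, o17, o18, o19, o4, g0, h0, h1, h2, h3, h4, h5, h6, h7, h8]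
  have A0 : (2/25:ℝ) ≤ t1 := by linarith only [o1, o2, o3, o5, o7, o8, o9, o11, o12, o13, o15, o16, o17, o18, o19, o4, g0, h0, h1, h2, h3, h4, h5, h6, h7, h8]
  have B0 : t1 ≤ (39789/250000:ℝ) := by linarith only [o1, o2, o3, o5, o7, o8, o9, o11, o12, o13, o15, o16, o17, o18, o19, o4, g0, h0, h1, h2, h3, h4, h5, h6, h7, h8]
  have A1 : (2/25:ℝ) ≤ t2 := by linarith only [o1, o2, o3, o5, o7, o8, o9, o11, o12, o13, o15, o16, o17, o18, o19, o4, g0, h0, h1, h2, h3, h4, h5, h6, h7, h8]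
  have B1 : t2 ≤ (39789/250000:ℝ) := by linarith only [o1, o2, o3, o5, o7, o8, o9, o11, o12, o13, o15, o16, o17, o18, o19, o4, g0, h0, h1, h2, h3, h4, h5, h6, h7, h8]
  have A2 : (7/100:ℝ) ≤ t3 := by linarith only [o1, o2, o3, o5, o7, o8, o9, o11, o12, o13, o15, o16, o17, o18, o19, o4, g0, h0, h1, h2, h3, h4, h5, h6, h7, h8]
  have B2 : t3 ≤ (2/25:ℝ) := by linarith only [o1, o2, o3, o5, o7, o8, o9, o11, o12, o13, o15, o16, o17, o18, o19, o4, g0, h0, h1, h2, h3, h4, h5, h6, h7, h8]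
  have m0 := D.tcut _ _ _ _ _ _ (31/100:ℝ) A0 B0 A1 B1 A2 B2
  have m1 := D.tcut _ _ _ _ _ _ (33/100:ℝ) A0 B0 A1 B1 A2 B2
  have u0 := D.mlb _ _ _ (1/40:ℝ) L1 L2 L3 (by norm_num) (by norm_num) (by norm_num) (by norm_num) (by norm_num)
  have u1 := D.sqc _ (2/25:ℝ) u0 (by linarith only [o1, o2, o3, o5, o7, o8, o9, o11, o12, o13, o15, o16, o17, o18, o19, o4, g0, h0, h1, h2, h3, h4, h5, h6, h7, h8])
  have u2 := D.rat _ _ rt5_1 U4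
  have l1 := ln5_7 D.c1 L1 U1
  have l2 := ln5_7 D.c2 L2 U2
  have l3 := ln5_8 D.c3 L3 U3
  have l4 := ln5_6 D.c4 L4 U4
  obtain ⟨g11, g12, g13, -⟩ := D.c1.glob (by norm_num)
  obtain ⟨g21, g22, g23, -⟩ := D.c2.glob (by norm_num)
  obtain ⟨g31, g32, g33, -⟩ := D.c3.glob (by norm_num)
  obtain ⟨g41, g42, g43, -⟩ := D.c4.glob (by norm_num)
  linarith

lemma ln5_9 {p s : ℝ} (h : CellP (349/100:ℝ) p s) (h1 : (2/25:ℝ) ≤ s) (h2 : s ≤ (13/100:ℝ)) :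
    (833/500:ℝ) * s + (10421/100000:ℝ) ≤ p := by
  obtain ⟨g1, g2, g3, g4⟩ := h.glob (by norm_num)
  rcases h.pieces (by norm_num) (by norm_num) with ⟨a, b, c, d⟩ | ⟨a, b, c, d⟩ | ⟨a, b, c, d⟩ | ⟨a, b, c, d⟩ | ⟨a, b, c⟩ | ⟨a, b, c⟩ | ⟨a, b, c⟩ | ⟨a, b, c⟩ | ⟨a, b, c⟩ | ⟨a, b, c⟩ | ⟨a, b, c⟩ | a
  · linarith
  · linarith
  · linarith
  · linarith
  · linarith
  · linarith
  · linarith
  · linarith
  · linarith
  · linarith
  · linarith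
  · linarith

lemma leaf5_8 {s1 s2 s3 s4 sg p1 p2 p3 p4 mu t1 t2 t3 : ℝ}
    (D : Dat (349/100:ℝ) (2:ℝ) (62/625:ℝ) s1 s2 s3 s4 sg p1 p2 p3 p4 mu t1 t2 t3)
    (h0 : s1 ≤ (13/100:ℝ)) (h1 : (2/25:ℝ) ≤ s3) (h2 : (1/200:ℝ) ≤ s4) (h3 : s4 ≤ (1/50:ℝ)) (h4 : (2/25:ℝ) ≤ t1) (h5 : (2/25:ℝ) ≤ t2) (h6 : (7/100:ℝ) ≤ t3) (h7 : t3 ≤ (13/100:ℝ)) (h8 : mu ≤ (2/25:ℝ)) : False := by
  obtain ⟨o1, o2, o3, o4, o5, o6, o7, o8, o9, o10, o11, o12, o13, o14, o15, o16, o17, o18, o19⟩ := D.lin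
  have g0 : s1 ≤ (39789/250000:ℝ) := by have := (D.c1.glob (by norm_num)).2.2.2; linarith only [this]
  have L1 : (2/25:ℝ) ≤ s1 := by linarith only [o1, o2, o3, o5, o7, o8, o9, o11, o12, o13, o15, o16, o17, o18, o19, o4, g0, h0, h1, h2, h3, h4, h5, h6, h7, h8]
  have U1 : s1 ≤ (13/100:ℝ) := by linarith only [o1, o2, o3, o5, o7, o8, o9, o11, o12, o13, o15, o16, o17, o18, o19, o4, g0, h0, h1, h2, h3, h4, h5, h6, h7, h8]
  have L2 : (2/25:ℝ) ≤ s2 := by linarith only [o1, o2, o3, o5, o7, o8, o9, o11, o12, o13, o15, o16, o17, o18, o19, o4, g0, h0, h1, h2, h3, h4, h5, h6, h7, h8]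
  have U2 : s2 ≤ (13/100:ℝ) := by linarith only [o1, o2, o3, o5, o7, o8, o9, o11, o12, o13, o15, o16, o17, o18, o19, o4, g0, h0, h1, h2, h3, h4, h5, h6, h7, h8]
  have L3 : (2/25:ℝ) ≤ s3 := by linarith only [o1, o2, o3, o5, o7, o8, o9, o11, o12, o13, o15, o16, o17, o18, o19, o4, g0, h0, h1, h2, h3, h4, h5, h6, h7, h8]
  have U3 : s3 ≤ (13/100:ℝ) := by linarith only [o1, o2, o3, o5, o7, o8, o9, o11, o12, o13, o15, o16, o17, o18, o19, o4, g0, h0, h1, h2, h3, h4, h5, h6, h7, h8]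
  have L4 : (1/200:ℝ) ≤ s4 := by linarith only [o1, o2, o3, o5, o7, o8, o9, o11, o12, o13, o15, o16, o17, o18, o19, o4, g0, h0, h1, h2, h3, h4, h5, h6, h7, h8]
  have U4 : s4 ≤ (1/50:ℝ) := by linarith only [o1, o2, o3, o5, o7, o8, o9, o11, o12, o13, o15, o16, o17, o18, o19, o4, g0, h0, h1, h2, h3, h4, h5, h6, h7, h8]
  have A0 : (2/25:ℝ) ≤ t1 := by linarith only [o1, o2, o3, o5, o7, o8, o9, o11, o12, o13, o15, o16, o17, o18, o19, o4, g0, h0, h1, h2, h3, h4, h5, h6, h7, h8]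
  have B0 : t1 ≤ (13/100:ℝ) := by linarith only [o1, o2, o3, o5, o7, o8, o9, o11, o12, o13, o15, o16, o17, o18, o19, o4, g0, h0, h1, h2, h3, h4, h5, h6, h7, h8]
  have A1 : (2/25:ℝ) ≤ t2 := by linarith only [o1, o2, o3, o5, o7, o8, o9, o11, o12, o13, o15, o16, o17, o18, o19, o4, g0, h0, h1, h2, h3, h4, h5, h6, h7, h8]
  have B1 : t2 ≤ (13/100:ℝ) := by linarith only [o1, o2, o3, o5, o7, o8, o9, o11, o12, o13, o15, o16, o17, o18, o19, o4, g0, h0, h1, h2, h3, h4, h5, h6, h7, h8]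
  have A2 : (7/100:ℝ) ≤ t3 := by linarith only [o1, o2, o3, o5, o7, o8, o9, o11, o12, o13, o15, o16, o17, o18, o19, o4, g0, h0, h1, h2, h3, h4, h5, h6, h7, h8]
  have B2 : t3 ≤ (13/100:ℝ) := by linarith only [o1, o2, o3, o5, o7, o8, o9, o11, o12, o13, o15, o16, o17, o18, o19, o4, g0, h0, h1, h2, h3, h4, h5, h6, h7, h8]
  have m0 := D.tcut _ _ _ _ _ _ (31/100:ℝ) A0 B0 A1 B1 A2 B2
  have m1 := D.tcut _ _ _ _ _ _ (33/100:ℝ) A0 B0 A1 B1 A2 B2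
  have u0 := D.mlb _ _ _ (3/100:ℝ) L1 L2 L3 (by norm_num) (by norm_num) (by norm_num) (by norm_num) (by norm_num)
  have u1 := D.sqc _ (2/25:ℝ) u0 (by linarith only [o1, o2, o3, o5, o7, o8, o9, o11, o12, o13, o15, o16, o17, o18, o19, o4, g0, h0, h1, h2, h3, h4, h5, h6, h7, h8])
  have u2 := D.rat _ _ rt5_1 U4
  have l1 := ln5_9 D.c1 L1 U1
  have l2 := ln5_9 D.c2 L2 U2
  have l3 := ln5_9 D.c3 L3 U3
  have l4 := ln5_6 D.c4 L4 U4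
  obtain ⟨g11, g12, g13, -⟩ := D.c1.glob (by norm_num)
  obtain ⟨g21, g22, g23, -⟩ := D.c2.glob (by norm_num)
  obtain ⟨g31, g32, g33, -⟩ := D.c3.glob (by norm_num)
  obtain ⟨g41, g42, g43, -⟩ := D.c4.glob (by norm_num)
  linarith

lemma ln5_10 {p s : ℝ} (h : CellP (349/100:ℝ) p s) (h1 : (13/100:ℝ) ≤ s) (h2 : s ≤ (39789/250000:ℝ)) :
    (71/25:ℝ) * s + (-87/2000:ℝ) ≤ p := by
  obtain ⟨g1, g2, g3, g4⟩ := h.glob (by norm_num)
  rcases h.pieces (by norm_num) (by norm_num) with ⟨a, b, c, d⟩ | ⟨a, b, c, d⟩ | ⟨a, b, c, d⟩ | ⟨a, b, c, d⟩ | ⟨a, b, c⟩ | ⟨a, b, c⟩ | ⟨a, b, c⟩ | ⟨a, b, c⟩ | ⟨a, b, c⟩ | ⟨a, b, c⟩ | ⟨a, b, c⟩ | a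
  · linarith
  · linarith
  · linarith
  · linarith
  · linarith
  · linarith
  · linarith
  · linarith
  · linarith
  · linarith
  · linarith
  · linarith

lemma ln5_11 {p s : ℝ} (h : CellP (349/100:ℝ) p s) (h1 : (2/25:ℝ) ≤ s) (h2 : s ≤ (39789/250000:ℝ)) :
    (833/500:ℝ) * s + (10421/100000:ℝ) ≤ p := by
  obtain ⟨g1, g2, g3, g4⟩ := h.glob (by norm_num)
  rcases h.pieces (by norm_num) (by norm_num) with ⟨a, b, c, d⟩ | ⟨a, b, c, d⟩ | ⟨a, b, c, d⟩ | ⟨a, b, c, d⟩ | ⟨a, b, c⟩ | ⟨a, b, c⟩ | ⟨a, b, c⟩ | ⟨a, b, c⟩ | ⟨a, b, c⟩ | ⟨a, b, c⟩ | ⟨a, b, c⟩ | a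
  · linarith
  · linarith
  · linarith
  · linarith
  · linarith
  · linarith
  · linarith
  · linarith
  · linarith
  · linarith
  · linarith
  · linarith

lemma leaf5_9 {s1 s2 s3 s4 sg p1 p2 p3 p4 mu t1 t2 t3 : ℝ}
    (D : Dat (349/100:ℝ) (2:ℝ) (62/625:ℝ) s1 s2 s3 s4 sg p1 p2 p3 p4 mu t1 t2 t3)
    (h0 : (13/100:ℝ) ≤ s1) (h1 : (2/25:ℝ) ≤ s3) (h2 : (1/200:ℝ) ≤ s4) (h3 : s4 ≤ (1/50:ℝ)) (h4 : (2/25:ℝ) ≤ t1) (h5 : (2/25:ℝ) ≤ t2) (h6 : (7/100:ℝ) ≤ t3) (h7 : t3 ≤ (13/100:ℝ)) (h8 : mu ≤ (2/25:ℝ)) : False := by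
  obtain ⟨o1, o2, o3, o4, o5, o6, o7, o8, o9, o10, o11, o12, o13, o14, o15, o16, o17, o18, o19⟩ := D.lin
  have g0 : s1 ≤ (39789/250000:ℝ) := by have := (D.c1.glob (by norm_num)).2.2.2; linarith only [this]
  have L1 : (13/100:ℝ) ≤ s1 := by linarith only [o1, o2, o3, o5, o7, o8, o9, o11, o12, o13, o15, o16, o17, o18, o19, o4, g0, h0, h1, h2, h3, h4, h5, h6, h7, h8]
  have U1 : s1 ≤ (39789/250000:ℝ) := by linarith only [o1, o2, o3, o5, o7, o8, o9, o11, o12, o13, o15, o16, o17, o18, o19, o4, g0, h0, h1, h2, h3, h4, h5, h6, h7, h8]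
  have L2 : (2/25:ℝ) ≤ s2 := by linarith only [o1, o2, o3, o5, o7, o8, o9, o11, o12, o13, o15, o16, o17, o18, o19, o4, g0, h0, h1, h2, h3, h4, h5, h6, h7, h8]
  have U2 : s2 ≤ (39789/250000:ℝ) := by linarith only [o1, o2, o3, o5, o7, o8, o9, o11, o12, o13, o15, o16, o17, o18, o19, o4, g0, h0, h1, h2, h3, h4, h5, h6, h7, h8]
  have L3 : (2/25:ℝ) ≤ s3 := by linarith only [o1, o2, o3, o5, o7, o8, o9, o11, o12, o13, o15, o16, o17, o18, o19, o4, g0, h0, h1, h2, h3, h4, h5, h6, h7, h8]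
  have U3 : s3 ≤ (39789/250000:ℝ) := by linarith only [o1, o2, o3, o5, o7, o8, o9, o11, o12, o13, o15, o16, o17, o18, o19, o4, g0, h0, h1, h2, h3, h4, h5, h6, h7, h8]
  have L4 : (1/200:ℝ) ≤ s4 := by linarith only [o1, o2, o3, o5, o7, o8, o9, o11, o12, o13, o15, o16, o17, o18, o19, o4, g0, h0, h1, h2, h3, h4, h5, h6, h7, h8]
  have U4 : s4 ≤ (1/50:ℝ) := by linarith only [o1, o2, o3, o5, o7, o8, o9, o11, o12, o13, o15, o16, o17, o18, o19, o4, g0, h0, h1, h2, h3, h4, h5, h6, h7, h8]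
  have A0 : (2/25:ℝ) ≤ t1 := by linarith only [o1, o2, o3, o5, o7, o8, o9, o11, o12, o13, o15, o16, o17, o18, o19, o4, g0, h0, h1, h2, h3, h4, h5, h6, h7, h8]
  have B0 : t1 ≤ (39789/250000:ℝ) := by linarith only [o1, o2, o3, o5, o7, o8, o9, o11, o12, o13, o15, o16, o17, o18, o19, o4, g0, h0, h1, h2, h3, h4, h5, h6, h7, h8]
  have A1 : (2/25:ℝ) ≤ t2 := by linarith only [o1, o2, o3, o5, o7, o8, o9, o11, o12, o13, o15, o16, o17, o18, o19, o4, g0, h0, h1, h2, h3, h4, h5, h6, h7, h8]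
  have B1 : t2 ≤ (39789/250000:ℝ) := by linarith only [o1, o2, o3, o5, o7, o8, o9, o11, o12, o13, o15, o16, o17, o18, o19, o4, g0, h0, h1, h2, h3, h4, h5, h6, h7, h8]
  have A2 : (7/100:ℝ) ≤ t3 := by linarith only [o1, o2, o3, o5, o7, o8, o9, o11, o12, o13, o15, o16, o17, o18, o19, o4, g0, h0, h1, h2, h3, h4, h5, h6, h7, h8]
  have B2 : t3 ≤ (13/100:ℝ) := by linarith only [o1, o2, o3, o5, o7, o8, o9, o11, o12, o13, o15, o16, o17, o18, o19, o4, g0, h0, h1, h2, h3, h4, h5, h6, h7, h8]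
  have m0 := D.tcut _ _ _ _ _ _ (31/100:ℝ) A0 B0 A1 B1 A2 B2
  have m1 := D.tcut _ _ _ _ _ _ (33/100:ℝ) A0 B0 A1 B1 A2 B2
  have u0 := D.mlb _ _ _ (7/200:ℝ) L1 L2 L3 (by norm_num) (by norm_num) (by norm_num) (by norm_num) (by norm_num)
  have u1 := D.sqc _ (2/25:ℝ) u0 (by linarith only [o1, o2, o3, o5, o7, o8, o9, o11, o12, o13, o15, o16, o17, o18, o19, o4, g0, h0, h1, h2, h3, h4, h5, h6, h7, h8])
  have u2 := D.rat _ _ rt5_1 U4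
  have l1 := ln5_10 D.c1 L1 U1
  have l2 := ln5_11 D.c2 L2 U2
  have l3 := ln5_11 D.c3 L3 U3
  have l4 := ln5_6 D.c4 L4 U4
  obtain ⟨g11, g12, g13, -⟩ := D.c1.glob (by norm_num)
  obtain ⟨g21, g22, g23, -⟩ := D.c2.glob (by norm_num)
  obtain ⟨g31, g32, g33, -⟩ := D.c3.glob (by norm_num)
  obtain ⟨g41, g42, g43, -⟩ := D.c4.glob (by norm_num)
  linarith

lemma leaf5_10 {s1 s2 s3 s4 sg p1 p2 p3 p4 mu t1 t2 t3 : ℝ}
    (D : Dat (349/100:ℝ) (2:ℝ) (62/625:ℝ) s1 s2 s3 s4 sg p1 p2 p3 p4 mu t1 t2 t3)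
    (h0 : (1/25:ℝ) ≤ s3) (h1 : (1/200:ℝ) ≤ s4) (h2 : s4 ≤ (1/50:ℝ)) (h3 : (2/25:ℝ) ≤ t1) (h4 : t3 ≤ (13/100:ℝ)) (h5 : (2/25:ℝ) ≤ mu) : False := by
  obtain ⟨o1, o2, o3, o4, o5, o6, o7, o8, o9, o10, o11, o12, o13, o14, o15, o16, o17, o18, o19⟩ := D.lin
  have g0 : s1 ≤ (39789/250000:ℝ) := by have := (D.c1.glob (by norm_num)).2.2.2; linarith only [this]
  have L1 : (1/25:ℝ) ≤ s1 := by linarith only [o1, o2, o3, o5, o7, o8, o9, o11, o12, o13, o15, o16, o17, o18, o19, o4, g0, h0, h1, h2, h3, h4, h5]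
  have U1 : s1 ≤ (39789/250000:ℝ) := by linarith only [o1, o2, o3, o5, o7, o8, o9, o11, o12, o13, o15, o16, o17, o18, o19, o4, g0, h0, h1, h2, h3, h4, h5]
  have L2 : (1/25:ℝ) ≤ s2 := by linarith only [o1, o2, o3, o5, o7, o8, o9, o11, o12, o13, o15, o16, o17, o18, o19, o4, g0, h0, h1, h2, h3, h4, h5]
  have U2 : s2 ≤ (39789/250000:ℝ) := by linarith only [o1, o2, o3, o5, o7, o8, o9, o11, o12, o13, o15, o16, o17, o18, o19, o4, g0, h0, h1, h2, h3, h4, h5]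
  have L3 : (1/25:ℝ) ≤ s3 := by linarith only [o1, o2, o3, o5, o7, o8, o9, o11, o12, o13, o15, o16, o17, o18, o19, o4, g0, h0, h1, h2, h3, h4, h5]
  have U3 : s3 ≤ (39789/250000:ℝ) := by linarith only [o1, o2, o3, o5, o7, o8, o9, o11, o12, o13, o15, o16, o17, o18, o19, o4, g0, h0, h1, h2, h3, h4, h5]
  have L4 : (1/200:ℝ) ≤ s4 := by linarith only [o1, o2, o3, o5, o7, o8, o9, o11, o12, o13, o15, o16, o17, o18, o19, o4, g0, h0, h1, h2, h3, h4, h5]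
  have U4 : s4 ≤ (1/50:ℝ) := by linarith only [o1, o2, o3, o5, o7, o8, o9, o11, o12, o13, o15, o16, o17, o18, o19, o4, g0, h0, h1, h2, h3, h4, h5]
  have A0 : (2/25:ℝ) ≤ t1 := by linarith only [o1, o2, o3, o5, o7, o8, o9, o11, o12, o13, o15, o16, o17, o18, o19, o4, g0, h0, h1, h2, h3, h4, h5]
  have B0 : t1 ≤ (39789/250000:ℝ) := by linarith only [o1, o2, o3, o5, o7, o8, o9, o11, o12, o13, o15, o16, o17, o18, o19, o4, g0, h0, h1, h2, h3, h4, h5]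
  have A1 : (0:ℝ) ≤ t2 := by linarith only [o1, o2, o3, o5, o7, o8, o9, o11, o12, o13, o15, o16, o17, o18, o19, o4, g0, h0, h1, h2, h3, h4, h5]
  have B1 : t2 ≤ (39789/250000:ℝ) := by linarith only [o1, o2, o3, o5, o7, o8, o9, o11, o12, o13, o15, o16, o17, o18, o19, o4, g0, h0, h1, h2, h3, h4, h5]
  have A2 : (0:ℝ) ≤ t3 := by linarith only [o1, o2, o3, o5, o7, o8, o9, o11, o12, o13, o15, o16, o17, o18, o19, o4, g0, h0, h1, h2, h3, h4, h5]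
  have B2 : t3 ≤ (13/100:ℝ) := by linarith only [o1, o2, o3, o5, o7, o8, o9, o11, o12, o13, o15, o16, o17, o18, o19, o4, g0, h0, h1, h2, h3, h4, h5]
  have m0 := D.tcut _ _ _ _ _ _ (31/100:ℝ) A0 B0 A1 B1 A2 B2
  have m1 := D.tcut _ _ _ _ _ _ (33/100:ℝ) A0 B0 A1 B1 A2 B2
  have u0 : (2/25:ℝ) ≤ mu := by linarith only [o1, o2, o3, o5, o7, o8, o9, o11, o12, o13, o15, o16, o17, o18, o19, o4, g0, h0, h1, h2, h3, h4, h5]
  have u1 := D.sqc _ (1:ℝ) u0 (by linarith only [o1, o2, o3, o5, o7, o8, o9, o11, o12, o13, o15, o16, o17, o18, o19, o4, g0, h0, h1, h2, h3, h4, h5])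
  have u2 := D.rat _ _ rt5_1 U4
  have l1 := ln5_2 D.c1 L1 U1
  have l2 := ln5_2 D.c2 L2 U2
  have l3 := ln5_2 D.c3 L3 U3
  have l4 := ln5_6 D.c4 L4 U4
  obtain ⟨g11, g12, g13, -⟩ := D.c1.glob (by norm_num)
  obtain ⟨g21, g22, g23, -⟩ := D.c2.glob (by norm_num)
  obtain ⟨g31, g32, g33, -⟩ := D.c3.glob (by norm_num)
  obtain ⟨g41, g42, g43, -⟩ := D.c4.glob (by norm_num)
  linarith

lemma ln5_12 {p s : ℝ} (h : CellP (349/100:ℝ) p s) (h1 : (1/50:ℝ) ≤ s) (h2 : s ≤ (1/25:ℝ)) :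
    (253/100:ℝ) * s + (119/2000:ℝ) ≤ p := by
  obtain ⟨g1, g2, g3, g4⟩ := h.glob (by norm_num)
  rcases h.pieces (by norm_num) (by norm_num) with ⟨a, b, c, d⟩ | ⟨a, b, c, d⟩ | ⟨a, b, c, d⟩ | ⟨a, b, c, d⟩ | ⟨a, b, c⟩ | ⟨a, b, c⟩ | ⟨a, b, c⟩ | ⟨a, b, c⟩ | ⟨a, b, c⟩ | ⟨a, b, c⟩ | ⟨a, b, c⟩ | a
  · linarith
  · linarith
  · linarith
  · linarith
  · linarith
  · linarith
  · linarith
  · linarith
  · linarith
  · linarith
  · linarith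
  · linarith

lemma leaf5_11 {s1 s2 s3 s4 sg p1 p2 p3 p4 mu t1 t2 t3 : ℝ}
    (D : Dat (349/100:ℝ) (2:ℝ) (62/625:ℝ) s1 s2 s3 s4 sg p1 p2 p3 p4 mu t1 t2 t3)
    (h0 : (1/25:ℝ) ≤ s3) (h1 : s3 ≤ (7/100:ℝ)) (h2 : (1/50:ℝ) ≤ s4) (h3 : s4 ≤ (1/25:ℝ)) (h4 : t3 ≤ (13/100:ℝ)) : False := by
  obtain ⟨o1, o2, o3, o4, o5, o6, o7, o8, o9, o10, o11, o12, o13, o14, o15, o16, o17, o18, o19⟩ := D.lin
  have g0 : s1 ≤ (39789/250000:ℝ) := by have := (D.c1.glob (by norm_num)).2.2.2; linarith only [this]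
  have L1 : (1/25:ℝ) ≤ s1 := by linarith only [o1, o2, o3, o5, o7, o8, o9, o11, o12, o13, o15, o16, o17, o18, o19, o4, g0, h0, h1, h2, h3, h4]
  have U1 : s1 ≤ (39789/250000:ℝ) := by linarith only [o1, o2, o3, o5, o7, o8, o9, o11, o12, o13, o15, o16, o17, o18, o19, o4, g0, h0, h1, h2, h3, h4]
  have L2 : (1/25:ℝ) ≤ s2 := by linarith only [o1, o2, o3, o5, o7, o8, o9, o11, o12, o13, o15, o16, o17, o18, o19, o4, g0, h0, h1, h2, h3, h4]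
  have U2 : s2 ≤ (39789/250000:ℝ) := by linarith only [o1, o2, o3, o5, o7, o8, o9, o11, o12, o13, o15, o16, o17, o18, o19, o4, g0, h0, h1, h2, h3, h4]
  have L3 : (1/25:ℝ) ≤ s3 := by linarith only [o1, o2, o3, o5, o7, o8, o9, o11, o12, o13, o15, o16, o17, o18, o19, o4, g0, h0, h1, h2, h3, h4]
  have U3 : s3 ≤ (7/100:ℝ) := by linarith only [o1, o2, o3, o5, o7, o8, o9, o11, o12, o13, o15, o16, o17, o18, o19, o4, g0, h0, h1, h2, h3, h4]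
  have L4 : (1/50:ℝ) ≤ s4 := by linarith only [o1, o2, o3, o5, o7, o8, o9, o11, o12, o13, o15, o16, o17, o18, o19, o4, g0, h0, h1, h2, h3, h4]
  have U4 : s4 ≤ (1/25:ℝ) := by linarith only [o1, o2, o3, o5, o7, o8, o9, o11, o12, o13, o15, o16, o17, o18, o19, o4, g0, h0, h1, h2, h3, h4]
  have A0 : (0:ℝ) ≤ t1 := by linarith only [o1, o2, o3, o5, o7, o8, o9, o11, o12, o13, o15, o16, o17, o18, o19, o4, g0, h0, h1, h2, h3, h4]
  have B0 : t1 ≤ (39789/250000:ℝ) := by linarith only [o1, o2, o3, o5, o7, o8, o9, o11, o12, o13, o15, o16, o17, o18, o19, o4, g0, h0, h1, h2, h3, h4]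
  have A1 : (0:ℝ) ≤ t2 := by linarith only [o1, o2, o3, o5, o7, o8, o9, o11, o12, o13, o15, o16, o17, o18, o19, o4, g0, h0, h1, h2, h3, h4]
  have B1 : t2 ≤ (39789/250000:ℝ) := by linarith only [o1, o2, o3, o5, o7, o8, o9, o11, o12, o13, o15, o16, o17, o18, o19, o4, g0, h0, h1, h2, h3, h4]
  have A2 : (0:ℝ) ≤ t3 := by linarith only [o1, o2, o3, o5, o7, o8, o9, o11, o12, o13, o15, o16, o17, o18, o19, o4, g0, h0, h1, h2, h3, h4]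
  have B2 : t3 ≤ (7/100:ℝ) := by linarith only [o1, o2, o3, o5, o7, o8, o9, o11, o12, o13, o15, o16, o17, o18, o19, o4, g0, h0, h1, h2, h3, h4]
  have m0 := D.tcut _ _ _ _ _ _ (31/100:ℝ) A0 B0 A1 B1 A2 B2
  have m1 := D.tcut _ _ _ _ _ _ (33/100:ℝ) A0 B0 A1 B1 A2 B2
  have u0 := D.mlb _ _ _ (3/200:ℝ) L1 L2 L3 (by norm_num) (by norm_num) (by norm_num) (by norm_num) (by norm_num)
  have u1 := D.sqc _ (1:ℝ) u0 (by linarith only [o1, o2, o3, o5, o7, o8, o9, o11, o12, o13, o15, o16, o17, o18, o19, o4, g0, h0, h1, h2, h3, h4])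
  have u2 := D.rat _ _ rt5_0 U4
  have l1 := ln5_2 D.c1 L1 U1
  have l2 := ln5_2 D.c2 L2 U2
  have l3 := ln5_5 D.c3 L3 U3
  have l4 := ln5_12 D.c4 L4 U4
  obtain ⟨g11, g12, g13, -⟩ := D.c1.glob (by norm_num)
  obtain ⟨g21, g22, g23, -⟩ := D.c2.glob (by norm_num)
  obtain ⟨g31, g32, g33, -⟩ := D.c3.glob (by norm_num)
  obtain ⟨g41, g42, g43, -⟩ := D.c4.glob (by norm_num)
  linarith

lemma leaf5_12 {s1 s2 s3 s4 sg p1 p2 p3 p4 mu t1 t2 t3 : ℝ}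
    (D : Dat (349/100:ℝ) (2:ℝ) (62/625:ℝ) s1 s2 s3 s4 sg p1 p2 p3 p4 mu t1 t2 t3)
    (h0 : (7/100:ℝ) ≤ s3) (h1 : (1/50:ℝ) ≤ s4) (h2 : s4 ≤ (1/25:ℝ)) (h3 : t3 ≤ (13/100:ℝ)) : False := by
  obtain ⟨o1, o2, o3, o4, o5, o6, o7, o8, o9, o10, o11, o12, o13, o14, o15, o16, o17, o18, o19⟩ := D.lin
  have g0 : s1 ≤ (39789/250000:ℝ) := by have := (D.c1.glob (by norm_num)).2.2.2; linarith only [this]
  have L1 : (7/100:ℝ) ≤ s1 := by linarith only [o1, o2, o3, o5, o7, o8, o9, o11, o12, o13, o15, o16, o17, o18, o19, o4, g0, h0, h1, h2, h3]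
  have U1 : s1 ≤ (39789/250000:ℝ) := by linarith only [o1, o2, o3, o5, o7, o8, o9, o11, o12, o13, o15, o16, o17, o18, o19, o4, g0, h0, h1, h2, h3]
  have L2 : (7/100:ℝ) ≤ s2 := by linarith only [o1, o2, o3, o5, o7, o8, o9, o11, o12, o13, o15, o16, o17, o18, o19, o4, g0, h0, h1, h2, h3]
  have U2 : s2 ≤ (39789/250000:ℝ) := by linarith only [o1, o2, o3, o5, o7, o8, o9, o11, o12, o13, o15, o16, o17, o18, o19, o4, g0, h0, h1, h2, h3]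
  have L3 : (7/100:ℝ) ≤ s3 := by linarith only [o1, o2, o3, o5, o7, o8, o9, o11, o12, o13, o15, o16, o17, o18, o19, o4, g0, h0, h1, h2, h3]
  have U3 : s3 ≤ (39789/250000:ℝ) := by linarith only [o1, o2, o3, o5, o7, o8, o9, o11, o12, o13, o15, o16, o17, o18, o19, o4, g0, h0, h1, h2, h3]
  have L4 : (1/50:ℝ) ≤ s4 := by linarith only [o1, o2, o3, o5, o7, o8, o9, o11, o12, o13, o15, o16, o17, o18, o19, o4, g0, h0, h1, h2, h3]
  have U4 : s4 ≤ (1/25:ℝ) := by linarith only [o1, o2, o3, o5, o7, o8, o9, o11, o12, o13, o15, o16, o17, o18, o19, o4, g0, h0, h1, h2, h3]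
  have A0 : (0:ℝ) ≤ t1 := by linarith only [o1, o2, o3, o5, o7, o8, o9, o11, o12, o13, o15, o16, o17, o18, o19, o4, g0, h0, h1, h2, h3]
  have B0 : t1 ≤ (39789/250000:ℝ) := by linarith only [o1, o2, o3, o5, o7, o8, o9, o11, o12, o13, o15, o16, o17, o18, o19, o4, g0, h0, h1, h2, h3]
  have A1 : (0:ℝ) ≤ t2 := by linarith only [o1, o2, o3, o5, o7, o8, o9, o11, o12, o13, o15, o16, o17, o18, o19, o4, g0, h0, h1, h2, h3]
  have B1 : t2 ≤ (39789/250000:ℝ) := by linarith only [o1, o2, o3, o5, o7, o8, o9, o11, o12, o13, o15, o16, o17, o18, o19, o4, g0, h0, h1, h2, h3]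
  have A2 : (0:ℝ) ≤ t3 := by linarith only [o1, o2, o3, o5, o7, o8, o9, o11, o12, o13, o15, o16, o17, o18, o19, o4, g0, h0, h1, h2, h3]
  have B2 : t3 ≤ (13/100:ℝ) := by linarith only [o1, o2, o3, o5, o7, o8, o9, o11, o12, o13, o15, o16, o17, o18, o19, o4, g0, h0, h1, h2, h3]
  have m0 := D.tcut _ _ _ _ _ _ (31/100:ℝ) A0 B0 A1 B1 A2 B2
  have m1 := D.tcut _ _ _ _ _ _ (33/100:ℝ) A0 B0 A1 B1 A2 B2
  have u0 := D.mlb _ _ _ (1/40:ℝ) L1 L2 L3 (by norm_num) (by norm_num) (by norm_num) (by norm_num) (by norm_num)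
  have u1 := D.sqc _ (1:ℝ) u0 (by linarith only [o1, o2, o3, o5, o7, o8, o9, o11, o12, o13, o15, o16, o17, o18, o19, o4, g0, h0, h1, h2, h3])
  have u2 := D.rat _ _ rt5_0 U4
  have l1 := ln5_7 D.c1 L1 U1
  have l2 := ln5_7 D.c2 L2 U2
  have l3 := ln5_7 D.c3 L3 U3
  have l4 := ln5_12 D.c4 L4 U4
  obtain ⟨g11, g12, g13, -⟩ := D.c1.glob (by norm_num)
  obtain ⟨g21, g22, g23, -⟩ := D.c2.glob (by norm_num)
  obtain ⟨g31, g32, g33, -⟩ := D.c3.glob (by norm_num)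
  obtain ⟨g41, g42, g43, -⟩ := D.c4.glob (by norm_num)
  linarith

lemma leaf5_13 {s1 s2 s3 s4 sg p1 p2 p3 p4 mu t1 t2 t3 : ℝ}
    (D : Dat (349/100:ℝ) (2:ℝ) (62/625:ℝ) s1 s2 s3 s4 sg p1 p2 p3 p4 mu t1 t2 t3)
    (h0 : s4 ≤ (1/25:ℝ)) (h1 : (13/100:ℝ) ≤ t3) : False := by
  obtain ⟨o1, o2, o3, o4, o5, o6, o7, o8, o9, o10, o11, o12, o13, o14, o15, o16, o17, o18, o19⟩ := D.lin
  have g0 : s1 ≤ (39789/250000:ℝ) := by have := (D.c1.glob (by norm_num)).2.2.2; linarith only [this]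
  have L1 : (0:ℝ) ≤ s1 := by linarith only [o1, o2, o3, o5, o7, o8, o9, o11, o12, o13, o15, o16, o17, o18, o19, o4, g0, h0, h1]
  have U1 : s1 ≤ (39789/250000:ℝ) := by linarith only [o1, o2, o3, o5, o7, o8, o9, o11, o12, o13, o15, o16, o17, o18, o19, o4, g0, h0, h1]
  have L2 : (0:ℝ) ≤ s2 := by linarith only [o1, o2, o3, o5, o7, o8, o9, o11, o12, o13, o15, o16, o17, o18, o19, o4, g0, h0, h1]
  have U2 : s2 ≤ (39789/250000:ℝ) := by linarith only [o1, o2, o3, o5, o7, o8, o9, o11, o12, o13, o15, o16, o17, o18, o19, o4, g0, h0, h1]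
  have L3 : (0:ℝ) ≤ s3 := by linarith only [o1, o2, o3, o5, o7, o8, o9, o11, o12, o13, o15, o16, o17, o18, o19, o4, g0, h0, h1]
  have U3 : s3 ≤ (39789/250000:ℝ) := by linarith only [o1, o2, o3, o5, o7, o8, o9, o11, o12, o13, o15, o16, o17, o18, o19, o4, g0, h0, h1]
  have L4 : (0:ℝ) ≤ s4 := by linarith only [o1, o2, o3, o5, o7, o8, o9, o11, o12, o13, o15, o16, o17, o18, o19, o4, g0, h0, h1]
  have U4 : s4 ≤ (1/25:ℝ) := by linarith only [o1, o2, o3, o5, o7, o8, o9, o11, o12, o13, o15, o16, o17, o18, o19, o4, g0, h0, h1]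
  have A0 : (0:ℝ) ≤ t1 := by linarith only [o1, o2, o3, o5, o7, o8, o9, o11, o12, o13, o15, o16, o17, o18, o19, o4, g0, h0, h1]
  have B0 : t1 ≤ (39789/250000:ℝ) := by linarith only [o1, o2, o3, o5, o7, o8, o9, o11, o12, o13, o15, o16, o17, o18, o19, o4, g0, h0, h1]
  have A1 : (0:ℝ) ≤ t2 := by linarith only [o1, o2, o3, o5, o7, o8, o9, o11, o12, o13, o15, o16, o17, o18, o19, o4, g0, h0, h1]
  have B1 : t2 ≤ (39789/250000:ℝ) := by linarith only [o1, o2, o3, o5, o7, o8, o9, o11, o12, o13, o15, o16, o17, o18, o19, o4, g0, h0, h1]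
  have A2 : (13/100:ℝ) ≤ t3 := by linarith only [o1, o2, o3, o5, o7, o8, o9, o11, o12, o13, o15, o16, o17, o18, o19, o4, g0, h0, h1]
  have B2 : t3 ≤ (39789/250000:ℝ) := by linarith only [o1, o2, o3, o5, o7, o8, o9, o11, o12, o13, o15, o16, o17, o18, o19, o4, g0, h0, h1]
  have m0 := D.tcut _ _ _ _ _ _ (31/100:ℝ) A0 B0 A1 B1 A2 B2
  have m1 := D.tcut _ _ _ _ _ _ (33/100:ℝ) A0 B0 A1 B1 A2 B2
  have u0 : (0:ℝ) ≤ mu := by linarith only [o1, o2, o3, o5, o7, o8, o9, o11, o12, o13, o15, o16, o17, o18, o19, o4, g0, h0, h1]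
  have u1 := D.sqc _ (1:ℝ) u0 (by linarith only [o1, o2, o3, o5, o7, o8, o9, o11, o12, o13, o15, o16, o17, o18, o19, o4, g0, h0, h1])
  have u2 := D.rat _ _ rt5_0 U4
  have l1 := ln5_0 D.c1 L1 U1
  have l2 := ln5_0 D.c2 L2 U2
  have l3 := ln5_0 D.c3 L3 U3
  have l4 := ln5_1 D.c4 L4 U4
  obtain ⟨g11, g12, g13, -⟩ := D.c1.glob (by norm_num)
  obtain ⟨g21, g22, g23, -⟩ := D.c2.glob (by norm_num)
  obtain ⟨g31, g32, g33, -⟩ := D.c3.glob (by norm_num)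
  obtain ⟨g41, g42, g43, -⟩ := D.c4.glob (by norm_num)
  linarith

lemma rt5_3 (p s : ℝ) (h : CellP (349/100:ℝ) p s) (h2 : s ≤ (39789/250000:ℝ)) : s ≤ (401/1000:ℝ) * p := by
  obtain ⟨g1, g2, g3, g4⟩ := h.glob (by norm_num)
  rcases h.pieces (by norm_num) (by norm_num) with ⟨a, b, c, d⟩ | ⟨a, b, c, d⟩ | ⟨a, b, c, d⟩ | ⟨a, b, c, d⟩ | ⟨a, b, c⟩ | ⟨a, b, c⟩ | ⟨a, b, c⟩ | ⟨a, b, c⟩ | ⟨a, b, c⟩ | ⟨a, b, c⟩ | ⟨a, b, c⟩ | a <;> linarith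

lemma leaf5_14 {s1 s2 s3 s4 sg p1 p2 p3 p4 mu t1 t2 t3 : ℝ}
    (D : Dat (349/100:ℝ) (2:ℝ) (62/625:ℝ) s1 s2 s3 s4 sg p1 p2 p3 p4 mu t1 t2 t3)
    (h0 : (1/25:ℝ) ≤ s4) : False := by
  obtain ⟨o1, o2, o3, o4, o5, o6, o7, o8, o9, o10, o11, o12, o13, o14, o15, o16, o17, o18, o19⟩ := D.lin
  have g0 : s1 ≤ (39789/250000:ℝ) := by have := (D.c1.glob (by norm_num)).2.2.2; linarith only [this]
  have L1 : (1/25:ℝ) ≤ s1 := by linarith only [o1, o2, o3, o5, o7, o8, o9, o11, o12, o13, o15, o16, o17, o18, o19, o4, g0, h0]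
  have U1 : s1 ≤ (39789/250000:ℝ) := by linarith only [o1, o2, o3, o5, o7, o8, o9, o11, o12, o13, o15, o16, o17, o18, o19, o4, g0, h0]
  have L2 : (1/25:ℝ) ≤ s2 := by linarith only [o1, o2, o3, o5, o7, o8, o9, o11, o12, o13, o15, o16, o17, o18, o19, o4, g0, h0]
  have U2 : s2 ≤ (39789/250000:ℝ) := by linarith only [o1, o2, o3, o5, o7, o8, o9, o11, o12, o13, o15, o16, o17, o18, o19, o4, g0, h0]
  have L3 : (1/25:ℝ) ≤ s3 := by linarith only [o1, o2, o3, o5, o7, o8, o9, o11, o12, o13, o15, o16, o17, o18, o19, o4, g0, h0]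
  have U3 : s3 ≤ (39789/250000:ℝ) := by linarith only [o1, o2, o3, o5, o7, o8, o9, o11, o12, o13, o15, o16, o17, o18, o19, o4, g0, h0]
  have L4 : (1/25:ℝ) ≤ s4 := by linarith only [o1, o2, o3, o5, o7, o8, o9, o11, o12, o13, o15, o16, o17, o18, o19, o4, g0, h0]
  have U4 : s4 ≤ (39789/250000:ℝ) := by linarith only [o1, o2, o3, o5, o7, o8, o9, o11, o12, o13, o15, o16, o17, o18, o19, o4, g0, h0]
  have u0 := D.mlb _ _ _ (3/200:ℝ) L1 L2 L3 (by norm_num) (by norm_num) (by norm_num) (by norm_num) (by norm_num)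
  have u1 := D.sqc _ (1:ℝ) u0 (by linarith only [o1, o2, o3, o5, o7, o8, o9, o11, o12, o13, o15, o16, o17, o18, o19, o4, g0, h0])
  have u2 := D.rat _ _ rt5_3 U4
  have l1 := ln5_2 D.c1 L1 U1
  have l2 := ln5_2 D.c2 L2 U2
  have l3 := ln5_2 D.c3 L3 U3
  have l4 := ln5_2 D.c4 L4 U4
  obtain ⟨g11, g12, g13, -⟩ := D.c1.glob (by norm_num)
  obtain ⟨g21, g22, g23, -⟩ := D.c2.glob (by norm_num)
  obtain ⟨g31, g32, g33, -⟩ := D.c3.glob (by norm_num)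
  obtain ⟨g41, g42, g43, -⟩ := D.c4.glob (by norm_num)
  linarith

theorem num5 {s1 s2 s3 s4 sg p1 p2 p3 p4 mu t1 t2 t3 : ℝ}
    (D : Dat (349/100:ℝ) (2:ℝ) (62/625:ℝ) s1 s2 s3 s4 sg p1 p2 p3 p4 mu t1 t2 t3) : False := by
  rcases le_total s4 (1/25:ℝ) with r1 | r1
  · rcases le_total t3 (13/100:ℝ) with r2 | r2
    · rcases le_total s3 (1/25:ℝ) with r3 | r3
      · exact leaf5_0 D (by assumption) (by assumption) (by assumption)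
      rcases le_total s4 (1/50:ℝ) with r4 | r4
      · rcases le_total t1 (2/25:ℝ) with r5 | r5
        · exact leaf5_1 D (by assumption) (by assumption) (by assumption) (by assumption)
        rcases le_total s4 (1/200:ℝ) with r6 | r6
        · rcases le_total t2 (1/8:ℝ) with r7 | r7
          · exact leaf5_2 D (by assumption) (by assumption) (by assumption) (by assumption) (by assumption)
          exact leaf5_3 D (by assumption) (by assumption) (by assumption) (by assumption) (by assumption)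
        rcases le_total mu (2/25:ℝ) with r8 | r8
        · rcases le_total s3 (7/100:ℝ) with r9 | r9
          · exact leaf5_4 D (by assumption) (by assumption) (by assumption) (by assumption) (by assumption) (by assumption) (by assumption)
          rcases le_total t2 (2/25:ℝ) with r10 | r10
          · exact leaf5_5 D (by assumption) (by assumption) (by assumption) (by assumption) (by assumption) (by assumption) (by assumption)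
          rcases le_total t3 (7/100:ℝ) with r11 | r11
          · exact leaf5_6 D (by assumption) (by assumption) (by assumption) (by assumption) (by assumption) (by assumption) (by assumption)
          rcases le_total s3 (2/25:ℝ) with r12 | r12
          · exact leaf5_7 D (by assumption) (by assumption) (by assumption) (by assumption) (by assumption) (by assumption) (by assumption) (by assumption) (by assumption)
          rcases le_total s1 (13/100:ℝ) with r13 | r13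
          · exact leaf5_8 D (by assumption) (by assumption) (by assumption) (by assumption) (by assumption) (by assumption) (by assumption) (by assumption) (by assumption)
          exact leaf5_9 D (by assumption) (by assumption) (by assumption) (by assumption) (by assumption) (by assumption) (by assumption) (by assumption) (by assumption)
        exact leaf5_10 D (by assumption) (by assumption) (by assumption) (by assumption) (by assumption) (by assumption)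
      rcases le_total s3 (7/100:ℝ) with r14 | r14
      · exact leaf5_11 D (by assumption) (by assumption) (by assumption) (by assumption) (by assumption)
      exact leaf5_12 D (by assumption) (by assumption) (by assumption) (by assumption)
    exact leaf5_13 D (by assumption) (by assumption)
  exact leaf5_14 D (by assumption)

end Vale.Agent.P226
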