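import Vale.Agent.P226.N0

/-! Generated linear case analysis, case 6. -/

set_option linter.unusedVariables false

namespace Vale.Agent.P226

lemma rt6_0 (p s : ℝ) (h : CellP (349/125:ℝ) p s) (h2 : s ≤ (1/25:ℝ)) : s ≤ (1249/5000:ℝ) * p := by
  obtain ⟨g1, g2, g3, g4⟩ := h.glob (by norm_num)
  rcases h.pieces (by norm_num) (by norm_num) with ⟨a, b, c, d⟩ | ⟨a, b, c, d⟩ | ⟨a, b, c, d⟩ | ⟨a, b, c, d⟩ | ⟨a, b, c⟩ | ⟨a, b, c⟩ | ⟨a, b, c⟩ | ⟨a, b, c⟩ | ⟨a, b, c⟩ | ⟨a, b, c⟩ | ⟨a, b, c⟩ | a <;> linarith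

lemma ln6_0 {p s : ℝ} (h : CellP (349/125:ℝ) p s) (h1 : (0:ℝ) ≤ s) (h2 : s ≤ (39789/250000:ℝ)) :
    (1241/500:ℝ) * s + (-1/100000:ℝ) ≤ p := by
  obtain ⟨g1, g2, g3, g4⟩ := h.glob (by norm_num)
  rcases h.pieces (by norm_num) (by norm_num) with ⟨a, b, c, d⟩ | ⟨a, b, c, d⟩ | ⟨a, b, c, d⟩ | ⟨a, b, c, d⟩ | ⟨a, b, c⟩ | ⟨a, b, c⟩ | ⟨a, b, c⟩ | ⟨a, b, c⟩ | ⟨a, b, c⟩ | ⟨a, b, c⟩ | ⟨a, b, c⟩ | a
  · linarith
  · linarith
  · linarith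
  · linarith
  · linarith
  · linarith
  · linarith
  · linarith
  · linarith
  · linarith
  · linarith
  · linarith

lemma ln6_1 {p s : ℝ} (h : CellP (349/125:ℝ) p s) (h1 : (0:ℝ) ≤ s) (h2 : s ≤ (1/25:ℝ)) :
    (4003/1000:ℝ) * s + (-1/100000:ℝ) ≤ p := by
  obtain ⟨g1, g2, g3, g4⟩ := h.glob (by norm_num)
  rcases h.pieces (by norm_num) (by norm_num) with ⟨a, b, c, d⟩ | ⟨a, b, c, d⟩ | ⟨a, b, c, d⟩ | ⟨a, b, c, d⟩ | ⟨a, b, c⟩ | ⟨a, b, c⟩ | ⟨a, b, c⟩ | ⟨a, b, c⟩ | ⟨a, b, c⟩ | ⟨a, b, c⟩ | ⟨a, b, c⟩ | a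
  · linarith
  · linarith
  · linarith
  · linarith
  · linarith
  · linarith
  · linarith
  · linarith
  · linarith
  · linarith
  · linarith
  · linarith

lemma leaf6_0 {s1 s2 s3 s4 sg p1 p2 p3 p4 mu t1 t2 t3 : ℝ}
    (D : Dat (349/125:ℝ) (1/2:ℝ) (239/5000:ℝ) s1 s2 s3 s4 sg p1 p2 p3 p4 mu t1 t2 t3)
    (h0 : s3 ≤ (1/25:ℝ)) (h1 : s4 ≤ (1/25:ℝ)) (h2 : t3 ≤ (13/100:ℝ)) : False := by
  obtain ⟨o1, o2, o3, o4, o5, o6, o7, o8, o9, o10, o11, o12, o13, o14, o15, o16, o17, o18, o19⟩ := D.lin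
  have g0 : s1 ≤ (39789/250000:ℝ) := by have := (D.c1.glob (by norm_num)).2.2.2; linarith only [this]
  have L1 : (0:ℝ) ≤ s1 := by linarith only [o1, o2, o3, o5, o7, o8, o9, o11, o12, o13, o15, o16, o17, o18, o19, o4, g0, h0, h1, h2]
  have U1 : s1 ≤ (39789/250000:ℝ) := by linarith only [o1, o2, o3, o5, o7, o8, o9, o11, o12, o13, o15, o16, o17, o18, o19, o4, g0, h0, h1, h2]
  have L2 : (0:ℝ) ≤ s2 := by linarith only [o1, o2, o3, o5, o7, o8, o9, o11, o12, o13, o15, o16, o17, o18, o19, o4, g0, h0, h1, h2]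
  have U2 : s2 ≤ (39789/250000:ℝ) := by linarith only [o1, o2, o3, o5, o7, o8, o9, o11, o12, o13, o15, o16, o17, o18, o19, o4, g0, h0, h1, h2]
  have L3 : (0:ℝ) ≤ s3 := by linarith only [o1, o2, o3, o5, o7, o8, o9, o11, o12, o13, o15, o16, o17, o18, o19, o4, g0, h0, h1, h2]
  have U3 : s3 ≤ (1/25:ℝ) := by linarith only [o1, o2, o3, o5, o7, o8, o9, o11, o12, o13, o15, o16, o17, o18, o19, o4, g0, h0, h1, h2]
  have L4 : (0:ℝ) ≤ s4 := by linarith only [o1, o2, o3, o5, o7, o8, o9, o11, o12, o13, o15, o16, o17, o18, o19, o4, g0, h0, h1, h2]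
  have U4 : s4 ≤ (1/25:ℝ) := by linarith only [o1, o2, o3, o5, o7, o8, o9, o11, o12, o13, o15, o16, o17, o18, o19, o4, g0, h0, h1, h2]
  have A0 : (0:ℝ) ≤ t1 := by linarith only [o1, o2, o3, o5, o7, o8, o9, o11, o12, o13, o15, o16, o17, o18, o19, o4, g0, h0, h1, h2]
  have B0 : t1 ≤ (39789/250000:ℝ) := by linarith only [o1, o2, o3, o5, o7, o8, o9, o11, o12, o13, o15, o16, o17, o18, o19, o4, g0, h0, h1, h2]
  have A1 : (0:ℝ) ≤ t2 := by linarith only [o1, o2, o3, o5, o7, o8, o9, o11, o12, o13, o15, o16, o17, o18, o19, o4, g0, h0, h1, h2]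
  have B1 : t2 ≤ (39789/250000:ℝ) := by linarith only [o1, o2, o3, o5, o7, o8, o9, o11, o12, o13, o15, o16, o17, o18, o19, o4, g0, h0, h1, h2]
  have A2 : (0:ℝ) ≤ t3 := by linarith only [o1, o2, o3, o5, o7, o8, o9, o11, o12, o13, o15, o16, o17, o18, o19, o4, g0, h0, h1, h2]
  have B2 : t3 ≤ (1/25:ℝ) := by linarith only [o1, o2, o3, o5, o7, o8, o9, o11, o12, o13, o15, o16, o17, o18, o19, o4, g0, h0, h1, h2]
  have m0 := D.tcut _ _ _ _ _ _ (31/100:ℝ) A0 B0 A1 B1 A2 B2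
  have m1 := D.tcut _ _ _ _ _ _ (33/100:ℝ) A0 B0 A1 B1 A2 B2
  have u0 : (0:ℝ) ≤ mu := by linarith only [o1, o2, o3, o5, o7, o8, o9, o11, o12, o13, o15, o16, o17, o18, o19, o4, g0, h0, h1, h2]
  have u1 := D.sqc _ (1:ℝ) u0 (by linarith only [o1, o2, o3, o5, o7, o8, o9, o11, o12, o13, o15, o16, o17, o18, o19, o4, g0, h0, h1, h2])
  have u2 := D.rat _ _ rt6_0 U4
  have l1 := ln6_0 D.c1 L1 U1
  have l2 := ln6_0 D.c2 L2 U2
  have l3 := ln6_1 D.c3 L3 U3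
  have l4 := ln6_1 D.c4 L4 U4
  obtain ⟨g11, g12, g13, -⟩ := D.c1.glob (by norm_num)
  obtain ⟨g21, g22, g23, -⟩ := D.c2.glob (by norm_num)
  obtain ⟨g31, g32, g33, -⟩ := D.c3.glob (by norm_num)
  obtain ⟨g41, g42, g43, -⟩ := D.c4.glob (by norm_num)
  linarith

lemma ln6_2 {p s : ℝ} (h : CellP (349/125:ℝ) p s) (h1 : (1/25:ℝ) ≤ s) (h2 : s ≤ (39789/250000:ℝ)) :
    (1737/1000:ℝ) * s + (4533/50000:ℝ) ≤ p := by
  obtain ⟨g1, g2, g3, g4⟩ := h.glob (by norm_num)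
  rcases h.pieces (by norm_num) (by norm_num) with ⟨a, b, c, d⟩ | ⟨a, b, c, d⟩ | ⟨a, b, c, d⟩ | ⟨a, b, c, d⟩ | ⟨a, b, c⟩ | ⟨a, b, c⟩ | ⟨a, b, c⟩ | ⟨a, b, c⟩ | ⟨a, b, c⟩ | ⟨a, b, c⟩ | ⟨a, b, c⟩ | a
  · linarith
  · linarith
  · linarith
  · linarith
  · linarith
  · linarith
  · linarith
  · linarith
  · linarith
  · linarith
  · linarith
  · linarith

lemma ln6_3 {p s : ℝ} (h : CellP (349/125:ℝ) p s) (h1 : (1/25:ℝ) ≤ s) (h2 : s ≤ (7/100:ℝ)) :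
    (479/250:ℝ) * s + (167/2000:ℝ) ≤ p := by
  obtain ⟨g1, g2, g3, g4⟩ := h.glob (by norm_num)
  rcases h.pieces (by norm_num) (by norm_num) with ⟨a, b, c, d⟩ | ⟨a, b, c, d⟩ | ⟨a, b, c, d⟩ | ⟨a, b, c, d⟩ | ⟨a, b, c⟩ | ⟨a, b, c⟩ | ⟨a, b, c⟩ | ⟨a, b, c⟩ | ⟨a, b, c⟩ | ⟨a, b, c⟩ | ⟨a, b, c⟩ | a
  · linarith
  · linarith
  · linarith
  · linarith
  · linarith
  · linarith
  · linarith
  · linarith
  · linarith
  · linarith
  · linarith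
  · linarith

lemma leaf6_1 {s1 s2 s3 s4 sg p1 p2 p3 p4 mu t1 t2 t3 : ℝ}
    (D : Dat (349/125:ℝ) (1/2:ℝ) (239/5000:ℝ) s1 s2 s3 s4 sg p1 p2 p3 p4 mu t1 t2 t3)
    (h0 : s2 ≤ (7/100:ℝ)) (h1 : (1/25:ℝ) ≤ s3) (h2 : s4 ≤ (1/25:ℝ)) (h3 : t3 ≤ (13/100:ℝ)) : False := by
  obtain ⟨o1, o2, o3, o4, o5, o6, o7, o8, o9, o10, o11, o12, o13, o14, o15, o16, o17, o18, o19⟩ := D.lin
  have g0 : s1 ≤ (39789/250000:ℝ) := by have := (D.c1.glob (by norm_num)).2.2.2; linarith only [this]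
  have L1 : (1/25:ℝ) ≤ s1 := by linarith only [o1, o2, o3, o5, o7, o8, o9, o11, o12, o13, o15, o16, o17, o18, o19, o4, g0, h0, h1, h2, h3]
  have U1 : s1 ≤ (39789/250000:ℝ) := by linarith only [o1, o2, o3, o5, o7, o8, o9, o11, o12, o13, o15, o16, o17, o18, o19, o4, g0, h0, h1, h2, h3]
  have L2 : (1/25:ℝ) ≤ s2 := by linarith only [o1, o2, o3, o5, o7, o8, o9, o11, o12, o13, o15, o16, o17, o18, o19, o4, g0, h0, h1, h2, h3]
  have U2 : s2 ≤ (7/100:ℝ) := by linarith only [o1, o2, o3, o5, o7, o8, o9, o11, o12, o13, o15, o16, o17, o18, o19, o4, g0, h0, h1, h2, h3]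
  have L3 : (1/25:ℝ) ≤ s3 := by linarith only [o1, o2, o3, o5, o7, o8, o9, o11, o12, o13, o15, o16, o17, o18, o19, o4, g0, h0, h1, h2, h3]
  have U3 : s3 ≤ (7/100:ℝ) := by linarith only [o1, o2, o3, o5, o7, o8, o9, o11, o12, o13, o15, o16, o17, o18, o19, o4, g0, h0, h1, h2, h3]
  have L4 : (0:ℝ) ≤ s4 := by linarith only [o1, o2, o3, o5, o7, o8, o9, o11, o12, o13, o15, o16, o17, o18, o19, o4, g0, h0, h1, h2, h3]
  have U4 : s4 ≤ (1/25:ℝ) := by linarith only [o1, o2, o3, o5, o7, o8, o9, o11, o12, o13, o15, o16, o17, o18, o19, o4, g0, h0, h1, h2, h3]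
  have A0 : (0:ℝ) ≤ t1 := by linarith only [o1, o2, o3, o5, o7, o8, o9, o11, o12, o13, o15, o16, o17, o18, o19, o4, g0, h0, h1, h2, h3]
  have B0 : t1 ≤ (39789/250000:ℝ) := by linarith only [o1, o2, o3, o5, o7, o8, o9, o11, o12, o13, o15, o16, o17, o18, o19, o4, g0, h0, h1, h2, h3]
  have A1 : (0:ℝ) ≤ t2 := by linarith only [o1, o2, o3, o5, o7, o8, o9, o11, o12, o13, o15, o16, o17, o18, o19, o4, g0, h0, h1, h2, h3]
  have B1 : t2 ≤ (7/100:ℝ) := by linarith only [o1, o2, o3, o5, o7, o8, o9, o11, o12, o13, o15, o16, o17, o18, o19, o4, g0, h0, h1, h2, h3]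
  have A2 : (0:ℝ) ≤ t3 := by linarith only [o1, o2, o3, o5, o7, o8, o9, o11, o12, o13, o15, o16, o17, o18, o19, o4, g0, h0, h1, h2, h3]
  have B2 : t3 ≤ (7/100:ℝ) := by linarith only [o1, o2, o3, o5, o7, o8, o9, o11, o12, o13, o15, o16, o17, o18, o19, o4, g0, h0, h1, h2, h3]
  have m0 := D.tcut _ _ _ _ _ _ (31/100:ℝ) A0 B0 A1 B1 A2 B2
  have m1 := D.tcut _ _ _ _ _ _ (33/100:ℝ) A0 B0 A1 B1 A2 B2
  have u0 := D.mlb _ _ _ (1/50:ℝ) L1 L2 L3 (by norm_num) (by norm_num) (by norm_num) (by norm_num) (by norm_num)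
  have u1 := D.sqc _ (1:ℝ) u0 (by linarith only [o1, o2, o3, o5, o7, o8, o9, o11, o12, o13, o15, o16, o17, o18, o19, o4, g0, h0, h1, h2, h3])
  have u2 := D.rat _ _ rt6_0 U4
  have l1 := ln6_2 D.c1 L1 U1
  have l2 := ln6_3 D.c2 L2 U2
  have l3 := ln6_3 D.c3 L3 U3
  have l4 := ln6_1 D.c4 L4 U4
  obtain ⟨g11, g12, g13, -⟩ := D.c1.glob (by norm_num)
  obtain ⟨g21, g22, g23, -⟩ := D.c2.glob (by norm_num)
  obtain ⟨g31, g32, g33, -⟩ := D.c3.glob (by norm_num)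
  obtain ⟨g41, g42, g43, -⟩ := D.c4.glob (by norm_num)
  linarith

lemma ln6_4 {p s : ℝ} (h : CellP (349/125:ℝ) p s) (h1 : (7/100:ℝ) ≤ s) (h2 : s ≤ (39789/250000:ℝ)) :
    (1633/1000:ℝ) * s + (10331/100000:ℝ) ≤ p := by
  obtain ⟨g1, g2, g3, g4⟩ := h.glob (by norm_num)
  rcases h.pieces (by norm_num) (by norm_num) with ⟨a, b, c, d⟩ | ⟨a, b, c, d⟩ | ⟨a, b, c, d⟩ | ⟨a, b, c, d⟩ | ⟨a, b, c⟩ | ⟨a, b, c⟩ | ⟨a, b, c⟩ | ⟨a, b, c⟩ | ⟨a, b, c⟩ | ⟨a, b, c⟩ | ⟨a, b, c⟩ | a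
  · linarith
  · linarith
  · linarith
  · linarith
  · linarith
  · linarith
  · linarith
  · linarith
  · linarith
  · linarith
  · linarith
  · linarith

lemma ln6_5 {p s : ℝ} (h : CellP (349/125:ℝ) p s) (h1 : (7/100:ℝ) ≤ s) (h2 : s ≤ (9/100:ℝ)) :
    (861/500:ℝ) * s + (2427/25000:ℝ) ≤ p := by
  obtain ⟨g1, g2, g3, g4⟩ := h.glob (by norm_num)
  rcases h.pieces (by norm_num) (by norm_num) with ⟨a, b, c, d⟩ | ⟨a, b, c, d⟩ | ⟨a, b, c, d⟩ | ⟨a, b, c, d⟩ | ⟨a, b, c⟩ | ⟨a, b, c⟩ | ⟨a, b, c⟩ | ⟨a, b, c⟩ | ⟨a, b, c⟩ | ⟨a, b, c⟩ | ⟨a, b, c⟩ | a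
  · linarith
  · linarith
  · linarith
  · linarith
  · linarith
  · linarith
  · linarith
  · linarith
  · linarith
  · linarith
  · linarith
  · linarith

lemma ln6_6 {p s : ℝ} (h : CellP (349/125:ℝ) p s) (h1 : (1/25:ℝ) ≤ s) (h2 : s ≤ (9/100:ℝ)) :
    (919/500:ℝ) * s + (4331/50000:ℝ) ≤ p := by
  obtain ⟨g1, g2, g3, g4⟩ := h.glob (by norm_num)
  rcases h.pieces (by norm_num) (by norm_num) with ⟨a, b, c, d⟩ | ⟨a, b, c, d⟩ | ⟨a, b, c, d⟩ | ⟨a, b, c, d⟩ | ⟨a, b, c⟩ | ⟨a, b, c⟩ | ⟨a, b, c⟩ | ⟨a, b, c⟩ | ⟨a, b, c⟩ | ⟨a, b, c⟩ | ⟨a, b, c⟩ | a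
  · linarith
  · linarith
  · linarith
  · linarith
  · linarith
  · linarith
  · linarith
  · linarith
  · linarith
  · linarith
  · linarith
  · linarith

lemma leaf6_2 {s1 s2 s3 s4 sg p1 p2 p3 p4 mu t1 t2 t3 : ℝ}
    (D : Dat (349/125:ℝ) (1/2:ℝ) (239/5000:ℝ) s1 s2 s3 s4 sg p1 p2 p3 p4 mu t1 t2 t3)
    (h0 : (7/100:ℝ) ≤ s2) (h1 : s2 ≤ (9/100:ℝ)) (h2 : (1/25:ℝ) ≤ s3) (h3 : s4 ≤ (1/25:ℝ)) (h4 : t3 ≤ (13/100:ℝ)) : False := by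
  obtain ⟨o1, o2, o3, o4, o5, o6, o7, o8, o9, o10, o11, o12, o13, o14, o15, o16, o17, o18, o19⟩ := D.lin
  have g0 : s1 ≤ (39789/250000:ℝ) := by have := (D.c1.glob (by norm_num)).2.2.2; linarith only [this]
  have L1 : (7/100:ℝ) ≤ s1 := by linarith only [o1, o2, o3, o5, o7, o8, o9, o11, o12, o13, o15, o16, o17, o18, o19, o4, g0, h0, h1, h2, h3, h4]
  have U1 : s1 ≤ (39789/250000:ℝ) := by linarith only [o1, o2, o3, o5, o7, o8, o9, o11, o12, o13, o15, o16, o17, o18, o19, o4, g0, h0, h1, h2, h3, h4]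
  have L2 : (7/100:ℝ) ≤ s2 := by linarith only [o1, o2, o3, o5, o7, o8, o9, o11, o12, o13, o15, o16, o17, o18, o19, o4, g0, h0, h1, h2, h3, h4]
  have U2 : s2 ≤ (9/100:ℝ) := by linarith only [o1, o2, o3, o5, o7, o8, o9, o11, o12, o13, o15, o16, o17, o18, o19, o4, g0, h0, h1, h2, h3, h4]
  have L3 : (1/25:ℝ) ≤ s3 := by linarith only [o1, o2, o3, o5, o7, o8, o9, o11, o12, o13, o15, o16, o17, o18, o19, o4, g0, h0, h1, h2, h3, h4]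
  have U3 : s3 ≤ (9/100:ℝ) := by linarith only [o1, o2, o3, o5, o7, o8, o9, o11, o12, o13, o15, o16, o17, o18, o19, o4, g0, h0, h1, h2, h3, h4]
  have L4 : (0:ℝ) ≤ s4 := by linarith only [o1, o2, o3, o5, o7, o8, o9, o11, o12, o13, o15, o16, o17, o18, o19, o4, g0, h0, h1, h2, h3, h4]
  have U4 : s4 ≤ (1/25:ℝ) := by linarith only [o1, o2, o3, o5, o7, o8, o9, o11, o12, o13, o15, o16, o17, o18, o19, o4, g0, h0, h1, h2, h3, h4]
  have A0 : (0:ℝ) ≤ t1 := by linarith only [o1, o2, o3, o5, o7, o8, o9, o11, o12, o13, o15, o16, o17, o18, o19, o4, g0, h0, h1, h2, h3, h4]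
  have B0 : t1 ≤ (39789/250000:ℝ) := by linarith only [o1, o2, o3, o5, o7, o8, o9, o11, o12, o13, o15, o16, o17, o18, o19, o4, g0, h0, h1, h2, h3, h4]
  have A1 : (0:ℝ) ≤ t2 := by linarith only [o1, o2, o3, o5, o7, o8, o9, o11, o12, o13, o15, o16, o17, o18, o19, o4, g0, h0, h1, h2, h3, h4]
  have B1 : t2 ≤ (9/100:ℝ) := by linarith only [o1, o2, o3, o5, o7, o8, o9, o11, o12, o13, o15, o16, o17, o18, o19, o4, g0, h0, h1, h2, h3, h4]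
  have A2 : (0:ℝ) ≤ t3 := by linarith only [o1, o2, o3, o5, o7, o8, o9, o11, o12, o13, o15, o16, o17, o18, o19, o4, g0, h0, h1, h2, h3, h4]
  have B2 : t3 ≤ (9/100:ℝ) := by linarith only [o1, o2, o3, o5, o7, o8, o9, o11, o12, o13, o15, o16, o17, o18, o19, o4, g0, h0, h1, h2, h3, h4]
  have m0 := D.tcut _ _ _ _ _ _ (31/100:ℝ) A0 B0 A1 B1 A2 B2
  have m1 := D.tcut _ _ _ _ _ _ (33/100:ℝ) A0 B0 A1 B1 A2 B2
  have u0 := D.mlb _ _ _ (3/100:ℝ) L1 L2 L3 (by norm_num) (by norm_num) (by norm_num) (by norm_num) (by norm_num)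
  have u1 := D.sqc _ (1:ℝ) u0 (by linarith only [o1, o2, o3, o5, o7, o8, o9, o11, o12, o13, o15, o16, o17, o18, o19, o4, g0, h0, h1, h2, h3, h4])
  have u2 := D.rat _ _ rt6_0 U4
  have l1 := ln6_4 D.c1 L1 U1
  have l2 := ln6_5 D.c2 L2 U2
  have l3 := ln6_6 D.c3 L3 U3
  have l4 := ln6_1 D.c4 L4 U4
  obtain ⟨g11, g12, g13, -⟩ := D.c1.glob (by norm_num)
  obtain ⟨g21, g22, g23, -⟩ := D.c2.glob (by norm_num)
  obtain ⟨g31, g32, g33, -⟩ := D.c3.glob (by norm_num)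
  obtain ⟨g41, g42, g43, -⟩ := D.c4.glob (by norm_num)
  linarith

lemma ln6_7 {p s : ℝ} (h : CellP (349/125:ℝ) p s) (h1 : (9/100:ℝ) ≤ s) (h2 : s ≤ (21/200:ℝ)) :
    (1611/1000:ℝ) * s + (10707/100000:ℝ) ≤ p := by
  obtain ⟨g1, g2, g3, g4⟩ := h.glob (by norm_num)
  rcases h.pieces (by norm_num) (by norm_num) with ⟨a, b, c, d⟩ | ⟨a, b, c, d⟩ | ⟨a, b, c, d⟩ | ⟨a, b, c, d⟩ | ⟨a, b, c⟩ | ⟨a, b, c⟩ | ⟨a, b, c⟩ | ⟨a, b, c⟩ | ⟨a, b, c⟩ | ⟨a, b, c⟩ | ⟨a, b, c⟩ | a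
  · linarith
  · linarith
  · linarith
  · linarith
  · linarith
  · linarith
  · linarith
  · linarith
  · linarith
  · linarith
  · linarith
  · linarith

lemma ln6_8 {p s : ℝ} (h : CellP (349/125:ℝ) p s) (h1 : (1/25:ℝ) ≤ s) (h2 : s ≤ (21/200:ℝ)) :
    (893/500:ℝ) * s + (887/10000:ℝ) ≤ p := by
  obtain ⟨g1, g2, g3, g4⟩ := h.glob (by norm_num)
  rcases h.pieces (by norm_num) (by norm_num) with ⟨a, b, c, d⟩ | ⟨a, b, c, d⟩ | ⟨a, b, c, d⟩ | ⟨a, b, c, d⟩ | ⟨a, b, c⟩ | ⟨a, b, c⟩ | ⟨a, b, c⟩ | ⟨a, b, c⟩ | ⟨a, b, c⟩ | ⟨a, b, c⟩ | ⟨a, b, c⟩ | a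
  · linarith
  · linarith
  · linarith
  · linarith
  · linarith
  · linarith
  · linarith
  · linarith
  · linarith
  · linarith
  · linarith
  · linarith

lemma leaf6_3 {s1 s2 s3 s4 sg p1 p2 p3 p4 mu t1 t2 t3 : ℝ}
    (D : Dat (349/125:ℝ) (1/2:ℝ) (239/5000:ℝ) s1 s2 s3 s4 sg p1 p2 p3 p4 mu t1 t2 t3)
    (h0 : s1 ≤ (21/200:ℝ)) (h1 : (9/100:ℝ) ≤ s2) (h2 : (1/25:ℝ) ≤ s3) (h3 : s4 ≤ (1/25:ℝ)) (h4 : t3 ≤ (13/100:ℝ)) : False := by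
  obtain ⟨o1, o2, o3, o4, o5, o6, o7, o8, o9, o10, o11, o12, o13, o14, o15, o16, o17, o18, o19⟩ := D.lin
  have g0 : s1 ≤ (39789/250000:ℝ) := by have := (D.c1.glob (by norm_num)).2.2.2; linarith only [this]
  have L1 : (9/100:ℝ) ≤ s1 := by linarith only [o1, o2, o3, o5, o7, o8, o9, o11, o12, o13, o15, o16, o17, o18, o19, o4, g0, h0, h1, h2, h3, h4]
  have U1 : s1 ≤ (21/200:ℝ) := by linarith only [o1, o2, o3, o5, o7, o8, o9, o11, o12, o13, o15, o16, o17, o18, o19, o4, g0, h0, h1, h2, h3, h4]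
  have L2 : (9/100:ℝ) ≤ s2 := by linarith only [o1, o2, o3, o5, o7, o8, o9, o11, o12, o13, o15, o16, o17, o18, o19, o4, g0, h0, h1, h2, h3, h4]
  have U2 : s2 ≤ (21/200:ℝ) := by linarith only [o1, o2, o3, o5, o7, o8, o9, o11, o12, o13, o15, o16, o17, o18, o19, o4, g0, h0, h1, h2, h3, h4]
  have L3 : (1/25:ℝ) ≤ s3 := by linarith only [o1, o2, o3, o5, o7, o8, o9, o11, o12, o13, o15, o16, o17, o18, o19, o4, g0, h0, h1, h2, h3, h4]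
  have U3 : s3 ≤ (21/200:ℝ) := by linarith only [o1, o2, o3, o5, o7, o8, o9, o11, o12, o13, o15, o16, o17, o18, o19, o4, g0, h0, h1, h2, h3, h4]
  have L4 : (0:ℝ) ≤ s4 := by linarith only [o1, o2, o3, o5, o7, o8, o9, o11, o12, o13, o15, o16, o17, o18, o19, o4, g0, h0, h1, h2, h3, h4]
  have U4 : s4 ≤ (1/25:ℝ) := by linarith only [o1, o2, o3, o5, o7, o8, o9, o11, o12, o13, o15, o16, o17, o18, o19, o4, g0, h0, h1, h2, h3, h4]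
  have A0 : (0:ℝ) ≤ t1 := by linarith only [o1, o2, o3, o5, o7, o8, o9, o11, o12, o13, o15, o16, o17, o18, o19, o4, g0, h0, h1, h2, h3, h4]
  have B0 : t1 ≤ (21/200:ℝ) := by linarith only [o1, o2, o3, o5, o7, o8, o9, o11, o12, o13, o15, o16, o17, o18, o19, o4, g0, h0, h1, h2, h3, h4]
  have A1 : (0:ℝ) ≤ t2 := by linarith only [o1, o2, o3, o5, o7, o8, o9, o11, o12, o13, o15, o16, o17, o18, o19, o4, g0, h0, h1, h2, h3, h4]
  have B1 : t2 ≤ (21/200:ℝ) := by linarith only [o1, o2, o3, o5, o7, o8, o9, o11, o12, o13, o15, o16, o17, o18, o19, o4, g0, h0, h1, h2, h3, h4]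
  have A2 : (0:ℝ) ≤ t3 := by linarith only [o1, o2, o3, o5, o7, o8, o9, o11, o12, o13, o15, o16, o17, o18, o19, o4, g0, h0, h1, h2, h3, h4]
  have B2 : t3 ≤ (21/200:ℝ) := by linarith only [o1, o2, o3, o5, o7, o8, o9, o11, o12, o13, o15, o16, o17, o18, o19, o4, g0, h0, h1, h2, h3, h4]
  have m0 := D.tcut _ _ _ _ _ _ (31/100:ℝ) A0 B0 A1 B1 A2 B2
  have m1 := D.tcut _ _ _ _ _ _ (33/100:ℝ) A0 B0 A1 B1 A2 B2
  have u0 := D.mlb _ _ _ (7/200:ℝ) L1 L2 L3 (by norm_num) (by norm_num) (by norm_num) (by norm_num) (by norm_num)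
  have u1 := D.sqc _ (1:ℝ) u0 (by linarith only [o1, o2, o3, o5, o7, o8, o9, o11, o12, o13, o15, o16, o17, o18, o19, o4, g0, h0, h1, h2, h3, h4])
  have u2 := D.rat _ _ rt6_0 U4
  have l1 := ln6_7 D.c1 L1 U1
  have l2 := ln6_7 D.c2 L2 U2
  have l3 := ln6_8 D.c3 L3 U3
  have l4 := ln6_1 D.c4 L4 U4
  obtain ⟨g11, g12, g13, -⟩ := D.c1.glob (by norm_num)
  obtain ⟨g21, g22, g23, -⟩ := D.c2.glob (by norm_num)
  obtain ⟨g31, g32, g33, -⟩ := D.c3.glob (by norm_num)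
  obtain ⟨g41, g42, g43, -⟩ := D.c4.glob (by norm_num)
  linarith

lemma rt6_1 (p s : ℝ) (h : CellP (349/125:ℝ) p s) (h2 : s ≤ (1/50:ℝ)) : s ≤ (1821/10000:ℝ) * p := by
  obtain ⟨g1, g2, g3, g4⟩ := h.glob (by norm_num)
  rcases h.pieces (by norm_num) (by norm_num) with ⟨a, b, c, d⟩ | ⟨a, b, c, d⟩ | ⟨a, b, c, d⟩ | ⟨a, b, c, d⟩ | ⟨a, b, c⟩ | ⟨a, b, c⟩ | ⟨a, b, c⟩ | ⟨a, b, c⟩ | ⟨a, b, c⟩ | ⟨a, b, c⟩ | ⟨a, b, c⟩ | a <;> linarith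

lemma ln6_9 {p s : ℝ} (h : CellP (349/125:ℝ) p s) (h1 : (21/200:ℝ) ≤ s) (h2 : s ≤ (39789/250000:ℝ)) :
    (387/250:ℝ) * s + (11369/100000:ℝ) ≤ p := by
  obtain ⟨g1, g2, g3, g4⟩ := h.glob (by norm_num)
  rcases h.pieces (by norm_num) (by norm_num) with ⟨a, b, c, d⟩ | ⟨a, b, c, d⟩ | ⟨a, b, c, d⟩ | ⟨a, b, c, d⟩ | ⟨a, b, c⟩ | ⟨a, b, c⟩ | ⟨a, b, c⟩ | ⟨a, b, c⟩ | ⟨a, b, c⟩ | ⟨a, b, c⟩ | ⟨a, b, c⟩ | a
  · linarith
  · linarith
  · linarith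
  · linarith
  · linarith
  · linarith
  · linarith
  · linarith
  · linarith
  · linarith
  · linarith
  · linarith

lemma ln6_10 {p s : ℝ} (h : CellP (349/125:ℝ) p s) (h1 : (9/100:ℝ) ≤ s) (h2 : s ≤ (39789/250000:ℝ)) :
    (789/500:ℝ) * s + (2751/25000:ℝ) ≤ p := by
  obtain ⟨g1, g2, g3, g4⟩ := h.glob (by norm_num)
  rcases h.pieces (by norm_num) (by norm_num) with ⟨a, b, c, d⟩ | ⟨a, b, c, d⟩ | ⟨a, b, c, d⟩ | ⟨a, b, c, d⟩ | ⟨a, b, c⟩ | ⟨a, b, c⟩ | ⟨a, b, c⟩ | ⟨a, b, c⟩ | ⟨a, b, c⟩ | ⟨a, b, c⟩ | ⟨a, b, c⟩ | a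
  · linarith
  · linarith
  · linarith
  · linarith
  · linarith
  · linarith
  · linarith
  · linarith
  · linarith
  · linarith
  · linarith
  · linarith

lemma ln6_11 {p s : ℝ} (h : CellP (349/125:ℝ) p s) (h1 : (0:ℝ) ≤ s) (h2 : s ≤ (1/50:ℝ)) :
    (5493/1000:ℝ) * s + (-1/100000:ℝ) ≤ p := by
  obtain ⟨g1, g2, g3, g4⟩ := h.glob (by norm_num)
  rcases h.pieces (by norm_num) (by norm_num) with ⟨a, b, c, d⟩ | ⟨a, b, c, d⟩ | ⟨a, b, c, d⟩ | ⟨a, b, c, d⟩ | ⟨a, b, c⟩ | ⟨a, b, c⟩ | ⟨a, b, c⟩ | ⟨a, b, c⟩ | ⟨a, b, c⟩ | ⟨a, b, c⟩ | ⟨a, b, c⟩ | a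
  · linarith
  · linarith
  · linarith
  · linarith
  · linarith
  · linarith
  · linarith
  · linarith
  · linarith
  · linarith
  · linarith
  · linarith

lemma leaf6_4 {s1 s2 s3 s4 sg p1 p2 p3 p4 mu t1 t2 t3 : ℝ}
    (D : Dat (349/125:ℝ) (1/2:ℝ) (239/5000:ℝ) s1 s2 s3 s4 sg p1 p2 p3 p4 mu t1 t2 t3)
    (h0 : (21/200:ℝ) ≤ s1) (h1 : (9/100:ℝ) ≤ s2) (h2 : (1/25:ℝ) ≤ s3) (h3 : s4 ≤ (1/50:ℝ)) (h4 : t1 ≤ (2/25:ℝ)) (h5 : t3 ≤ (13/100:ℝ)) : False := by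
  obtain ⟨o1, o2, o3, o4, o5, o6, o7, o8, o9, o10, o11, o12, o13, o14, o15, o16, o17, o18, o19⟩ := D.lin
  have g0 : s1 ≤ (39789/250000:ℝ) := by have := (D.c1.glob (by norm_num)).2.2.2; linarith only [this]
  have L1 : (21/200:ℝ) ≤ s1 := by linarith only [o1, o2, o3, o5, o7, o8, o9, o11, o12, o13, o15, o16, o17, o18, o19, o4, g0, h0, h1, h2, h3, h4, h5]
  have U1 : s1 ≤ (39789/250000:ℝ) := by linarith only [o1, o2, o3, o5, o7, o8, o9, o11, o12, o13, o15, o16, o17, o18, o19, o4, g0, h0, h1, h2, h3, h4, h5]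
  have L2 : (9/100:ℝ) ≤ s2 := by linarith only [o1, o2, o3, o5, o7, o8, o9, o11, o12, o13, o15, o16, o17, o18, o19, o4, g0, h0, h1, h2, h3, h4, h5]
  have U2 : s2 ≤ (39789/250000:ℝ) := by linarith only [o1, o2, o3, o5, o7, o8, o9, o11, o12, o13, o15, o16, o17, o18, o19, o4, g0, h0, h1, h2, h3, h4, h5]
  have L3 : (1/25:ℝ) ≤ s3 := by linarith only [o1, o2, o3, o5, o7, o8, o9, o11, o12, o13, o15, o16, o17, o18, o19, o4, g0, h0, h1, h2, h3, h4, h5]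
  have U3 : s3 ≤ (39789/250000:ℝ) := by linarith only [o1, o2, o3, o5, o7, o8, o9, o11, o12, o13, o15, o16, o17, o18, o19, o4, g0, h0, h1, h2, h3, h4, h5]
  have L4 : (0:ℝ) ≤ s4 := by linarith only [o1, o2, o3, o5, o7, o8, o9, o11, o12, o13, o15, o16, o17, o18, o19, o4, g0, h0, h1, h2, h3, h4, h5]
  have U4 : s4 ≤ (1/50:ℝ) := by linarith only [o1, o2, o3, o5, o7, o8, o9, o11, o12, o13, o15, o16, o17, o18, o19, o4, g0, h0, h1, h2, h3, h4, h5]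
  have A0 : (0:ℝ) ≤ t1 := by linarith only [o1, o2, o3, o5, o7, o8, o9, o11, o12, o13, o15, o16, o17, o18, o19, o4, g0, h0, h1, h2, h3, h4, h5]
  have B0 : t1 ≤ (2/25:ℝ) := by linarith only [o1, o2, o3, o5, o7, o8, o9, o11, o12, o13, o15, o16, o17, o18, o19, o4, g0, h0, h1, h2, h3, h4, h5]
  have A1 : (0:ℝ) ≤ t2 := by linarith only [o1, o2, o3, o5, o7, o8, o9, o11, o12, o13, o15, o16, o17, o18, o19, o4, g0, h0, h1, h2, h3, h4, h5]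
  have B1 : t2 ≤ (39789/250000:ℝ) := by linarith only [o1, o2, o3, o5, o7, o8, o9, o11, o12, o13, o15, o16, o17, o18, o19, o4, g0, h0, h1, h2, h3, h4, h5]
  have A2 : (0:ℝ) ≤ t3 := by linarith only [o1, o2, o3, o5, o7, o8, o9, o11, o12, o13, o15, o16, o17, o18, o19, o4, g0, h0, h1, h2, h3, h4, h5]
  have B2 : t3 ≤ (13/100:ℝ) := by linarith only [o1, o2, o3, o5, o7, o8, o9, o11, o12, o13, o15, o16, o17, o18, o19, o4, g0, h0, h1, h2, h3, h4, h5]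
  have m0 := D.tcut _ _ _ _ _ _ (31/100:ℝ) A0 B0 A1 B1 A2 B2
  have m1 := D.tcut _ _ _ _ _ _ (33/100:ℝ) A0 B0 A1 B1 A2 B2
  have u0 := D.mlb _ _ _ (7/200:ℝ) L1 L2 L3 (by norm_num) (by norm_num) (by norm_num) (by norm_num) (by norm_num)
  have u1 := D.sqc _ (1:ℝ) u0 (by linarith only [o1, o2, o3, o5, o7, o8, o9, o11, o12, o13, o15, o16, o17, o18, o19, o4, g0, h0, h1, h2, h3, h4, h5])
  have u2 := D.rat _ _ rt6_1 U4
  have l1 := ln6_9 D.c1 L1 U1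
  have l2 := ln6_10 D.c2 L2 U2
  have l3 := ln6_2 D.c3 L3 U3
  have l4 := ln6_11 D.c4 L4 U4
  obtain ⟨g11, g12, g13, -⟩ := D.c1.glob (by norm_num)
  obtain ⟨g21, g22, g23, -⟩ := D.c2.glob (by norm_num)
  obtain ⟨g31, g32, g33, -⟩ := D.c3.glob (by norm_num)
  obtain ⟨g41, g42, g43, -⟩ := D.c4.glob (by norm_num)
  linarith

lemma ln6_12 {p s : ℝ} (h : CellP (349/125:ℝ) p s) (h1 : (21/200:ℝ) ≤ s) (h2 : s ≤ (11/100:ℝ)) :
    (387/250:ℝ) * s + (11369/100000:ℝ) ≤ p := by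
  obtain ⟨g1, g2, g3, g4⟩ := h.glob (by norm_num)
  rcases h.pieces (by norm_num) (by norm_num) with ⟨a, b, c, d⟩ | ⟨a, b, c, d⟩ | ⟨a, b, c, d⟩ | ⟨a, b, c, d⟩ | ⟨a, b, c⟩ | ⟨a, b, c⟩ | ⟨a, b, c⟩ | ⟨a, b, c⟩ | ⟨a, b, c⟩ | ⟨a, b, c⟩ | ⟨a, b, c⟩ | a
  · linarith
  · linarith
  · linarith
  · linarith
  · linarith
  · linarith
  · linarith
  · linarith
  · linarith
  · linarith
  · linarith
  · linarith

lemma ln6_13 {p s : ℝ} (h : CellP (349/125:ℝ) p s) (h1 : (9/100:ℝ) ≤ s) (h2 : s ≤ (11/100:ℝ)) :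
    (319/200:ℝ) * s + (10851/100000:ℝ) ≤ p := by
  obtain ⟨g1, g2, g3, g4⟩ := h.glob (by norm_num)
  rcases h.pieces (by norm_num) (by norm_num) with ⟨a, b, c, d⟩ | ⟨a, b, c, d⟩ | ⟨a, b, c, d⟩ | ⟨a, b, c, d⟩ | ⟨a, b, c⟩ | ⟨a, b, c⟩ | ⟨a, b, c⟩ | ⟨a, b, c⟩ | ⟨a, b, c⟩ | ⟨a, b, c⟩ | ⟨a, b, c⟩ | a
  · linarith
  · linarith
  · linarith
  · linarith
  · linarith
  · linarith
  · linarith
  · linarith
  · linarith
  · linarith
  · linarith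
  · linarith

lemma ln6_14 {p s : ℝ} (h : CellP (349/125:ℝ) p s) (h1 : (1/25:ℝ) ≤ s) (h2 : s ≤ (11/100:ℝ)) :
    (1769/1000:ℝ) * s + (4469/50000:ℝ) ≤ p := by
  obtain ⟨g1, g2, g3, g4⟩ := h.glob (by norm_num)
  rcases h.pieces (by norm_num) (by norm_num) with ⟨a, b, c, d⟩ | ⟨a, b, c, d⟩ | ⟨a, b, c, d⟩ | ⟨a, b, c, d⟩ | ⟨a, b, c⟩ | ⟨a, b, c⟩ | ⟨a, b, c⟩ | ⟨a, b, c⟩ | ⟨a, b, c⟩ | ⟨a, b, c⟩ | ⟨a, b, c⟩ | a
  · linarith
  · linarith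
  · linarith
  · linarith
  · linarith
  · linarith
  · linarith
  · linarith
  · linarith
  · linarith
  · linarith
  · linarith

lemma leaf6_5 {s1 s2 s3 s4 sg p1 p2 p3 p4 mu t1 t2 t3 : ℝ}
    (D : Dat (349/125:ℝ) (1/2:ℝ) (239/5000:ℝ) s1 s2 s3 s4 sg p1 p2 p3 p4 mu t1 t2 t3)
    (h0 : (21/200:ℝ) ≤ s1) (h1 : s1 ≤ (11/100:ℝ)) (h2 : (9/100:ℝ) ≤ s2) (h3 : (1/25:ℝ) ≤ s3) (h4 : s4 ≤ (1/50:ℝ)) (h5 : (2/25:ℝ) ≤ t1) (h6 : t3 ≤ (13/100:ℝ)) : False := by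
  obtain ⟨o1, o2, o3, o4, o5, o6, o7, o8, o9, o10, o11, o12, o13, o14, o15, o16, o17, o18, o19⟩ := D.lin
  have g0 : s1 ≤ (39789/250000:ℝ) := by have := (D.c1.glob (by norm_num)).2.2.2; linarith only [this]
  have L1 : (21/200:ℝ) ≤ s1 := by linarith only [o1, o2, o3, o5, o7, o8, o9, o11, o12, o13, o15, o16, o17, o18, o19, o4, g0, h0, h1, h2, h3, h4, h5, h6]
  have U1 : s1 ≤ (11/100:ℝ) := by linarith only [o1, o2, o3, o5, o7, o8, o9, o11, o12, o13, o15, o16, o17, o18, o19, o4, g0, h0, h1, h2, h3, h4, h5, h6]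
  have L2 : (9/100:ℝ) ≤ s2 := by linarith only [o1, o2, o3, o5, o7, o8, o9, o11, o12, o13, o15, o16, o17, o18, o19, o4, g0, h0, h1, h2, h3, h4, h5, h6]
  have U2 : s2 ≤ (11/100:ℝ) := by linarith only [o1, o2, o3, o5, o7, o8, o9, o11, o12, o13, o15, o16, o17, o18, o19, o4, g0, h0, h1, h2, h3, h4, h5, h6]
  have L3 : (1/25:ℝ) ≤ s3 := by linarith only [o1, o2, o3, o5, o7, o8, o9, o11, o12, o13, o15, o16, o17, o18, o19, o4, g0, h0, h1, h2, h3, h4, h5, h6]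
  have U3 : s3 ≤ (11/100:ℝ) := by linarith only [o1, o2, o3, o5, o7, o8, o9, o11, o12, o13, o15, o16, o17, o18, o19, o4, g0, h0, h1, h2, h3, h4, h5, h6]
  have L4 : (0:ℝ) ≤ s4 := by linarith only [o1, o2, o3, o5, o7, o8, o9, o11, o12, o13, o15, o16, o17, o18, o19, o4, g0, h0, h1, h2, h3, h4, h5, h6]
  have U4 : s4 ≤ (1/50:ℝ) := by linarith only [o1, o2, o3, o5, o7, o8, o9, o11, o12, o13, o15, o16, o17, o18, o19, o4, g0, h0, h1, h2, h3, h4, h5, h6]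
  have A0 : (2/25:ℝ) ≤ t1 := by linarith only [o1, o2, o3, o5, o7, o8, o9, o11, o12, o13, o15, o16, o17, o18, o19, o4, g0, h0, h1, h2, h3, h4, h5, h6]
  have B0 : t1 ≤ (11/100:ℝ) := by linarith only [o1, o2, o3, o5, o7, o8, o9, o11, o12, o13, o15, o16, o17, o18, o19, o4, g0, h0, h1, h2, h3, h4, h5, h6]
  have A1 : (0:ℝ) ≤ t2 := by linarith only [o1, o2, o3, o5, o7, o8, o9, o11, o12, o13, o15, o16, o17, o18, o19, o4, g0, h0, h1, h2, h3, h4, h5, h6]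
  have B1 : t2 ≤ (11/100:ℝ) := by linarith only [o1, o2, o3, o5, o7, o8, o9, o11, o12, o13, o15, o16, o17, o18, o19, o4, g0, h0, h1, h2, h3, h4, h5, h6]
  have A2 : (0:ℝ) ≤ t3 := by linarith only [o1, o2, o3, o5, o7, o8, o9, o11, o12, o13, o15, o16, o17, o18, o19, o4, g0, h0, h1, h2, h3, h4, h5, h6]
  have B2 : t3 ≤ (11/100:ℝ) := by linarith only [o1, o2, o3, o5, o7, o8, o9, o11, o12, o13, o15, o16, o17, o18, o19, o4, g0, h0, h1, h2, h3, h4, h5, h6]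
  have m0 := D.tcut _ _ _ _ _ _ (31/100:ℝ) A0 B0 A1 B1 A2 B2
  have m1 := D.tcut _ _ _ _ _ _ (33/100:ℝ) A0 B0 A1 B1 A2 B2
  have u0 := D.mlb _ _ _ (7/200:ℝ) L1 L2 L3 (by norm_num) (by norm_num) (by norm_num) (by norm_num) (by norm_num)
  have u1 := D.sqc _ (1:ℝ) u0 (by linarith only [o1, o2, o3, o5, o7, o8, o9, o11, o12, o13, o15, o16, o17, o18, o19, o4, g0, h0, h1, h2, h3, h4, h5, h6])
  have u2 := D.rat _ _ rt6_1 U4
  have l1 := ln6_12 D.c1 L1 U1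
  have l2 := ln6_13 D.c2 L2 U2
  have l3 := ln6_14 D.c3 L3 U3
  have l4 := ln6_11 D.c4 L4 U4
  obtain ⟨g11, g12, g13, -⟩ := D.c1.glob (by norm_num)
  obtain ⟨g21, g22, g23, -⟩ := D.c2.glob (by norm_num)
  obtain ⟨g31, g32, g33, -⟩ := D.c3.glob (by norm_num)
  obtain ⟨g41, g42, g43, -⟩ := D.c4.glob (by norm_num)
  linarith

lemma rt6_2 (p s : ℝ) (h : CellP (349/125:ℝ) p s) (h2 : s ≤ (1/100:ℝ)) : s ≤ (1331/10000:ℝ) * p := by
  obtain ⟨g1, g2, g3, g4⟩ := h.glob (by norm_num)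
  rcases h.pieces (by norm_num) (by norm_num) with ⟨a, b, c, d⟩ | ⟨a, b, c, d⟩ | ⟨a, b, c, d⟩ | ⟨a, b, c, d⟩ | ⟨a, b, c⟩ | ⟨a, b, c⟩ | ⟨a, b, c⟩ | ⟨a, b, c⟩ | ⟨a, b, c⟩ | ⟨a, b, c⟩ | ⟨a, b, c⟩ | a <;> linarith

lemma ln6_15 {p s : ℝ} (h : CellP (349/125:ℝ) p s) (h1 : (11/100:ℝ) ≤ s) (h2 : s ≤ (39789/250000:ℝ)) :
    (387/250:ℝ) * s + (11369/100000:ℝ) ≤ p := by
  obtain ⟨g1, g2, g3, g4⟩ := h.glob (by norm_num)
  rcases h.pieces (by norm_num) (by norm_num) with ⟨a, b, c, d⟩ | ⟨a, b, c, d⟩ | ⟨a, b, c, d⟩ | ⟨a, b, c, d⟩ | ⟨a, b, c⟩ | ⟨a, b, c⟩ | ⟨a, b, c⟩ | ⟨a, b, c⟩ | ⟨a, b, c⟩ | ⟨a, b, c⟩ | ⟨a, b, c⟩ | a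
  · linarith
  · linarith
  · linarith
  · linarith
  · linarith
  · linarith
  · linarith
  · linarith
  · linarith
  · linarith
  · linarith
  · linarith

lemma ln6_16 {p s : ℝ} (h : CellP (349/125:ℝ) p s) (h1 : (0:ℝ) ≤ s) (h2 : s ≤ (1/100:ℝ)) :
    (7517/1000:ℝ) * s + (-1/100000:ℝ) ≤ p := by
  obtain ⟨g1, g2, g3, g4⟩ := h.glob (by norm_num)
  rcases h.pieces (by norm_num) (by norm_num) with ⟨a, b, c, d⟩ | ⟨a, b, c, d⟩ | ⟨a, b, c, d⟩ | ⟨a, b, c, d⟩ | ⟨a, b, c⟩ | ⟨a, b, c⟩ | ⟨a, b, c⟩ | ⟨a, b, c⟩ | ⟨a, b, c⟩ | ⟨a, b, c⟩ | ⟨a, b, c⟩ | a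
  · linarith
  · linarith
  · linarith
  · linarith
  · linarith
  · linarith
  · linarith
  · linarith
  · linarith
  · linarith
  · linarith
  · linarith

lemma leaf6_6 {s1 s2 s3 s4 sg p1 p2 p3 p4 mu t1 t2 t3 : ℝ}
    (D : Dat (349/125:ℝ) (1/2:ℝ) (239/5000:ℝ) s1 s2 s3 s4 sg p1 p2 p3 p4 mu t1 t2 t3)
    (h0 : (11/100:ℝ) ≤ s1) (h1 : (9/100:ℝ) ≤ s2) (h2 : (1/25:ℝ) ≤ s3) (h3 : s4 ≤ (1/100:ℝ)) (h4 : (2/25:ℝ) ≤ t1) (h5 : t2 ≤ (2/25:ℝ)) (h6 : t3 ≤ (13/100:ℝ)) : False := by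
  obtain ⟨o1, o2, o3, o4, o5, o6, o7, o8, o9, o10, o11, o12, o13, o14, o15, o16, o17, o18, o19⟩ := D.lin
  have g0 : s1 ≤ (39789/250000:ℝ) := by have := (D.c1.glob (by norm_num)).2.2.2; linarith only [this]
  have L1 : (11/100:ℝ) ≤ s1 := by linarith only [o1, o2, o3, o5, o7, o8, o9, o11, o12, o13, o15, o16, o17, o18, o19, o4, g0, h0, h1, h2, h3, h4, h5, h6]
  have U1 : s1 ≤ (39789/250000:ℝ) := by linarith only [o1, o2, o3, o5, o7, o8, o9, o11, o12, o13, o15, o16, o17, o18, o19, o4, g0, h0, h1, h2, h3, h4, h5, h6]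
  have L2 : (9/100:ℝ) ≤ s2 := by linarith only [o1, o2, o3, o5, o7, o8, o9, o11, o12, o13, o15, o16, o17, o18, o19, o4, g0, h0, h1, h2, h3, h4, h5, h6]
  have U2 : s2 ≤ (39789/250000:ℝ) := by linarith only [o1, o2, o3, o5, o7, o8, o9, o11, o12, o13, o15, o16, o17, o18, o19, o4, g0, h0, h1, h2, h3, h4, h5, h6]
  have L3 : (1/25:ℝ) ≤ s3 := by linarith only [o1, o2, o3, o5, o7, o8, o9, o11, o12, o13, o15, o16, o17, o18, o19, o4, g0, h0, h1, h2, h3, h4, h5, h6]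
  have U3 : s3 ≤ (39789/250000:ℝ) := by linarith only [o1, o2, o3, o5, o7, o8, o9, o11, o12, o13, o15, o16, o17, o18, o19, o4, g0, h0, h1, h2, h3, h4, h5, h6]
  have L4 : (0:ℝ) ≤ s4 := by linarith only [o1, o2, o3, o5, o7, o8, o9, o11, o12, o13, o15, o16, o17, o18, o19, o4, g0, h0, h1, h2, h3, h4, h5, h6]
  have U4 : s4 ≤ (1/100:ℝ) := by linarith only [o1, o2, o3, o5, o7, o8, o9, o11, o12, o13, o15, o16, o17, o18, o19, o4, g0, h0, h1, h2, h3, h4, h5, h6]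
  have A0 : (2/25:ℝ) ≤ t1 := by linarith only [o1, o2, o3, o5, o7, o8, o9, o11, o12, o13, o15, o16, o17, o18, o19, o4, g0, h0, h1, h2, h3, h4, h5, h6]
  have B0 : t1 ≤ (39789/250000:ℝ) := by linarith only [o1, o2, o3, o5, o7, o8, o9, o11, o12, o13, o15, o16, o17, o18, o19, o4, g0, h0, h1, h2, h3, h4, h5, h6]
  have A1 : (0:ℝ) ≤ t2 := by linarith only [o1, o2, o3, o5, o7, o8, o9, o11, o12, o13, o15, o16, o17, o18, o19, o4, g0, h0, h1, h2, h3, h4, h5, h6]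
  have B1 : t2 ≤ (2/25:ℝ) := by linarith only [o1, o2, o3, o5, o7, o8, o9, o11, o12, o13, o15, o16, o17, o18, o19, o4, g0, h0, h1, h2, h3, h4, h5, h6]
  have A2 : (0:ℝ) ≤ t3 := by linarith only [o1, o2, o3, o5, o7, o8, o9, o11, o12, o13, o15, o16, o17, o18, o19, o4, g0, h0, h1, h2, h3, h4, h5, h6]
  have B2 : t3 ≤ (13/100:ℝ) := by linarith only [o1, o2, o3, o5, o7, o8, o9, o11, o12, o13, o15, o16, o17, o18, o19, o4, g0, h0, h1, h2, h3, h4, h5, h6]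
  have m0 := D.tcut _ _ _ _ _ _ (31/100:ℝ) A0 B0 A1 B1 A2 B2
  have m1 := D.tcut _ _ _ _ _ _ (33/100:ℝ) A0 B0 A1 B1 A2 B2
  have u0 := D.mlb _ _ _ (3/80:ℝ) L1 L2 L3 (by norm_num) (by norm_num) (by norm_num) (by norm_num) (by norm_num)
  have u1 := D.sqc _ (1:ℝ) u0 (by linarith only [o1, o2, o3, o5, o7, o8, o9, o11, o12, o13, o15, o16, o17, o18, o19, o4, g0, h0, h1, h2, h3, h4, h5, h6])
  have u2 := D.rat _ _ rt6_2 U4
  have l1 := ln6_15 D.c1 L1 U1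
  have l2 := ln6_10 D.c2 L2 U2
  have l3 := ln6_2 D.c3 L3 U3
  have l4 := ln6_16 D.c4 L4 U4
  obtain ⟨g11, g12, g13, -⟩ := D.c1.glob (by norm_num)
  obtain ⟨g21, g22, g23, -⟩ := D.c2.glob (by norm_num)
  obtain ⟨g31, g32, g33, -⟩ := D.c3.glob (by norm_num)
  obtain ⟨g41, g42, g43, -⟩ := D.c4.glob (by norm_num)
  linarith

lemma ln6_17 {p s : ℝ} (h : CellP (349/125:ℝ) p s) (h1 : (1/25:ℝ) ≤ s) (h2 : s ≤ (1/10:ℝ)) :
    (901/500:ℝ) * s + (4403/50000:ℝ) ≤ p := by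
  obtain ⟨g1, g2, g3, g4⟩ := h.glob (by norm_num)
  rcases h.pieces (by norm_num) (by norm_num) with ⟨a, b, c, d⟩ | ⟨a, b, c, d⟩ | ⟨a, b, c, d⟩ | ⟨a, b, c, d⟩ | ⟨a, b, c⟩ | ⟨a, b, c⟩ | ⟨a, b, c⟩ | ⟨a, b, c⟩ | ⟨a, b, c⟩ | ⟨a, b, c⟩ | ⟨a, b, c⟩ | a
  · linarith
  · linarith
  · linarith
  · linarith
  · linarith
  · linarith
  · linarith
  · linarith
  · linarith
  · linarith
  · linarith
  · linarith

lemma ln6_18 {p s : ℝ} (h : CellP (349/125:ℝ) p s) (h1 : (1/100:ℝ) ≤ s) (h2 : s ≤ (1/50:ℝ)) :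
    (347/100:ℝ) * s + (4047/100000:ℝ) ≤ p := by
  obtain ⟨g1, g2, g3, g4⟩ := h.glob (by norm_num)
  rcases h.pieces (by norm_num) (by norm_num) with ⟨a, b, c, d⟩ | ⟨a, b, c, d⟩ | ⟨a, b, c, d⟩ | ⟨a, b, c, d⟩ | ⟨a, b, c⟩ | ⟨a, b, c⟩ | ⟨a, b, c⟩ | ⟨a, b, c⟩ | ⟨a, b, c⟩ | ⟨a, b, c⟩ | ⟨a, b, c⟩ | a
  · linarith
  · linarith
  · linarith
  · linarith
  · linarith
  · linarith
  · linarith
  · linarith
  · linarith
  · linarith
  · linarith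
  · linarith

lemma leaf6_7 {s1 s2 s3 s4 sg p1 p2 p3 p4 mu t1 t2 t3 : ℝ}
    (D : Dat (349/125:ℝ) (1/2:ℝ) (239/5000:ℝ) s1 s2 s3 s4 sg p1 p2 p3 p4 mu t1 t2 t3)
    (h0 : (11/100:ℝ) ≤ s1) (h1 : (9/100:ℝ) ≤ s2) (h2 : (1/25:ℝ) ≤ s3) (h3 : s3 ≤ (1/10:ℝ)) (h4 : (1/100:ℝ) ≤ s4) (h5 : s4 ≤ (1/50:ℝ)) (h6 : (2/25:ℝ) ≤ t1) (h7 : t2 ≤ (2/25:ℝ)) (h8 : t3 ≤ (13/100:ℝ)) : False := by
  obtain ⟨o1, o2, o3, o4, o5, o6, o7, o8, o9, o10, o11, o12, o13, o14, o15, o16, o17, o18, o19⟩ := D.lin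
  have g0 : s1 ≤ (39789/250000:ℝ) := by have := (D.c1.glob (by norm_num)).2.2.2; linarith only [this]
  have L1 : (11/100:ℝ) ≤ s1 := by linarith only [o1, o2, o3, o5, o7, o8, o9, o11, o12, o13, o15, o16, o17, o18, o19, o4, g0, h0, h1, h2, h3, h4, h5, h6, h7, h8]
  have U1 : s1 ≤ (39789/250000:ℝ) := by linarith only [o1, o2, o3, o5, o7, o8, o9, o11, o12, o13, o15, o16, o17, o18, o19, o4, g0, h0, h1, h2, h3, h4, h5, h6, h7, h8]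
  have L2 : (9/100:ℝ) ≤ s2 := by linarith only [o1, o2, o3, o5, o7, o8, o9, o11, o12, o13, o15, o16, o17, o18, o19, o4, g0, h0, h1, h2, h3, h4, h5, h6, h7, h8]
  have U2 : s2 ≤ (39789/250000:ℝ) := by linarith only [o1, o2, o3, o5, o7, o8, o9, o11, o12, o13, o15, o16, o17, o18, o19, o4, g0, h0, h1, h2, h3, h4, h5, h6, h7, h8]
  have L3 : (1/25:ℝ) ≤ s3 := by linarith only [o1, o2, o3, o5, o7, o8, o9, o11, o12, o13, o15, o16, o17, o18, o19, o4, g0, h0, h1, h2, h3, h4, h5, h6, h7, h8]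
  have U3 : s3 ≤ (1/10:ℝ) := by linarith only [o1, o2, o3, o5, o7, o8, o9, o11, o12, o13, o15, o16, o17, o18, o19, o4, g0, h0, h1, h2, h3, h4, h5, h6, h7, h8]
  have L4 : (1/100:ℝ) ≤ s4 := by linarith only [o1, o2, o3, o5, o7, o8, o9, o11, o12, o13, o15, o16, o17, o18, o19, o4, g0, h0, h1, h2, h3, h4, h5, h6, h7, h8]
  have U4 : s4 ≤ (1/50:ℝ) := by linarith only [o1, o2, o3, o5, o7, o8, o9, o11, o12, o13, o15, o16, o17, o18, o19, o4, g0, h0, h1, h2, h3, h4, h5, h6, h7, h8]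
  have A0 : (2/25:ℝ) ≤ t1 := by linarith only [o1, o2, o3, o5, o7, o8, o9, o11, o12, o13, o15, o16, o17, o18, o19, o4, g0, h0, h1, h2, h3, h4, h5, h6, h7, h8]
  have B0 : t1 ≤ (39789/250000:ℝ) := by linarith only [o1, o2, o3, o5, o7, o8, o9, o11, o12, o13, o15, o16, o17, o18, o19, o4, g0, h0, h1, h2, h3, h4, h5, h6, h7, h8]
  have A1 : (0:ℝ) ≤ t2 := by linarith only [o1, o2, o3, o5, o7, o8, o9, o11, o12, o13, o15, o16, o17, o18, o19, o4, g0, h0, h1, h2, h3, h4, h5, h6, h7, h8]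
  have B1 : t2 ≤ (2/25:ℝ) := by linarith only [o1, o2, o3, o5, o7, o8, o9, o11, o12, o13, o15, o16, o17, o18, o19, o4, g0, h0, h1, h2, h3, h4, h5, h6, h7, h8]
  have A2 : (0:ℝ) ≤ t3 := by linarith only [o1, o2, o3, o5, o7, o8, o9, o11, o12, o13, o15, o16, o17, o18, o19, o4, g0, h0, h1, h2, h3, h4, h5, h6, h7, h8]
  have B2 : t3 ≤ (1/10:ℝ) := by linarith only [o1, o2, o3, o5, o7, o8, o9, o11, o12, o13, o15, o16, o17, o18, o19, o4, g0, h0, h1, h2, h3, h4, h5, h6, h7, h8]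
  have m0 := D.tcut _ _ _ _ _ _ (31/100:ℝ) A0 B0 A1 B1 A2 B2
  have m1 := D.tcut _ _ _ _ _ _ (33/100:ℝ) A0 B0 A1 B1 A2 B2
  have u0 := D.mlb _ _ _ (3/80:ℝ) L1 L2 L3 (by norm_num) (by norm_num) (by norm_num) (by norm_num) (by norm_num)
  have u1 := D.sqc _ (1:ℝ) u0 (by linarith only [o1, o2, o3, o5, o7, o8, o9, o11, o12, o13, o15, o16, o17, o18, o19, o4, g0, h0, h1, h2, h3, h4, h5, h6, h7, h8])
  have u2 := D.rat _ _ rt6_1 U4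
  have l1 := ln6_15 D.c1 L1 U1
  have l2 := ln6_10 D.c2 L2 U2
  have l3 := ln6_17 D.c3 L3 U3
  have l4 := ln6_18 D.c4 L4 U4
  obtain ⟨g11, g12, g13, -⟩ := D.c1.glob (by norm_num)
  obtain ⟨g21, g22, g23, -⟩ := D.c2.glob (by norm_num)
  obtain ⟨g31, g32, g33, -⟩ := D.c3.glob (by norm_num)
  obtain ⟨g41, g42, g43, -⟩ := D.c4.glob (by norm_num)
  linarith

lemma ln6_19 {p s : ℝ} (h : CellP (349/125:ℝ) p s) (h1 : (1/10:ℝ) ≤ s) (h2 : s ≤ (39789/250000:ℝ)) :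
    (779/500:ℝ) * s + (11247/100000:ℝ) ≤ p := by
  obtain ⟨g1, g2, g3, g4⟩ := h.glob (by norm_num)
  rcases h.pieces (by norm_num) (by norm_num) with ⟨a, b, c, d⟩ | ⟨a, b, c, d⟩ | ⟨a, b, c, d⟩ | ⟨a, b, c, d⟩ | ⟨a, b, c⟩ | ⟨a, b, c⟩ | ⟨a, b, c⟩ | ⟨a, b, c⟩ | ⟨a, b, c⟩ | ⟨a, b, c⟩ | ⟨a, b, c⟩ | a
  · linarith
  · linarith
  · linarith
  · linarith
  · linarith
  · linarith
  · linarith
  · linarith
  · linarith
  · linarith
  · linarith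
  · linarith

lemma leaf6_8 {s1 s2 s3 s4 sg p1 p2 p3 p4 mu t1 t2 t3 : ℝ}
    (D : Dat (349/125:ℝ) (1/2:ℝ) (239/5000:ℝ) s1 s2 s3 s4 sg p1 p2 p3 p4 mu t1 t2 t3)
    (h0 : (11/100:ℝ) ≤ s1) (h1 : (9/100:ℝ) ≤ s2) (h2 : (1/10:ℝ) ≤ s3) (h3 : (1/100:ℝ) ≤ s4) (h4 : s4 ≤ (1/50:ℝ)) (h5 : (2/25:ℝ) ≤ t1) (h6 : t2 ≤ (2/25:ℝ)) (h7 : t3 ≤ (13/100:ℝ)) : False := by
  obtain ⟨o1, o2, o3, o4, o5, o6, o7, o8, o9, o10, o11, o12, o13, o14, o15, o16, o17, o18, o19⟩ := D.lin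
  have g0 : s1 ≤ (39789/250000:ℝ) := by have := (D.c1.glob (by norm_num)).2.2.2; linarith only [this]
  have L1 : (11/100:ℝ) ≤ s1 := by linarith only [o1, o2, o3, o5, o7, o8, o9, o11, o12, o13, o15, o16, o17, o18, o19, o4, g0, h0, h1, h2, h3, h4, h5, h6, h7]
  have U1 : s1 ≤ (39789/250000:ℝ) := by linarith only [o1, o2, o3, o5, o7, o8, o9, o11, o12, o13, o15, o16, o17, o18, o19, o4, g0, h0, h1, h2, h3, h4, h5, h6, h7]
  have L2 : (1/10:ℝ) ≤ s2 := by linarith only [o1, o2, o3, o5, o7, o8, o9, o11, o12, o13, o15, o16, o17, o18, o19, o4, g0, h0, h1, h2, h3, h4, h5, h6, h7]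
  have U2 : s2 ≤ (39789/250000:ℝ) := by linarith only [o1, o2, o3, o5, o7, o8, o9, o11, o12, o13, o15, o16, o17, o18, o19, o4, g0, h0, h1, h2, h3, h4, h5, h6, h7]
  have L3 : (1/10:ℝ) ≤ s3 := by linarith only [o1, o2, o3, o5, o7, o8, o9, o11, o12, o13, o15, o16, o17, o18, o19, o4, g0, h0, h1, h2, h3, h4, h5, h6, h7]
  have U3 : s3 ≤ (39789/250000:ℝ) := by linarith only [o1, o2, o3, o5, o7, o8, o9, o11, o12, o13, o15, o16, o17, o18, o19, o4, g0, h0, h1, h2, h3, h4, h5, h6, h7]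
  have L4 : (1/100:ℝ) ≤ s4 := by linarith only [o1, o2, o3, o5, o7, o8, o9, o11, o12, o13, o15, o16, o17, o18, o19, o4, g0, h0, h1, h2, h3, h4, h5, h6, h7]
  have U4 : s4 ≤ (1/50:ℝ) := by linarith only [o1, o2, o3, o5, o7, o8, o9, o11, o12, o13, o15, o16, o17, o18, o19, o4, g0, h0, h1, h2, h3, h4, h5, h6, h7]
  have A0 : (2/25:ℝ) ≤ t1 := by linarith only [o1, o2, o3, o5, o7, o8, o9, o11, o12, o13, o15, o16, o17, o18, o19, o4, g0, h0, h1, h2, h3, h4, h5, h6, h7]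
  have B0 : t1 ≤ (39789/250000:ℝ) := by linarith only [o1, o2, o3, o5, o7, o8, o9, o11, o12, o13, o15, o16, o17, o18, o19, o4, g0, h0, h1, h2, h3, h4, h5, h6, h7]
  have A1 : (0:ℝ) ≤ t2 := by linarith only [o1, o2, o3, o5, o7, o8, o9, o11, o12, o13, o15, o16, o17, o18, o19, o4, g0, h0, h1, h2, h3, h4, h5, h6, h7]
  have B1 : t2 ≤ (2/25:ℝ) := by linarith only [o1, o2, o3, o5, o7, o8, o9, o11, o12, o13, o15, o16, o17, o18, o19, o4, g0, h0, h1, h2, h3, h4, h5, h6, h7]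
  have A2 : (0:ℝ) ≤ t3 := by linarith only [o1, o2, o3, o5, o7, o8, o9, o11, o12, o13, o15, o16, o17, o18, o19, o4, g0, h0, h1, h2, h3, h4, h5, h6, h7]
  have B2 : t3 ≤ (13/100:ℝ) := by linarith only [o1, o2, o3, o5, o7, o8, o9, o11, o12, o13, o15, o16, o17, o18, o19, o4, g0, h0, h1, h2, h3, h4, h5, h6, h7]
  have m0 := D.tcut _ _ _ _ _ _ (31/100:ℝ) A0 B0 A1 B1 A2 B2
  have m1 := D.tcut _ _ _ _ _ _ (33/100:ℝ) A0 B0 A1 B1 A2 B2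
  have u0 := D.mlb _ _ _ (21/400:ℝ) L1 L2 L3 (by norm_num) (by norm_num) (by norm_num) (by norm_num) (by norm_num)
  have u1 := D.sqc _ (1:ℝ) u0 (by linarith only [o1, o2, o3, o5, o7, o8, o9, o11, o12, o13, o15, o16, o17, o18, o19, o4, g0, h0, h1, h2, h3, h4, h5, h6, h7])
  have u2 := D.rat _ _ rt6_1 U4
  have l1 := ln6_15 D.c1 L1 U1
  have l2 := ln6_19 D.c2 L2 U2
  have l3 := ln6_19 D.c3 L3 U3
  have l4 := ln6_18 D.c4 L4 U4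
  obtain ⟨g11, g12, g13, -⟩ := D.c1.glob (by norm_num)
  obtain ⟨g21, g22, g23, -⟩ := D.c2.glob (by norm_num)
  obtain ⟨g31, g32, g33, -⟩ := D.c3.glob (by norm_num)
  obtain ⟨g41, g42, g43, -⟩ := D.c4.glob (by norm_num)
  linarith

lemma rt6_3 (p s : ℝ) (h : CellP (349/125:ℝ) p s) (h2 : s ≤ (1/200:ℝ)) : s ≤ (1001/10000:ℝ) * p := by
  obtain ⟨g1, g2, g3, g4⟩ := h.glob (by norm_num)
  rcases h.pieces (by norm_num) (by norm_num) with ⟨a, b, c, d⟩ | ⟨a, b, c, d⟩ | ⟨a, b, c, d⟩ | ⟨a, b, c, d⟩ | ⟨a, b, c⟩ | ⟨a, b, c⟩ | ⟨a, b, c⟩ | ⟨a, b, c⟩ | ⟨a, b, c⟩ | ⟨a, b, c⟩ | ⟨a, b, c⟩ | a <;> linarith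

lemma ln6_20 {p s : ℝ} (h : CellP (349/125:ℝ) p s) (h1 : (0:ℝ) ≤ s) (h2 : s ≤ (1/200:ℝ)) :
    (10:ℝ) * s + (-1/100000:ℝ) ≤ p := by
  obtain ⟨g1, g2, g3, g4⟩ := h.glob (by norm_num)
  rcases h.pieces (by norm_num) (by norm_num) with ⟨a, b, c, d⟩ | ⟨a, b, c, d⟩ | ⟨a, b, c, d⟩ | ⟨a, b, c, d⟩ | ⟨a, b, c⟩ | ⟨a, b, c⟩ | ⟨a, b, c⟩ | ⟨a, b, c⟩ | ⟨a, b, c⟩ | ⟨a, b, c⟩ | ⟨a, b, c⟩ | a
  · linarith
  · linarith
  · linarith
  · linarith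
  · linarith
  · linarith
  · linarith
  · linarith
  · linarith
  · linarith
  · linarith
  · linarith

lemma leaf6_9 {s1 s2 s3 s4 sg p1 p2 p3 p4 mu t1 t2 t3 : ℝ}
    (D : Dat (349/125:ℝ) (1/2:ℝ) (239/5000:ℝ) s1 s2 s3 s4 sg p1 p2 p3 p4 mu t1 t2 t3)
    (h0 : (11/100:ℝ) ≤ s1) (h1 : (9/100:ℝ) ≤ s2) (h2 : (1/25:ℝ) ≤ s3) (h3 : s4 ≤ (1/200:ℝ)) (h4 : (2/25:ℝ) ≤ t1) (h5 : t1 ≤ (11/100:ℝ)) (h6 : (2/25:ℝ) ≤ t2) (h7 : t3 ≤ (13/100:ℝ)) : False := by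
  obtain ⟨o1, o2, o3, o4, o5, o6, o7, o8, o9, o10, o11, o12, o13, o14, o15, o16, o17, o18, o19⟩ := D.lin
  have g0 : s1 ≤ (39789/250000:ℝ) := by have := (D.c1.glob (by norm_num)).2.2.2; linarith only [this]
  have L1 : (11/100:ℝ) ≤ s1 := by linarith only [o1, o2, o3, o5, o7, o8, o9, o11, o12, o13, o15, o16, o17, o18, o19, o4, g0, h0, h1, h2, h3, h4, h5, h6, h7]
  have U1 : s1 ≤ (39789/250000:ℝ) := by linarith only [o1, o2, o3, o5, o7, o8, o9, o11, o12, o13, o15, o16, o17, o18, o19, o4, g0, h0, h1, h2, h3, h4, h5, h6, h7]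
  have L2 : (9/100:ℝ) ≤ s2 := by linarith only [o1, o2, o3, o5, o7, o8, o9, o11, o12, o13, o15, o16, o17, o18, o19, o4, g0, h0, h1, h2, h3, h4, h5, h6, h7]
  have U2 : s2 ≤ (39789/250000:ℝ) := by linarith only [o1, o2, o3, o5, o7, o8, o9, o11, o12, o13, o15, o16, o17, o18, o19, o4, g0, h0, h1, h2, h3, h4, h5, h6, h7]
  have L3 : (1/25:ℝ) ≤ s3 := by linarith only [o1, o2, o3, o5, o7, o8, o9, o11, o12, o13, o15, o16, o17, o18, o19, o4, g0, h0, h1, h2, h3, h4, h5, h6, h7]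
  have U3 : s3 ≤ (39789/250000:ℝ) := by linarith only [o1, o2, o3, o5, o7, o8, o9, o11, o12, o13, o15, o16, o17, o18, o19, o4, g0, h0, h1, h2, h3, h4, h5, h6, h7]
  have L4 : (0:ℝ) ≤ s4 := by linarith only [o1, o2, o3, o5, o7, o8, o9, o11, o12, o13, o15, o16, o17, o18, o19, o4, g0, h0, h1, h2, h3, h4, h5, h6, h7]
  have U4 : s4 ≤ (1/200:ℝ) := by linarith only [o1, o2, o3, o5, o7, o8, o9, o11, o12, o13, o15, o16, o17, o18, o19, o4, g0, h0, h1, h2, h3, h4, h5, h6, h7]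
  have A0 : (2/25:ℝ) ≤ t1 := by linarith only [o1, o2, o3, o5, o7, o8, o9, o11, o12, o13, o15, o16, o17, o18, o19, o4, g0, h0, h1, h2, h3, h4, h5, h6, h7]
  have B0 : t1 ≤ (11/100:ℝ) := by linarith only [o1, o2, o3, o5, o7, o8, o9, o11, o12, o13, o15, o16, o17, o18, o19, o4, g0, h0, h1, h2, h3, h4, h5, h6, h7]
  have A1 : (2/25:ℝ) ≤ t2 := by linarith only [o1, o2, o3, o5, o7, o8, o9, o11, o12, o13, o15, o16, o17, o18, o19, o4, g0, h0, h1, h2, h3, h4, h5, h6, h7]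
  have B1 : t2 ≤ (39789/250000:ℝ) := by linarith only [o1, o2, o3, o5, o7, o8, o9, o11, o12, o13, o15, o16, o17, o18, o19, o4, g0, h0, h1, h2, h3, h4, h5, h6, h7]
  have A2 : (0:ℝ) ≤ t3 := by linarith only [o1, o2, o3, o5, o7, o8, o9, o11, o12, o13, o15, o16, o17, o18, o19, o4, g0, h0, h1, h2, h3, h4, h5, h6, h7]
  have B2 : t3 ≤ (13/100:ℝ) := by linarith only [o1, o2, o3, o5, o7, o8, o9, o11, o12, o13, o15, o16, o17, o18, o19, o4, g0, h0, h1, h2, h3, h4, h5, h6, h7]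
  have m0 := D.tcut _ _ _ _ _ _ (31/100:ℝ) A0 B0 A1 B1 A2 B2
  have m1 := D.tcut _ _ _ _ _ _ (33/100:ℝ) A0 B0 A1 B1 A2 B2
  have u0 := D.mlb _ _ _ (3/80:ℝ) L1 L2 L3 (by norm_num) (by norm_num) (by norm_num) (by norm_num) (by norm_num)
  have u1 := D.sqc _ (1:ℝ) u0 (by linarith only [o1, o2, o3, o5, o7, o8, o9, o11, o12, o13, o15, o16, o17, o18, o19, o4, g0, h0, h1, h2, h3, h4, h5, h6, h7])
  have u2 := D.rat _ _ rt6_3 U4
  have l1 := ln6_15 D.c1 L1 U1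
  have l2 := ln6_10 D.c2 L2 U2
  have l3 := ln6_2 D.c3 L3 U3
  have l4 := ln6_20 D.c4 L4 U4
  obtain ⟨g11, g12, g13, -⟩ := D.c1.glob (by norm_num)
  obtain ⟨g21, g22, g23, -⟩ := D.c2.glob (by norm_num)
  obtain ⟨g31, g32, g33, -⟩ := D.c3.glob (by norm_num)
  obtain ⟨g41, g42, g43, -⟩ := D.c4.glob (by norm_num)
  linarith

lemma leaf6_10 {s1 s2 s3 s4 sg p1 p2 p3 p4 mu t1 t2 t3 : ℝ}
    (D : Dat (349/125:ℝ) (1/2:ℝ) (239/5000:ℝ) s1 s2 s3 s4 sg p1 p2 p3 p4 mu t1 t2 t3)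
    (h0 : (11/100:ℝ) ≤ s1) (h1 : (9/100:ℝ) ≤ s2) (h2 : (1/25:ℝ) ≤ s3) (h3 : s4 ≤ (1/200:ℝ)) (h4 : (11/100:ℝ) ≤ t1) (h5 : (2/25:ℝ) ≤ t2) (h6 : t3 ≤ (13/100:ℝ)) : False := by
  obtain ⟨o1, o2, o3, o4, o5, o6, o7, o8, o9, o10, o11, o12, o13, o14, o15, o16, o17, o18, o19⟩ := D.lin
  have g0 : s1 ≤ (39789/250000:ℝ) := by have := (D.c1.glob (by norm_num)).2.2.2; linarith only [this]
  have L1 : (11/100:ℝ) ≤ s1 := by linarith only [o1, o2, o3, o5, o7, o8, o9, o11, o12, o13, o15, o16, o17, o18, o19, o4, g0, h0, h1, h2, h3, h4, h5, h6]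
  have U1 : s1 ≤ (39789/250000:ℝ) := by linarith only [o1, o2, o3, o5, o7, o8, o9, o11, o12, o13, o15, o16, o17, o18, o19, o4, g0, h0, h1, h2, h3, h4, h5, h6]
  have L2 : (9/100:ℝ) ≤ s2 := by linarith only [o1, o2, o3, o5, o7, o8, o9, o11, o12, o13, o15, o16, o17, o18, o19, o4, g0, h0, h1, h2, h3, h4, h5, h6]
  have U2 : s2 ≤ (39789/250000:ℝ) := by linarith only [o1, o2, o3, o5, o7, o8, o9, o11, o12, o13, o15, o16, o17, o18, o19, o4, g0, h0, h1, h2, h3, h4, h5, h6]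
  have L3 : (1/25:ℝ) ≤ s3 := by linarith only [o1, o2, o3, o5, o7, o8, o9, o11, o12, o13, o15, o16, o17, o18, o19, o4, g0, h0, h1, h2, h3, h4, h5, h6]
  have U3 : s3 ≤ (39789/250000:ℝ) := by linarith only [o1, o2, o3, o5, o7, o8, o9, o11, o12, o13, o15, o16, o17, o18, o19, o4, g0, h0, h1, h2, h3, h4, h5, h6]
  have L4 : (0:ℝ) ≤ s4 := by linarith only [o1, o2, o3, o5, o7, o8, o9, o11, o12, o13, o15, o16, o17, o18, o19, o4, g0, h0, h1, h2, h3, h4, h5, h6]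
  have U4 : s4 ≤ (1/200:ℝ) := by linarith only [o1, o2, o3, o5, o7, o8, o9, o11, o12, o13, o15, o16, o17, o18, o19, o4, g0, h0, h1, h2, h3, h4, h5, h6]
  have A0 : (11/100:ℝ) ≤ t1 := by linarith only [o1, o2, o3, o5, o7, o8, o9, o11, o12, o13, o15, o16, o17, o18, o19, o4, g0, h0, h1, h2, h3, h4, h5, h6]
  have B0 : t1 ≤ (39789/250000:ℝ) := by linarith only [o1, o2, o3, o5, o7, o8, o9, o11, o12, o13, o15, o16, o17, o18, o19, o4, g0, h0, h1, h2, h3, h4, h5, h6]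
  have A1 : (2/25:ℝ) ≤ t2 := by linarith only [o1, o2, o3, o5, o7, o8, o9, o11, o12, o13, o15, o16, o17, o18, o19, o4, g0, h0, h1, h2, h3, h4, h5, h6]
  have B1 : t2 ≤ (39789/250000:ℝ) := by linarith only [o1, o2, o3, o5, o7, o8, o9, o11, o12, o13, o15, o16, o17, o18, o19, o4, g0, h0, h1, h2, h3, h4, h5, h6]
  have A2 : (0:ℝ) ≤ t3 := by linarith only [o1, o2, o3, o5, o7, o8, o9, o11, o12, o13, o15, o16, o17, o18, o19, o4, g0, h0, h1, h2, h3, h4, h5, h6]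
  have B2 : t3 ≤ (13/100:ℝ) := by linarith only [o1, o2, o3, o5, o7, o8, o9, o11, o12, o13, o15, o16, o17, o18, o19, o4, g0, h0, h1, h2, h3, h4, h5, h6]
  have m0 := D.tcut _ _ _ _ _ _ (31/100:ℝ) A0 B0 A1 B1 A2 B2
  have m1 := D.tcut _ _ _ _ _ _ (33/100:ℝ) A0 B0 A1 B1 A2 B2
  have u0 := D.mlb _ _ _ (3/80:ℝ) L1 L2 L3 (by norm_num) (by norm_num) (by norm_num) (by norm_num) (by norm_num)
  have u1 := D.sqc _ (1:ℝ) u0 (by linarith only [o1, o2, o3, o5, o7, o8, o9, o11, o12, o13, o15, o16, o17, o18, o19, o4, g0, h0, h1, h2, h3, h4, h5, h6])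
  have u2 := D.rat _ _ rt6_3 U4
  have l1 := ln6_15 D.c1 L1 U1
  have l2 := ln6_10 D.c2 L2 U2
  have l3 := ln6_2 D.c3 L3 U3
  have l4 := ln6_20 D.c4 L4 U4
  obtain ⟨g11, g12, g13, -⟩ := D.c1.glob (by norm_num)
  obtain ⟨g21, g22, g23, -⟩ := D.c2.glob (by norm_num)
  obtain ⟨g31, g32, g33, -⟩ := D.c3.glob (by norm_num)
  obtain ⟨g41, g42, g43, -⟩ := D.c4.glob (by norm_num)
  linarith

lemma ln6_21 {p s : ℝ} (h : CellP (349/125:ℝ) p s) (h1 : (1/200:ℝ) ≤ s) (h2 : s ≤ (1/50:ℝ)) :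
    (3991/1000:ℝ) * s + (751/25000:ℝ) ≤ p := by
  obtain ⟨g1, g2, g3, g4⟩ := h.glob (by norm_num)
  rcases h.pieces (by norm_num) (by norm_num) with ⟨a, b, c, d⟩ | ⟨a, b, c, d⟩ | ⟨a, b, c, d⟩ | ⟨a, b, c, d⟩ | ⟨a, b, c⟩ | ⟨a, b, c⟩ | ⟨a, b, c⟩ | ⟨a, b, c⟩ | ⟨a, b, c⟩ | ⟨a, b, c⟩ | ⟨a, b, c⟩ | a
  · linarith
  · linarith
  · linarith
  · linarith
  · linarith
  · linarith
  · linarith
  · linarith
  · linarith
  · linarith
  · linarith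
  · linarith

lemma leaf6_11 {s1 s2 s3 s4 sg p1 p2 p3 p4 mu t1 t2 t3 : ℝ}
    (D : Dat (349/125:ℝ) (1/2:ℝ) (239/5000:ℝ) s1 s2 s3 s4 sg p1 p2 p3 p4 mu t1 t2 t3)
    (h0 : (11/100:ℝ) ≤ s1) (h1 : (9/100:ℝ) ≤ s2) (h2 : (1/25:ℝ) ≤ s3) (h3 : s3 ≤ (7/100:ℝ)) (h4 : (1/200:ℝ) ≤ s4) (h5 : s4 ≤ (1/50:ℝ)) (h6 : (2/25:ℝ) ≤ t1) (h7 : (2/25:ℝ) ≤ t2) (h8 : t3 ≤ (13/100:ℝ)) (h9 : mu ≤ (1/10:ℝ)) : False := by
  obtain ⟨o1, o2, o3, o4, o5, o6, o7, o8, o9, o10, o11, o12, o13, o14, o15, o16, o17, o18, o19⟩ := D.lin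
  have g0 : s1 ≤ (39789/250000:ℝ) := by have := (D.c1.glob (by norm_num)).2.2.2; linarith only [this]
  have L1 : (11/100:ℝ) ≤ s1 := by linarith only [o1, o2, o3, o5, o7, o8, o9, o11, o12, o13, o15, o16, o17, o18, o19, o4, g0, h0, h1, h2, h3, h4, h5, h6, h7, h8, h9]
  have U1 : s1 ≤ (39789/250000:ℝ) := by linarith only [o1, o2, o3, o5, o7, o8, o9, o11, o12, o13, o15, o16, o17, o18, o19, o4, g0, h0, h1, h2, h3, h4, h5, h6, h7, h8, h9]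
  have L2 : (9/100:ℝ) ≤ s2 := by linarith only [o1, o2, o3, o5, o7, o8, o9, o11, o12, o13, o15, o16, o17, o18, o19, o4, g0, h0, h1, h2, h3, h4, h5, h6, h7, h8, h9]
  have U2 : s2 ≤ (39789/250000:ℝ) := by linarith only [o1, o2, o3, o5, o7, o8, o9, o11, o12, o13, o15, o16, o17, o18, o19, o4, g0, h0, h1, h2, h3, h4, h5, h6, h7, h8, h9]
  have L3 : (1/25:ℝ) ≤ s3 := by linarith only [o1, o2, o3, o5, o7, o8, o9, o11, o12, o13, o15, o16, o17, o18, o19, o4, g0, h0, h1, h2, h3, h4, h5, h6, h7, h8, h9]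
  have U3 : s3 ≤ (7/100:ℝ) := by linarith only [o1, o2, o3, o5, o7, o8, o9, o11, o12, o13, o15, o16, o17, o18, o19, o4, g0, h0, h1, h2, h3, h4, h5, h6, h7, h8, h9]
  have L4 : (1/200:ℝ) ≤ s4 := by linarith only [o1, o2, o3, o5, o7, o8, o9, o11, o12, o13, o15, o16, o17, o18, o19, o4, g0, h0, h1, h2, h3, h4, h5, h6, h7, h8, h9]
  have U4 : s4 ≤ (1/50:ℝ) := by linarith only [o1, o2, o3, o5, o7, o8, o9, o11, o12, o13, o15, o16, o17, o18, o19, o4, g0, h0, h1, h2, h3, h4, h5, h6, h7, h8, h9]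
  have A0 : (2/25:ℝ) ≤ t1 := by linarith only [o1, o2, o3, o5, o7, o8, o9, o11, o12, o13, o15, o16, o17, o18, o19, o4, g0, h0, h1, h2, h3, h4, h5, h6, h7, h8, h9]
  have B0 : t1 ≤ (39789/250000:ℝ) := by linarith only [o1, o2, o3, o5, o7, o8, o9, o11, o12, o13, o15, o16, o17, o18, o19, o4, g0, h0, h1, h2, h3, h4, h5, h6, h7, h8, h9]
  have A1 : (2/25:ℝ) ≤ t2 := by linarith only [o1, o2, o3, o5, o7, o8, o9, o11, o12, o13, o15, o16, o17, o18, o19, o4, g0, h0, h1, h2, h3, h4, h5, h6, h7, h8, h9]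
  have B1 : t2 ≤ (39789/250000:ℝ) := by linarith only [o1, o2, o3, o5, o7, o8, o9, o11, o12, o13, o15, o16, o17, o18, o19, o4, g0, h0, h1, h2, h3, h4, h5, h6, h7, h8, h9]
  have A2 : (0:ℝ) ≤ t3 := by linarith only [o1, o2, o3, o5, o7, o8, o9, o11, o12, o13, o15, o16, o17, o18, o19, o4, g0, h0, h1, h2, h3, h4, h5, h6, h7, h8, h9]
  have B2 : t3 ≤ (7/100:ℝ) := by linarith only [o1, o2, o3, o5, o7, o8, o9, o11, o12, o13, o15, o16, o17, o18, o19, o4, g0, h0, h1, h2, h3, h4, h5, h6, h7, h8, h9]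
  have m0 := D.tcut _ _ _ _ _ _ (31/100:ℝ) A0 B0 A1 B1 A2 B2
  have m1 := D.tcut _ _ _ _ _ _ (33/100:ℝ) A0 B0 A1 B1 A2 B2
  have u0 := D.mlb _ _ _ (3/80:ℝ) L1 L2 L3 (by norm_num) (by norm_num) (by norm_num) (by norm_num) (by norm_num)
  have u1 := D.sqc _ (1/10:ℝ) u0 (by linarith only [o1, o2, o3, o5, o7, o8, o9, o11, o12, o13, o15, o16, o17, o18, o19, o4, g0, h0, h1, h2, h3, h4, h5, h6, h7, h8, h9])
  have u2 := D.rat _ _ rt6_1 U4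
  have l1 := ln6_15 D.c1 L1 U1
  have l2 := ln6_10 D.c2 L2 U2
  have l3 := ln6_3 D.c3 L3 U3
  have l4 := ln6_21 D.c4 L4 U4
  obtain ⟨g11, g12, g13, -⟩ := D.c1.glob (by norm_num)
  obtain ⟨g21, g22, g23, -⟩ := D.c2.glob (by norm_num)
  obtain ⟨g31, g32, g33, -⟩ := D.c3.glob (by norm_num)
  obtain ⟨g41, g42, g43, -⟩ := D.c4.glob (by norm_num)
  linarith

lemma leaf6_12 {s1 s2 s3 s4 sg p1 p2 p3 p4 mu t1 t2 t3 : ℝ}
    (D : Dat (349/125:ℝ) (1/2:ℝ) (239/5000:ℝ) s1 s2 s3 s4 sg p1 p2 p3 p4 mu t1 t2 t3)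
    (h0 : (11/100:ℝ) ≤ s1) (h1 : (9/100:ℝ) ≤ s2) (h2 : (7/100:ℝ) ≤ s3) (h3 : (1/200:ℝ) ≤ s4) (h4 : s4 ≤ (1/50:ℝ)) (h5 : (2/25:ℝ) ≤ t1) (h6 : (2/25:ℝ) ≤ t2) (h7 : t3 ≤ (3/50:ℝ)) (h8 : mu ≤ (1/10:ℝ)) : False := by
  obtain ⟨o1, o2, o3, o4, o5, o6, o7, o8, o9, o10, o11, o12, o13, o14, o15, o16, o17, o18, o19⟩ := D.lin
  have g0 : s1 ≤ (39789/250000:ℝ) := by have := (D.c1.glob (by norm_num)).2.2.2; linarith only [this]
  have L1 : (11/100:ℝ) ≤ s1 := by linarith only [o1, o2, o3, o5, o7, o8, o9, o11, o12, o13, o15, o16, o17, o18, o19, o4, g0, h0, h1, h2, h3, h4, h5, h6, h7, h8]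
  have U1 : s1 ≤ (39789/250000:ℝ) := by linarith only [o1, o2, o3, o5, o7, o8, o9, o11, o12, o13, o15, o16, o17, o18, o19, o4, g0, h0, h1, h2, h3, h4, h5, h6, h7, h8]
  have L2 : (9/100:ℝ) ≤ s2 := by linarith only [o1, o2, o3, o5, o7, o8, o9, o11, o12, o13, o15, o16, o17, o18, o19, o4, g0, h0, h1, h2, h3, h4, h5, h6, h7, h8]
  have U2 : s2 ≤ (39789/250000:ℝ) := by linarith only [o1, o2, o3, o5, o7, o8, o9, o11, o12, o13, o15, o16, o17, o18, o19, o4, g0, h0, h1, h2, h3, h4, h5, h6, h7, h8]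
  have L3 : (7/100:ℝ) ≤ s3 := by linarith only [o1, o2, o3, o5, o7, o8, o9, o11, o12, o13, o15, o16, o17, o18, o19, o4, g0, h0, h1, h2, h3, h4, h5, h6, h7, h8]
  have U3 : s3 ≤ (39789/250000:ℝ) := by linarith only [o1, o2, o3, o5, o7, o8, o9, o11, o12, o13, o15, o16, o17, o18, o19, o4, g0, h0, h1, h2, h3, h4, h5, h6, h7, h8]
  have L4 : (1/200:ℝ) ≤ s4 := by linarith only [o1, o2, o3, o5, o7, o8, o9, o11, o12, o13, o15, o16, o17, o18, o19, o4, g0, h0, h1, h2, h3, h4, h5, h6, h7, h8]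
  have U4 : s4 ≤ (1/50:ℝ) := by linarith only [o1, o2, o3, o5, o7, o8, o9, o11, o12, o13, o15, o16, o17, o18, o19, o4, g0, h0, h1, h2, h3, h4, h5, h6, h7, h8]
  have A0 : (2/25:ℝ) ≤ t1 := by linarith only [o1, o2, o3, o5, o7, o8, o9, o11, o12, o13, o15, o16, o17, o18, o19, o4, g0, h0, h1, h2, h3, h4, h5, h6, h7, h8]
  have B0 : t1 ≤ (39789/250000:ℝ) := by linarith only [o1, o2, o3, o5, o7, o8, o9, o11, o12, o13, o15, o16, o17, o18, o19, o4, g0, h0, h1, h2, h3, h4, h5, h6, h7, h8]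
  have A1 : (2/25:ℝ) ≤ t2 := by linarith only [o1, o2, o3, o5, o7, o8, o9, o11, o12, o13, o15, o16, o17, o18, o19, o4, g0, h0, h1, h2, h3, h4, h5, h6, h7, h8]
  have B1 : t2 ≤ (39789/250000:ℝ) := by linarith only [o1, o2, o3, o5, o7, o8, o9, o11, o12, o13, o15, o16, o17, o18, o19, o4, g0, h0, h1, h2, h3, h4, h5, h6, h7, h8]
  have A2 : (0:ℝ) ≤ t3 := by linarith only [o1, o2, o3, o5, o7, o8, o9, o11, o12, o13, o15, o16, o17, o18, o19, o4, g0, h0, h1, h2, h3, h4, h5, h6, h7, h8]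
  have B2 : t3 ≤ (3/50:ℝ) := by linarith only [o1, o2, o3, o5, o7, o8, o9, o11, o12, o13, o15, o16, o17, o18, o19, o4, g0, h0, h1, h2, h3, h4, h5, h6, h7, h8]
  have m0 := D.tcut _ _ _ _ _ _ (31/100:ℝ) A0 B0 A1 B1 A2 B2
  have m1 := D.tcut _ _ _ _ _ _ (33/100:ℝ) A0 B0 A1 B1 A2 B2
  have u0 := D.mlb _ _ _ (9/200:ℝ) L1 L2 L3 (by norm_num) (by norm_num) (by norm_num) (by norm_num) (by norm_num)
  have u1 := D.sqc _ (1/10:ℝ) u0 (by linarith only [o1, o2, o3, o5, o7, o8, o9, o11, o12, o13, o15, o16, o17, o18, o19, o4, g0, h0, h1, h2, h3, h4, h5, h6, h7, h8])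
  have u2 := D.rat _ _ rt6_1 U4
  have l1 := ln6_15 D.c1 L1 U1
  have l2 := ln6_10 D.c2 L2 U2
  have l3 := ln6_4 D.c3 L3 U3
  have l4 := ln6_21 D.c4 L4 U4
  obtain ⟨g11, g12, g13, -⟩ := D.c1.glob (by norm_num)
  obtain ⟨g21, g22, g23, -⟩ := D.c2.glob (by norm_num)
  obtain ⟨g31, g32, g33, -⟩ := D.c3.glob (by norm_num)
  obtain ⟨g41, g42, g43, -⟩ := D.c4.glob (by norm_num)
  linarith

lemma ln6_22 {p s : ℝ} (h : CellP (349/125:ℝ) p s) (h1 : (11/100:ℝ) ≤ s) (h2 : s ≤ (27/200:ℝ)) :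
    (387/250:ℝ) * s + (11369/100000:ℝ) ≤ p := by
  obtain ⟨g1, g2, g3, g4⟩ := h.glob (by norm_num)
  rcases h.pieces (by norm_num) (by norm_num) with ⟨a, b, c, d⟩ | ⟨a, b, c, d⟩ | ⟨a, b, c, d⟩ | ⟨a, b, c, d⟩ | ⟨a, b, c⟩ | ⟨a, b, c⟩ | ⟨a, b, c⟩ | ⟨a, b, c⟩ | ⟨a, b, c⟩ | ⟨a, b, c⟩ | ⟨a, b, c⟩ | a
  · linarith
  · linarith
  · linarith
  · linarith
  · linarith
  · linarith
  · linarith
  · linarith
  · linarith
  · linarith
  · linarith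
  · linarith

lemma ln6_23 {p s : ℝ} (h : CellP (349/125:ℝ) p s) (h1 : (9/100:ℝ) ≤ s) (h2 : s ≤ (27/200:ℝ)) :
    (789/500:ℝ) * s + (2751/25000:ℝ) ≤ p := by
  obtain ⟨g1, g2, g3, g4⟩ := h.glob (by norm_num)
  rcases h.pieces (by norm_num) (by norm_num) with ⟨a, b, c, d⟩ | ⟨a, b, c, d⟩ | ⟨a, b, c, d⟩ | ⟨a, b, c, d⟩ | ⟨a, b, c⟩ | ⟨a, b, c⟩ | ⟨a, b, c⟩ | ⟨a, b, c⟩ | ⟨a, b, c⟩ | ⟨a, b, c⟩ | ⟨a, b, c⟩ | a
  · linarith
  · linarith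
  · linarith
  · linarith
  · linarith
  · linarith
  · linarith
  · linarith
  · linarith
  · linarith
  · linarith
  · linarith

lemma ln6_24 {p s : ℝ} (h : CellP (349/125:ℝ) p s) (h1 : (7/100:ℝ) ≤ s) (h2 : s ≤ (17/200:ℝ)) :
    (351/200:ℝ) * s + (9477/100000:ℝ) ≤ p := by
  obtain ⟨g1, g2, g3, g4⟩ := h.glob (by norm_num)
  rcases h.pieces (by norm_num) (by norm_num) with ⟨a, b, c, d⟩ | ⟨a, b, c, d⟩ | ⟨a, b, c, d⟩ | ⟨a, b, c, d⟩ | ⟨a, b, c⟩ | ⟨a, b, c⟩ | ⟨a, b, c⟩ | ⟨a, b, c⟩ | ⟨a, b, c⟩ | ⟨a, b, c⟩ | ⟨a, b, c⟩ | a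
  · linarith
  · linarith
  · linarith
  · linarith
  · linarith
  · linarith
  · linarith
  · linarith
  · linarith
  · linarith
  · linarith
  · linarith

lemma leaf6_13 {s1 s2 s3 s4 sg p1 p2 p3 p4 mu t1 t2 t3 : ℝ}
    (D : Dat (349/125:ℝ) (1/2:ℝ) (239/5000:ℝ) s1 s2 s3 s4 sg p1 p2 p3 p4 mu t1 t2 t3)
    (h0 : (11/100:ℝ) ≤ s1) (h1 : s1 ≤ (27/200:ℝ)) (h2 : (9/100:ℝ) ≤ s2) (h3 : (7/100:ℝ) ≤ s3) (h4 : s3 ≤ (17/200:ℝ)) (h5 : (1/200:ℝ) ≤ s4) (h6 : s4 ≤ (1/50:ℝ)) (h7 : (2/25:ℝ) ≤ t1) (h8 : (2/25:ℝ) ≤ t2) (h9 : (3/50:ℝ) ≤ t3) (h10 : t3 ≤ (13/100:ℝ)) (h11 : mu ≤ (1/10:ℝ)) : False := by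
  obtain ⟨o1, o2, o3, o4, o5, o6, o7, o8, o9, o10, o11, o12, o13, o14, o15, o16, o17, o18, o19⟩ := D.lin
  have g0 : s1 ≤ (39789/250000:ℝ) := by have := (D.c1.glob (by norm_num)).2.2.2; linarith only [this]
  have L1 : (11/100:ℝ) ≤ s1 := by linarith only [o1, o2, o3, o5, o7, o8, o9, o11, o12, o13, o15, o16, o17, o18, o19, o4, g0, h0, h1, h2, h3, h4, h5, h6, h7, h8, h9, h10, h11]
  have U1 : s1 ≤ (27/200:ℝ) := by linarith only [o1, o2, o3, o5, o7, o8, o9, o11, o12, o13, o15, o16, o17, o18, o19, o4, g0, h0, h1, h2, h3, h4, h5, h6, h7, h8, h9, h10, h11]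
  have L2 : (9/100:ℝ) ≤ s2 := by linarith only [o1, o2, o3, o5, o7, o8, o9, o11, o12, o13, o15, o16, o17, o18, o19, o4, g0, h0, h1, h2, h3, h4, h5, h6, h7, h8, h9, h10, h11]
  have U2 : s2 ≤ (27/200:ℝ) := by linarith only [o1, o2, o3, o5, o7, o8, o9, o11, o12, o13, o15, o16, o17, o18, o19, o4, g0, h0, h1, h2, h3, h4, h5, h6, h7, h8, h9, h10, h11]
  have L3 : (7/100:ℝ) ≤ s3 := by linarith only [o1, o2, o3, o5, o7, o8, o9, o11, o12, o13, o15, o16, o17, o18, o19, o4, g0, h0, h1, h2, h3, h4, h5, h6, h7, h8, h9, h10, h11]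
  have U3 : s3 ≤ (17/200:ℝ) := by linarith only [o1, o2, o3, o5, o7, o8, o9, o11, o12, o13, o15, o16, o17, o18, o19, o4, g0, h0, h1, h2, h3, h4, h5, h6, h7, h8, h9, h10, h11]
  have L4 : (1/200:ℝ) ≤ s4 := by linarith only [o1, o2, o3, o5, o7, o8, o9, o11, o12, o13, o15, o16, o17, o18, o19, o4, g0, h0, h1, h2, h3, h4, h5, h6, h7, h8, h9, h10, h11]
  have U4 : s4 ≤ (1/50:ℝ) := by linarith only [o1, o2, o3, o5, o7, o8, o9, o11, o12, o13, o15, o16, o17, o18, o19, o4, g0, h0, h1, h2, h3, h4, h5, h6, h7, h8, h9, h10, h11]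
  have A0 : (2/25:ℝ) ≤ t1 := by linarith only [o1, o2, o3, o5, o7, o8, o9, o11, o12, o13, o15, o16, o17, o18, o19, o4, g0, h0, h1, h2, h3, h4, h5, h6, h7, h8, h9, h10, h11]
  have B0 : t1 ≤ (27/200:ℝ) := by linarith only [o1, o2, o3, o5, o7, o8, o9, o11, o12, o13, o15, o16, o17, o18, o19, o4, g0, h0, h1, h2, h3, h4, h5, h6, h7, h8, h9, h10, h11]
  have A1 : (2/25:ℝ) ≤ t2 := by linarith only [o1, o2, o3, o5, o7, o8, o9, o11, o12, o13, o15, o16, o17, o18, o19, o4, g0, h0, h1, h2, h3, h4, h5, h6, h7, h8, h9, h10, h11]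
  have B1 : t2 ≤ (27/200:ℝ) := by linarith only [o1, o2, o3, o5, o7, o8, o9, o11, o12, o13, o15, o16, o17, o18, o19, o4, g0, h0, h1, h2, h3, h4, h5, h6, h7, h8, h9, h10, h11]
  have A2 : (3/50:ℝ) ≤ t3 := by linarith only [o1, o2, o3, o5, o7, o8, o9, o11, o12, o13, o15, o16, o17, o18, o19, o4, g0, h0, h1, h2, h3, h4, h5, h6, h7, h8, h9, h10, h11]
  have B2 : t3 ≤ (17/200:ℝ) := by linarith only [o1, o2, o3, o5, o7, o8, o9, o11, o12, o13, o15, o16, o17, o18, o19, o4, g0, h0, h1, h2, h3, h4, h5, h6, h7, h8, h9, h10, h11]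
  have m0 := D.tcut _ _ _ _ _ _ (31/100:ℝ) A0 B0 A1 B1 A2 B2
  have m1 := D.tcut _ _ _ _ _ _ (33/100:ℝ) A0 B0 A1 B1 A2 B2
  have u0 := D.mlb _ _ _ (9/200:ℝ) L1 L2 L3 (by norm_num) (by norm_num) (by norm_num) (by norm_num) (by norm_num)
  have u1 := D.sqc _ (1/10:ℝ) u0 (by linarith only [o1, o2, o3, o5, o7, o8, o9, o11, o12, o13, o15, o16, o17, o18, o19, o4, g0, h0, h1, h2, h3, h4, h5, h6, h7, h8, h9, h10, h11])
  have u2 := D.rat _ _ rt6_1 U4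
  have l1 := ln6_22 D.c1 L1 U1
  have l2 := ln6_23 D.c2 L2 U2
  have l3 := ln6_24 D.c3 L3 U3
  have l4 := ln6_21 D.c4 L4 U4
  obtain ⟨g11, g12, g13, -⟩ := D.c1.glob (by norm_num)
  obtain ⟨g21, g22, g23, -⟩ := D.c2.glob (by norm_num)
  obtain ⟨g31, g32, g33, -⟩ := D.c3.glob (by norm_num)
  obtain ⟨g41, g42, g43, -⟩ := D.c4.glob (by norm_num)
  linarith

lemma ln6_25 {p s : ℝ} (h : CellP (349/125:ℝ) p s) (h1 : (17/200:ℝ) ≤ s) (h2 : s ≤ (27/200:ℝ)) :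
    (1583/1000:ℝ) * s + (547/5000:ℝ) ≤ p := by
  obtain ⟨g1, g2, g3, g4⟩ := h.glob (by norm_num)
  rcases h.pieces (by norm_num) (by norm_num) with ⟨a, b, c, d⟩ | ⟨a, b, c, d⟩ | ⟨a, b, c, d⟩ | ⟨a, b, c, d⟩ | ⟨a, b, c⟩ | ⟨a, b, c⟩ | ⟨a, b, c⟩ | ⟨a, b, c⟩ | ⟨a, b, c⟩ | ⟨a, b, c⟩ | ⟨a, b, c⟩ | a
  · linarith
  · linarith
  · linarith
  · linarith
  · linarith
  · linarith
  · linarith
  · linarith
  · linarith
  · linarith
  · linarith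
  · linarith

lemma leaf6_14 {s1 s2 s3 s4 sg p1 p2 p3 p4 mu t1 t2 t3 : ℝ}
    (D : Dat (349/125:ℝ) (1/2:ℝ) (239/5000:ℝ) s1 s2 s3 s4 sg p1 p2 p3 p4 mu t1 t2 t3)
    (h0 : (11/100:ℝ) ≤ s1) (h1 : s1 ≤ (27/200:ℝ)) (h2 : (9/100:ℝ) ≤ s2) (h3 : (17/200:ℝ) ≤ s3) (h4 : (1/200:ℝ) ≤ s4) (h5 : s4 ≤ (1/50:ℝ)) (h6 : (2/25:ℝ) ≤ t1) (h7 : (2/25:ℝ) ≤ t2) (h8 : (3/50:ℝ) ≤ t3) (h9 : t3 ≤ (7/100:ℝ)) (h10 : mu ≤ (9/100:ℝ)) : False := by
  obtain ⟨o1, o2, o3, o4, o5, o6, o7, o8, o9, o10, o11, o12, o13, o14, o15, o16, o17, o18, o19⟩ := D.lin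
  have g0 : s1 ≤ (39789/250000:ℝ) := by have := (D.c1.glob (by norm_num)).2.2.2; linarith only [this]
  have L1 : (11/100:ℝ) ≤ s1 := by linarith only [o1, o2, o3, o5, o7, o8, o9, o11, o12, o13, o15, o16, o17, o18, o19, o4, g0, h0, h1, h2, h3, h4, h5, h6, h7, h8, h9, h10]
  have U1 : s1 ≤ (27/200:ℝ) := by linarith only [o1, o2, o3, o5, o7, o8, o9, o11, o12, o13, o15, o16, o17, o18, o19, o4, g0, h0, h1, h2, h3, h4, h5, h6, h7, h8, h9, h10]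
  have L2 : (9/100:ℝ) ≤ s2 := by linarith only [o1, o2, o3, o5, o7, o8, o9, o11, o12, o13, o15, o16, o17, o18, o19, o4, g0, h0, h1, h2, h3, h4, h5, h6, h7, h8, h9, h10]
  have U2 : s2 ≤ (27/200:ℝ) := by linarith only [o1, o2, o3, o5, o7, o8, o9, o11, o12, o13, o15, o16, o17, o18, o19, o4, g0, h0, h1, h2, h3, h4, h5, h6, h7, h8, h9, h10]
  have L3 : (17/200:ℝ) ≤ s3 := by linarith only [o1, o2, o3, o5, o7, o8, o9, o11, o12, o13, o15, o16, o17, o18, o19, o4, g0, h0, h1, h2, h3, h4, h5, h6, h7, h8, h9, h10]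
  have U3 : s3 ≤ (27/200:ℝ) := by linarith only [o1, o2, o3, o5, o7, o8, o9, o11, o12, o13, o15, o16, o17, o18, o19, o4, g0, h0, h1, h2, h3, h4, h5, h6, h7, h8, h9, h10]
  have L4 : (1/200:ℝ) ≤ s4 := by linarith only [o1, o2, o3, o5, o7, o8, o9, o11, o12, o13, o15, o16, o17, o18, o19, o4, g0, h0, h1, h2, h3, h4, h5, h6, h7, h8, h9, h10]
  have U4 : s4 ≤ (1/50:ℝ) := by linarith only [o1, o2, o3, o5, o7, o8, o9, o11, o12, o13, o15, o16, o17, o18, o19, o4, g0, h0, h1, h2, h3, h4, h5, h6, h7, h8, h9, h10]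
  have A0 : (2/25:ℝ) ≤ t1 := by linarith only [o1, o2, o3, o5, o7, o8, o9, o11, o12, o13, o15, o16, o17, o18, o19, o4, g0, h0, h1, h2, h3, h4, h5, h6, h7, h8, h9, h10]
  have B0 : t1 ≤ (27/200:ℝ) := by linarith only [o1, o2, o3, o5, o7, o8, o9, o11, o12, o13, o15, o16, o17, o18, o19, o4, g0, h0, h1, h2, h3, h4, h5, h6, h7, h8, h9, h10]
  have A1 : (2/25:ℝ) ≤ t2 := by linarith only [o1, o2, o3, o5, o7, o8, o9, o11, o12, o13, o15, o16, o17, o18, o19, o4, g0, h0, h1, h2, h3, h4, h5, h6, h7, h8, h9, h10]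
  have B1 : t2 ≤ (27/200:ℝ) := by linarith only [o1, o2, o3, o5, o7, o8, o9, o11, o12, o13, o15, o16, o17, o18, o19, o4, g0, h0, h1, h2, h3, h4, h5, h6, h7, h8, h9, h10]
  have A2 : (3/50:ℝ) ≤ t3 := by linarith only [o1, o2, o3, o5, o7, o8, o9, o11, o12, o13, o15, o16, o17, o18, o19, o4, g0, h0, h1, h2, h3, h4, h5, h6, h7, h8, h9, h10]
  have B2 : t3 ≤ (7/100:ℝ) := by linarith only [o1, o2, o3, o5, o7, o8, o9, o11, o12, o13, o15, o16, o17, o18, o19, o4, g0, h0, h1, h2, h3, h4, h5, h6, h7, h8, h9, h10]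
  have m0 := D.tcut _ _ _ _ _ _ (31/100:ℝ) A0 B0 A1 B1 A2 B2
  have m1 := D.tcut _ _ _ _ _ _ (33/100:ℝ) A0 B0 A1 B1 A2 B2
  have u0 := D.mlb _ _ _ (1/20:ℝ) L1 L2 L3 (by norm_num) (by norm_num) (by norm_num) (by norm_num) (by norm_num)
  have u1 := D.sqc _ (9/100:ℝ) u0 (by linarith only [o1, o2, o3, o5, o7, o8, o9, o11, o12, o13, o15, o16, o17, o18, o19, o4, g0, h0, h1, h2, h3, h4, h5, h6, h7, h8, h9, h10])
  have u2 := D.rat _ _ rt6_1 U4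
  have l1 := ln6_22 D.c1 L1 U1
  have l2 := ln6_23 D.c2 L2 U2
  have l3 := ln6_25 D.c3 L3 U3
  have l4 := ln6_21 D.c4 L4 U4
  obtain ⟨g11, g12, g13, -⟩ := D.c1.glob (by norm_num)
  obtain ⟨g21, g22, g23, -⟩ := D.c2.glob (by norm_num)
  obtain ⟨g31, g32, g33, -⟩ := D.c3.glob (by norm_num)
  obtain ⟨g41, g42, g43, -⟩ := D.c4.glob (by norm_num)
  linarith

lemma rt6_4 (p s : ℝ) (h : CellP (349/125:ℝ) p s) (h2 : s ≤ (1/80:ℝ)) : s ≤ (1491/10000:ℝ) * p := by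
  obtain ⟨g1, g2, g3, g4⟩ := h.glob (by norm_num)
  rcases h.pieces (by norm_num) (by norm_num) with ⟨a, b, c, d⟩ | ⟨a, b, c, d⟩ | ⟨a, b, c, d⟩ | ⟨a, b, c, d⟩ | ⟨a, b, c⟩ | ⟨a, b, c⟩ | ⟨a, b, c⟩ | ⟨a, b, c⟩ | ⟨a, b, c⟩ | ⟨a, b, c⟩ | ⟨a, b, c⟩ | a <;> linarith

lemma ln6_26 {p s : ℝ} (h : CellP (349/125:ℝ) p s) (h1 : (17/200:ℝ) ≤ s) (h2 : s ≤ (9/100:ℝ)) :
    (81/50:ℝ) * s + (17/160:ℝ) ≤ p := by
  obtain ⟨g1, g2, g3, g4⟩ := h.glob (by norm_num)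
  rcases h.pieces (by norm_num) (by norm_num) with ⟨a, b, c, d⟩ | ⟨a, b, c, d⟩ | ⟨a, b, c, d⟩ | ⟨a, b, c, d⟩ | ⟨a, b, c⟩ | ⟨a, b, c⟩ | ⟨a, b, c⟩ | ⟨a, b, c⟩ | ⟨a, b, c⟩ | ⟨a, b, c⟩ | ⟨a, b, c⟩ | a
  · linarith
  · linarith
  · linarith
  · linarith
  · linarith
  · linarith
  · linarith
  · linarith
  · linarith
  · linarith
  · linarith
  · linarith

lemma ln6_27 {p s : ℝ} (h : CellP (349/125:ℝ) p s) (h1 : (1/200:ℝ) ≤ s) (h2 : s ≤ (1/80:ℝ)) :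
    (2083/500:ℝ) * s + (729/25000:ℝ) ≤ p := by
  obtain ⟨g1, g2, g3, g4⟩ := h.glob (by norm_num)
  rcases h.pieces (by norm_num) (by norm_num) with ⟨a, b, c, d⟩ | ⟨a, b, c, d⟩ | ⟨a, b, c, d⟩ | ⟨a, b, c, d⟩ | ⟨a, b, c⟩ | ⟨a, b, c⟩ | ⟨a, b, c⟩ | ⟨a, b, c⟩ | ⟨a, b, c⟩ | ⟨a, b, c⟩ | ⟨a, b, c⟩ | a
  · linarith
  · linarith
  · linarith
  · linarith
  · linarith
  · linarith
  · linarith
  · linarith
  · linarith
  · linarith
  · linarith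
  · linarith

lemma leaf6_15 {s1 s2 s3 s4 sg p1 p2 p3 p4 mu t1 t2 t3 : ℝ}
    (D : Dat (349/125:ℝ) (1/2:ℝ) (239/5000:ℝ) s1 s2 s3 s4 sg p1 p2 p3 p4 mu t1 t2 t3)
    (h0 : (11/100:ℝ) ≤ s1) (h1 : s1 ≤ (27/200:ℝ)) (h2 : (9/100:ℝ) ≤ s2) (h3 : (17/200:ℝ) ≤ s3) (h4 : s3 ≤ (9/100:ℝ)) (h5 : (1/200:ℝ) ≤ s4) (h6 : s4 ≤ (1/80:ℝ)) (h7 : (2/25:ℝ) ≤ t1) (h8 : (2/25:ℝ) ≤ t2) (h9 : (7/100:ℝ) ≤ t3) (h10 : t3 ≤ (13/100:ℝ)) (h11 : mu ≤ (9/100:ℝ)) : False := by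
  obtain ⟨o1, o2, o3, o4, o5, o6, o7, o8, o9, o10, o11, o12, o13, o14, o15, o16, o17, o18, o19⟩ := D.lin
  have g0 : s1 ≤ (39789/250000:ℝ) := by have := (D.c1.glob (by norm_num)).2.2.2; linarith only [this]
  have L1 : (11/100:ℝ) ≤ s1 := by linarith only [o1, o2, o3, o5, o7, o8, o9, o11, o12, o13, o15, o16, o17, o18, o19, o4, g0, h0, h1, h2, h3, h4, h5, h6, h7, h8, h9, h10, h11]
  have U1 : s1 ≤ (27/200:ℝ) := by linarith only [o1, o2, o3, o5, o7, o8, o9, o11, o12, o13, o15, o16, o17, o18, o19, o4, g0, h0, h1, h2, h3, h4, h5, h6, h7, h8, h9, h10, h11]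
  have L2 : (9/100:ℝ) ≤ s2 := by linarith only [o1, o2, o3, o5, o7, o8, o9, o11, o12, o13, o15, o16, o17, o18, o19, o4, g0, h0, h1, h2, h3, h4, h5, h6, h7, h8, h9, h10, h11]
  have U2 : s2 ≤ (27/200:ℝ) := by linarith only [o1, o2, o3, o5, o7, o8, o9, o11, o12, o13, o15, o16, o17, o18, o19, o4, g0, h0, h1, h2, h3, h4, h5, h6, h7, h8, h9, h10, h11]
  have L3 : (17/200:ℝ) ≤ s3 := by linarith only [o1, o2, o3, o5, o7, o8, o9, o11, o12, o13, o15, o16, o17, o18, o19, o4, g0, h0, h1, h2, h3, h4, h5, h6, h7, h8, h9, h10, h11]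
  have U3 : s3 ≤ (9/100:ℝ) := by linarith only [o1, o2, o3, o5, o7, o8, o9, o11, o12, o13, o15, o16, o17, o18, o19, o4, g0, h0, h1, h2, h3, h4, h5, h6, h7, h8, h9, h10, h11]
  have L4 : (1/200:ℝ) ≤ s4 := by linarith only [o1, o2, o3, o5, o7, o8, o9, o11, o12, o13, o15, o16, o17, o18, o19, o4, g0, h0, h1, h2, h3, h4, h5, h6, h7, h8, h9, h10, h11]
  have U4 : s4 ≤ (1/80:ℝ) := by linarith only [o1, o2, o3, o5, o7, o8, o9, o11, o12, o13, o15, o16, o17, o18, o19, o4, g0, h0, h1, h2, h3, h4, h5, h6, h7, h8, h9, h10, h11]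
  have A0 : (2/25:ℝ) ≤ t1 := by linarith only [o1, o2, o3, o5, o7, o8, o9, o11, o12, o13, o15, o16, o17, o18, o19, o4, g0, h0, h1, h2, h3, h4, h5, h6, h7, h8, h9, h10, h11]
  have B0 : t1 ≤ (27/200:ℝ) := by linarith only [o1, o2, o3, o5, o7, o8, o9, o11, o12, o13, o15, o16, o17, o18, o19, o4, g0, h0, h1, h2, h3, h4, h5, h6, h7, h8, h9, h10, h11]
  have A1 : (2/25:ℝ) ≤ t2 := by linarith only [o1, o2, o3, o5, o7, o8, o9, o11, o12, o13, o15, o16, o17, o18, o19, o4, g0, h0, h1, h2, h3, h4, h5, h6, h7, h8, h9, h10, h11]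
  have B1 : t2 ≤ (27/200:ℝ) := by linarith only [o1, o2, o3, o5, o7, o8, o9, o11, o12, o13, o15, o16, o17, o18, o19, o4, g0, h0, h1, h2, h3, h4, h5, h6, h7, h8, h9, h10, h11]
  have A2 : (7/100:ℝ) ≤ t3 := by linarith only [o1, o2, o3, o5, o7, o8, o9, o11, o12, o13, o15, o16, o17, o18, o19, o4, g0, h0, h1, h2, h3, h4, h5, h6, h7, h8, h9, h10, h11]
  have B2 : t3 ≤ (9/100:ℝ) := by linarith only [o1, o2, o3, o5, o7, o8, o9, o11, o12, o13, o15, o16, o17, o18, o19, o4, g0, h0, h1, h2, h3, h4, h5, h6, h7, h8, h9, h10, h11]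
  have m0 := D.tcut _ _ _ _ _ _ (31/100:ℝ) A0 B0 A1 B1 A2 B2
  have m1 := D.tcut _ _ _ _ _ _ (33/100:ℝ) A0 B0 A1 B1 A2 B2
  have u0 := D.mlb _ _ _ (1/20:ℝ) L1 L2 L3 (by norm_num) (by norm_num) (by norm_num) (by norm_num) (by norm_num)
  have u1 := D.sqc _ (9/100:ℝ) u0 (by linarith only [o1, o2, o3, o5, o7, o8, o9, o11, o12, o13, o15, o16, o17, o18, o19, o4, g0, h0, h1, h2, h3, h4, h5, h6, h7, h8, h9, h10, h11])
  have u2 := D.rat _ _ rt6_4 U4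
  have l1 := ln6_22 D.c1 L1 U1
  have l2 := ln6_23 D.c2 L2 U2
  have l3 := ln6_26 D.c3 L3 U3
  have l4 := ln6_27 D.c4 L4 U4
  obtain ⟨g11, g12, g13, -⟩ := D.c1.glob (by norm_num)
  obtain ⟨g21, g22, g23, -⟩ := D.c2.glob (by norm_num)
  obtain ⟨g31, g32, g33, -⟩ := D.c3.glob (by norm_num)
  obtain ⟨g41, g42, g43, -⟩ := D.c4.glob (by norm_num)
  linarith

lemma ln6_28 {p s : ℝ} (h : CellP (349/125:ℝ) p s) (h1 : (9/100:ℝ) ≤ s) (h2 : s ≤ (1/10:ℝ)) :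
    (81/50:ℝ) * s + (5313/50000:ℝ) ≤ p := by
  obtain ⟨g1, g2, g3, g4⟩ := h.glob (by norm_num)
  rcases h.pieces (by norm_num) (by norm_num) with ⟨a, b, c, d⟩ | ⟨a, b, c, d⟩ | ⟨a, b, c, d⟩ | ⟨a, b, c, d⟩ | ⟨a, b, c⟩ | ⟨a, b, c⟩ | ⟨a, b, c⟩ | ⟨a, b, c⟩ | ⟨a, b, c⟩ | ⟨a, b, c⟩ | ⟨a, b, c⟩ | a
  · linarith
  · linarith
  · linarith
  · linarith
  · linarith
  · linarith
  · linarith
  · linarith
  · linarith
  · linarith
  · linarith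
  · linarith

lemma leaf6_16 {s1 s2 s3 s4 sg p1 p2 p3 p4 mu t1 t2 t3 : ℝ}
    (D : Dat (349/125:ℝ) (1/2:ℝ) (239/5000:ℝ) s1 s2 s3 s4 sg p1 p2 p3 p4 mu t1 t2 t3)
    (h0 : (11/100:ℝ) ≤ s1) (h1 : s1 ≤ (27/200:ℝ)) (h2 : (9/100:ℝ) ≤ s2) (h3 : s2 ≤ (1/10:ℝ)) (h4 : (9/100:ℝ) ≤ s3) (h5 : (1/200:ℝ) ≤ s4) (h6 : s4 ≤ (1/80:ℝ)) (h7 : (2/25:ℝ) ≤ t1) (h8 : (2/25:ℝ) ≤ t2) (h9 : (7/100:ℝ) ≤ t3) (h10 : t3 ≤ (13/100:ℝ)) (h11 : mu ≤ (9/100:ℝ)) : False := by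
  obtain ⟨o1, o2, o3, o4, o5, o6, o7, o8, o9, o10, o11, o12, o13, o14, o15, o16, o17, o18, o19⟩ := D.lin
  have g0 : s1 ≤ (39789/250000:ℝ) := by have := (D.c1.glob (by norm_num)).2.2.2; linarith only [this]
  have L1 : (11/100:ℝ) ≤ s1 := by linarith only [o1, o2, o3, o5, o7, o8, o9, o11, o12, o13, o15, o16, o17, o18, o19, o4, g0, h0, h1, h2, h3, h4, h5, h6, h7, h8, h9, h10, h11]
  have U1 : s1 ≤ (27/200:ℝ) := by linarith only [o1, o2, o3, o5, o7, o8, o9, o11, o12, o13, o15, o16, o17, o18, o19, o4, g0, h0, h1, h2, h3, h4, h5, h6, h7, h8, h9, h10, h11]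
  have L2 : (9/100:ℝ) ≤ s2 := by linarith only [o1, o2, o3, o5, o7, o8, o9, o11, o12, o13, o15, o16, o17, o18, o19, o4, g0, h0, h1, h2, h3, h4, h5, h6, h7, h8, h9, h10, h11]
  have U2 : s2 ≤ (1/10:ℝ) := by linarith only [o1, o2, o3, o5, o7, o8, o9, o11, o12, o13, o15, o16, o17, o18, o19, o4, g0, h0, h1, h2, h3, h4, h5, h6, h7, h8, h9, h10, h11]
  have L3 : (9/100:ℝ) ≤ s3 := by linarith only [o1, o2, o3, o5, o7, o8, o9, o11, o12, o13, o15, o16, o17, o18, o19, o4, g0, h0, h1, h2, h3, h4, h5, h6, h7, h8, h9, h10, h11]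
  have U3 : s3 ≤ (1/10:ℝ) := by linarith only [o1, o2, o3, o5, o7, o8, o9, o11, o12, o13, o15, o16, o17, o18, o19, o4, g0, h0, h1, h2, h3, h4, h5, h6, h7, h8, h9, h10, h11]
  have L4 : (1/200:ℝ) ≤ s4 := by linarith only [o1, o2, o3, o5, o7, o8, o9, o11, o12, o13, o15, o16, o17, o18, o19, o4, g0, h0, h1, h2, h3, h4, h5, h6, h7, h8, h9, h10, h11]
  have U4 : s4 ≤ (1/80:ℝ) := by linarith only [o1, o2, o3, o5, o7, o8, o9, o11, o12, o13, o15, o16, o17, o18, o19, o4, g0, h0, h1, h2, h3, h4, h5, h6, h7, h8, h9, h10, h11]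
  have A0 : (2/25:ℝ) ≤ t1 := by linarith only [o1, o2, o3, o5, o7, o8, o9, o11, o12, o13, o15, o16, o17, o18, o19, o4, g0, h0, h1, h2, h3, h4, h5, h6, h7, h8, h9, h10, h11]
  have B0 : t1 ≤ (27/200:ℝ) := by linarith only [o1, o2, o3, o5, o7, o8, o9, o11, o12, o13, o15, o16, o17, o18, o19, o4, g0, h0, h1, h2, h3, h4, h5, h6, h7, h8, h9, h10, h11]
  have A1 : (2/25:ℝ) ≤ t2 := by linarith only [o1, o2, o3, o5, o7, o8, o9, o11, o12, o13, o15, o16, o17, o18, o19, o4, g0, h0, h1, h2, h3, h4, h5, h6, h7, h8, h9, h10, h11]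
  have B1 : t2 ≤ (1/10:ℝ) := by linarith only [o1, o2, o3, o5, o7, o8, o9, o11, o12, o13, o15, o16, o17, o18, o19, o4, g0, h0, h1, h2, h3, h4, h5, h6, h7, h8, h9, h10, h11]
  have A2 : (7/100:ℝ) ≤ t3 := by linarith only [o1, o2, o3, o5, o7, o8, o9, o11, o12, o13, o15, o16, o17, o18, o19, o4, g0, h0, h1, h2, h3, h4, h5, h6, h7, h8, h9, h10, h11]
  have B2 : t3 ≤ (1/10:ℝ) := by linarith only [o1, o2, o3, o5, o7, o8, o9, o11, o12, o13, o15, o16, o17, o18, o19, o4, g0, h0, h1, h2, h3, h4, h5, h6, h7, h8, h9, h10, h11]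
  have m0 := D.tcut _ _ _ _ _ _ (31/100:ℝ) A0 B0 A1 B1 A2 B2
  have m1 := D.tcut _ _ _ _ _ _ (33/100:ℝ) A0 B0 A1 B1 A2 B2
  have u0 := D.mlb _ _ _ (1/20:ℝ) L1 L2 L3 (by norm_num) (by norm_num) (by norm_num) (by norm_num) (by norm_num)
  have u1 := D.sqc _ (9/100:ℝ) u0 (by linarith only [o1, o2, o3, o5, o7, o8, o9, o11, o12, o13, o15, o16, o17, o18, o19, o4, g0, h0, h1, h2, h3, h4, h5, h6, h7, h8, h9, h10, h11])
  have u2 := D.rat _ _ rt6_4 U4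
  have l1 := ln6_22 D.c1 L1 U1
  have l2 := ln6_28 D.c2 L2 U2
  have l3 := ln6_28 D.c3 L3 U3
  have l4 := ln6_27 D.c4 L4 U4
  obtain ⟨g11, g12, g13, -⟩ := D.c1.glob (by norm_num)
  obtain ⟨g21, g22, g23, -⟩ := D.c2.glob (by norm_num)
  obtain ⟨g31, g32, g33, -⟩ := D.c3.glob (by norm_num)
  obtain ⟨g41, g42, g43, -⟩ := D.c4.glob (by norm_num)
  linarith

lemma rt6_5 (p s : ℝ) (h : CellP (349/125:ℝ) p s) (h2 : s ≤ (3/400:ℝ)) : s ≤ (567/5000:ℝ) * p := by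
  obtain ⟨g1, g2, g3, g4⟩ := h.glob (by norm_num)
  rcases h.pieces (by norm_num) (by norm_num) with ⟨a, b, c, d⟩ | ⟨a, b, c, d⟩ | ⟨a, b, c, d⟩ | ⟨a, b, c, d⟩ | ⟨a, b, c⟩ | ⟨a, b, c⟩ | ⟨a, b, c⟩ | ⟨a, b, c⟩ | ⟨a, b, c⟩ | ⟨a, b, c⟩ | ⟨a, b, c⟩ | a <;> linarith

lemma ln6_29 {p s : ℝ} (h : CellP (349/125:ℝ) p s) (h1 : (1/10:ℝ) ≤ s) (h2 : s ≤ (27/200:ℝ)) :
    (779/500:ℝ) * s + (11247/100000:ℝ) ≤ p := by
  obtain ⟨g1, g2, g3, g4⟩ := h.glob (by norm_num)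
  rcases h.pieces (by norm_num) (by norm_num) with ⟨a, b, c, d⟩ | ⟨a, b, c, d⟩ | ⟨a, b, c, d⟩ | ⟨a, b, c, d⟩ | ⟨a, b, c⟩ | ⟨a, b, c⟩ | ⟨a, b, c⟩ | ⟨a, b, c⟩ | ⟨a, b, c⟩ | ⟨a, b, c⟩ | ⟨a, b, c⟩ | a
  · linarith
  · linarith
  · linarith
  · linarith
  · linarith
  · linarith
  · linarith
  · linarith
  · linarith
  · linarith
  · linarith
  · linarith

lemma ln6_30 {p s : ℝ} (h : CellP (349/125:ℝ) p s) (h1 : (1/200:ℝ) ≤ s) (h2 : s ≤ (3/400:ℝ)) :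
    (2083/500:ℝ) * s + (729/25000:ℝ) ≤ p := by
  obtain ⟨g1, g2, g3, g4⟩ := h.glob (by norm_num)
  rcases h.pieces (by norm_num) (by norm_num) with ⟨a, b, c, d⟩ | ⟨a, b, c, d⟩ | ⟨a, b, c, d⟩ | ⟨a, b, c, d⟩ | ⟨a, b, c⟩ | ⟨a, b, c⟩ | ⟨a, b, c⟩ | ⟨a, b, c⟩ | ⟨a, b, c⟩ | ⟨a, b, c⟩ | ⟨a, b, c⟩ | a
  · linarith
  · linarith
  · linarith
  · linarith
  · linarith
  · linarith
  · linarith
  · linarith
  · linarith
  · linarith
  · linarith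
  · linarith

lemma leaf6_17 {s1 s2 s3 s4 sg p1 p2 p3 p4 mu t1 t2 t3 : ℝ}
    (D : Dat (349/125:ℝ) (1/2:ℝ) (239/5000:ℝ) s1 s2 s3 s4 sg p1 p2 p3 p4 mu t1 t2 t3)
    (h0 : (11/100:ℝ) ≤ s1) (h1 : s1 ≤ (27/200:ℝ)) (h2 : (1/10:ℝ) ≤ s2) (h3 : (9/100:ℝ) ≤ s3) (h4 : (1/200:ℝ) ≤ s4) (h5 : s4 ≤ (3/400:ℝ)) (h6 : (2/25:ℝ) ≤ t1) (h7 : (2/25:ℝ) ≤ t2) (h8 : (7/100:ℝ) ≤ t3) (h9 : t3 ≤ (13/100:ℝ)) (h10 : mu ≤ (9/100:ℝ)) : False := by
  obtain ⟨o1, o2, o3, o4, o5, o6, o7, o8, o9, o10, o11, o12, o13, o14, o15, o16, o17, o18, o19⟩ := D.lin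
  have g0 : s1 ≤ (39789/250000:ℝ) := by have := (D.c1.glob (by norm_num)).2.2.2; linarith only [this]
  have L1 : (11/100:ℝ) ≤ s1 := by linarith only [o1, o2, o3, o5, o7, o8, o9, o11, o12, o13, o15, o16, o17, o18, o19, o4, g0, h0, h1, h2, h3, h4, h5, h6, h7, h8, h9, h10]
  have U1 : s1 ≤ (27/200:ℝ) := by linarith only [o1, o2, o3, o5, o7, o8, o9, o11, o12, o13, o15, o16, o17, o18, o19, o4, g0, h0, h1, h2, h3, h4, h5, h6, h7, h8, h9, h10]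
  have L2 : (1/10:ℝ) ≤ s2 := by linarith only [o1, o2, o3, o5, o7, o8, o9, o11, o12, o13, o15, o16, o17, o18, o19, o4, g0, h0, h1, h2, h3, h4, h5, h6, h7, h8, h9, h10]
  have U2 : s2 ≤ (27/200:ℝ) := by linarith only [o1, o2, o3, o5, o7, o8, o9, o11, o12, o13, o15, o16, o17, o18, o19, o4, g0, h0, h1, h2, h3, h4, h5, h6, h7, h8, h9, h10]
  have L3 : (9/100:ℝ) ≤ s3 := by linarith only [o1, o2, o3, o5, o7, o8, o9, o11, o12, o13, o15, o16, o17, o18, o19, o4, g0, h0, h1, h2, h3, h4, h5, h6, h7, h8, h9, h10]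
  have U3 : s3 ≤ (27/200:ℝ) := by linarith only [o1, o2, o3, o5, o7, o8, o9, o11, o12, o13, o15, o16, o17, o18, o19, o4, g0, h0, h1, h2, h3, h4, h5, h6, h7, h8, h9, h10]
  have L4 : (1/200:ℝ) ≤ s4 := by linarith only [o1, o2, o3, o5, o7, o8, o9, o11, o12, o13, o15, o16, o17, o18, o19, o4, g0, h0, h1, h2, h3, h4, h5, h6, h7, h8, h9, h10]
  have U4 : s4 ≤ (3/400:ℝ) := by linarith only [o1, o2, o3, o5, o7, o8, o9, o11, o12, o13, o15, o16, o17, o18, o19, o4, g0, h0, h1, h2, h3, h4, h5, h6, h7, h8, h9, h10]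
  have A0 : (2/25:ℝ) ≤ t1 := by linarith only [o1, o2, o3, o5, o7, o8, o9, o11, o12, o13, o15, o16, o17, o18, o19, o4, g0, h0, h1, h2, h3, h4, h5, h6, h7, h8, h9, h10]
  have B0 : t1 ≤ (27/200:ℝ) := by linarith only [o1, o2, o3, o5, o7, o8, o9, o11, o12, o13, o15, o16, o17, o18, o19, o4, g0, h0, h1, h2, h3, h4, h5, h6, h7, h8, h9, h10]
  have A1 : (2/25:ℝ) ≤ t2 := by linarith only [o1, o2, o3, o5, o7, o8, o9, o11, o12, o13, o15, o16, o17, o18, o19, o4, g0, h0, h1, h2, h3, h4, h5, h6, h7, h8, h9, h10]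
  have B1 : t2 ≤ (27/200:ℝ) := by linarith only [o1, o2, o3, o5, o7, o8, o9, o11, o12, o13, o15, o16, o17, o18, o19, o4, g0, h0, h1, h2, h3, h4, h5, h6, h7, h8, h9, h10]
  have A2 : (7/100:ℝ) ≤ t3 := by linarith only [o1, o2, o3, o5, o7, o8, o9, o11, o12, o13, o15, o16, o17, o18, o19, o4, g0, h0, h1, h2, h3, h4, h5, h6, h7, h8, h9, h10]
  have B2 : t3 ≤ (13/100:ℝ) := by linarith only [o1, o2, o3, o5, o7, o8, o9, o11, o12, o13, o15, o16, o17, o18, o19, o4, g0, h0, h1, h2, h3, h4, h5, h6, h7, h8, h9, h10]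
  have m0 := D.tcut _ _ _ _ _ _ (31/100:ℝ) A0 B0 A1 B1 A2 B2
  have m1 := D.tcut _ _ _ _ _ _ (33/100:ℝ) A0 B0 A1 B1 A2 B2
  have u0 := D.mlb _ _ _ (21/400:ℝ) L1 L2 L3 (by norm_num) (by norm_num) (by norm_num) (by norm_num) (by norm_num)
  have u1 := D.sqc _ (9/100:ℝ) u0 (by linarith only [o1, o2, o3, o5, o7, o8, o9, o11, o12, o13, o15, o16, o17, o18, o19, o4, g0, h0, h1, h2, h3, h4, h5, h6, h7, h8, h9, h10])
  have u2 := D.rat _ _ rt6_5 U4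
  have l1 := ln6_22 D.c1 L1 U1
  have l2 := ln6_29 D.c2 L2 U2
  have l3 := ln6_23 D.c3 L3 U3
  have l4 := ln6_30 D.c4 L4 U4
  obtain ⟨g11, g12, g13, -⟩ := D.c1.glob (by norm_num)
  obtain ⟨g21, g22, g23, -⟩ := D.c2.glob (by norm_num)
  obtain ⟨g31, g32, g33, -⟩ := D.c3.glob (by norm_num)
  obtain ⟨g41, g42, g43, -⟩ := D.c4.glob (by norm_num)
  linarith

lemma ln6_31 {p s : ℝ} (h : CellP (349/125:ℝ) p s) (h1 : (3/400:ℝ) ≤ s) (h2 : s ≤ (1/100:ℝ)) :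
    (1791/500:ℝ) * s + (787/20000:ℝ) ≤ p := by
  obtain ⟨g1, g2, g3, g4⟩ := h.glob (by norm_num)
  rcases h.pieces (by norm_num) (by norm_num) with ⟨a, b, c, d⟩ | ⟨a, b, c, d⟩ | ⟨a, b, c, d⟩ | ⟨a, b, c, d⟩ | ⟨a, b, c⟩ | ⟨a, b, c⟩ | ⟨a, b, c⟩ | ⟨a, b, c⟩ | ⟨a, b, c⟩ | ⟨a, b, c⟩ | ⟨a, b, c⟩ | a
  · linarith
  · linarith
  · linarith
  · linarith
  · linarith
  · linarith
  · linarith
  · linarith
  · linarith
  · linarith
  · linarith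
  · linarith

lemma leaf6_18 {s1 s2 s3 s4 sg p1 p2 p3 p4 mu t1 t2 t3 : ℝ}
    (D : Dat (349/125:ℝ) (1/2:ℝ) (239/5000:ℝ) s1 s2 s3 s4 sg p1 p2 p3 p4 mu t1 t2 t3)
    (h0 : (11/100:ℝ) ≤ s1) (h1 : s1 ≤ (27/200:ℝ)) (h2 : (1/10:ℝ) ≤ s2) (h3 : (9/100:ℝ) ≤ s3) (h4 : (3/400:ℝ) ≤ s4) (h5 : s4 ≤ (1/100:ℝ)) (h6 : (2/25:ℝ) ≤ t1) (h7 : t1 ≤ (11/100:ℝ)) (h8 : (2/25:ℝ) ≤ t2) (h9 : (7/100:ℝ) ≤ t3) (h10 : t3 ≤ (13/100:ℝ)) (h11 : mu ≤ (9/100:ℝ)) : False := by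
  obtain ⟨o1, o2, o3, o4, o5, o6, o7, o8, o9, o10, o11, o12, o13, o14, o15, o16, o17, o18, o19⟩ := D.lin
  have g0 : s1 ≤ (39789/250000:ℝ) := by have := (D.c1.glob (by norm_num)).2.2.2; linarith only [this]
  have L1 : (11/100:ℝ) ≤ s1 := by linarith only [o1, o2, o3, o5, o7, o8, o9, o11, o12, o13, o15, o16, o17, o18, o19, o4, g0, h0, h1, h2, h3, h4, h5, h6, h7, h8, h9, h10, h11]
  have U1 : s1 ≤ (27/200:ℝ) := by linarith only [o1, o2, o3, o5, o7, o8, o9, o11, o12, o13, o15, o16, o17, o18, o19, o4, g0, h0, h1, h2, h3, h4, h5, h6, h7, h8, h9, h10, h11]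
  have L2 : (1/10:ℝ) ≤ s2 := by linarith only [o1, o2, o3, o5, o7, o8, o9, o11, o12, o13, o15, o16, o17, o18, o19, o4, g0, h0, h1, h2, h3, h4, h5, h6, h7, h8, h9, h10, h11]
  have U2 : s2 ≤ (27/200:ℝ) := by linarith only [o1, o2, o3, o5, o7, o8, o9, o11, o12, o13, o15, o16, o17, o18, o19, o4, g0, h0, h1, h2, h3, h4, h5, h6, h7, h8, h9, h10, h11]
  have L3 : (9/100:ℝ) ≤ s3 := by linarith only [o1, o2, o3, o5, o7, o8, o9, o11, o12, o13, o15, o16, o17, o18, o19, o4, g0, h0, h1, h2, h3, h4, h5, h6, h7, h8, h9, h10, h11]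
  have U3 : s3 ≤ (27/200:ℝ) := by linarith only [o1, o2, o3, o5, o7, o8, o9, o11, o12, o13, o15, o16, o17, o18, o19, o4, g0, h0, h1, h2, h3, h4, h5, h6, h7, h8, h9, h10, h11]
  have L4 : (3/400:ℝ) ≤ s4 := by linarith only [o1, o2, o3, o5, o7, o8, o9, o11, o12, o13, o15, o16, o17, o18, o19, o4, g0, h0, h1, h2, h3, h4, h5, h6, h7, h8, h9, h10, h11]
  have U4 : s4 ≤ (1/100:ℝ) := by linarith only [o1, o2, o3, o5, o7, o8, o9, o11, o12, o13, o15, o16, o17, o18, o19, o4, g0, h0, h1, h2, h3, h4, h5, h6, h7, h8, h9, h10, h11]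
  have A0 : (2/25:ℝ) ≤ t1 := by linarith only [o1, o2, o3, o5, o7, o8, o9, o11, o12, o13, o15, o16, o17, o18, o19, o4, g0, h0, h1, h2, h3, h4, h5, h6, h7, h8, h9, h10, h11]
  have B0 : t1 ≤ (11/100:ℝ) := by linarith only [o1, o2, o3, o5, o7, o8, o9, o11, o12, o13, o15, o16, o17, o18, o19, o4, g0, h0, h1, h2, h3, h4, h5, h6, h7, h8, h9, h10, h11]
  have A1 : (2/25:ℝ) ≤ t2 := by linarith only [o1, o2, o3, o5, o7, o8, o9, o11, o12, o13, o15, o16, o17, o18, o19, o4, g0, h0, h1, h2, h3, h4, h5, h6, h7, h8, h9, h10, h11]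
  have B1 : t2 ≤ (27/200:ℝ) := by linarith only [o1, o2, o3, o5, o7, o8, o9, o11, o12, o13, o15, o16, o17, o18, o19, o4, g0, h0, h1, h2, h3, h4, h5, h6, h7, h8, h9, h10, h11]
  have A2 : (7/100:ℝ) ≤ t3 := by linarith only [o1, o2, o3, o5, o7, o8, o9, o11, o12, o13, o15, o16, o17, o18, o19, o4, g0, h0, h1, h2, h3, h4, h5, h6, h7, h8, h9, h10, h11]
  have B2 : t3 ≤ (13/100:ℝ) := by linarith only [o1, o2, o3, o5, o7, o8, o9, o11, o12, o13, o15, o16, o17, o18, o19, o4, g0, h0, h1, h2, h3, h4, h5, h6, h7, h8, h9, h10, h11]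
  have m0 := D.tcut _ _ _ _ _ _ (31/100:ℝ) A0 B0 A1 B1 A2 B2
  have m1 := D.tcut _ _ _ _ _ _ (33/100:ℝ) A0 B0 A1 B1 A2 B2
  have u0 := D.mlb _ _ _ (21/400:ℝ) L1 L2 L3 (by norm_num) (by norm_num) (by norm_num) (by norm_num) (by norm_num)
  have u1 := D.sqc _ (9/100:ℝ) u0 (by linarith only [o1, o2, o3, o5, o7, o8, o9, o11, o12, o13, o15, o16, o17, o18, o19, o4, g0, h0, h1, h2, h3, h4, h5, h6, h7, h8, h9, h10, h11])
  have u2 := D.rat _ _ rt6_2 U4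
  have l1 := ln6_22 D.c1 L1 U1
  have l2 := ln6_29 D.c2 L2 U2
  have l3 := ln6_23 D.c3 L3 U3
  have l4 := ln6_31 D.c4 L4 U4
  obtain ⟨g11, g12, g13, -⟩ := D.c1.glob (by norm_num)
  obtain ⟨g21, g22, g23, -⟩ := D.c2.glob (by norm_num)
  obtain ⟨g31, g32, g33, -⟩ := D.c3.glob (by norm_num)
  obtain ⟨g41, g42, g43, -⟩ := D.c4.glob (by norm_num)
  linarith

lemma leaf6_19 {s1 s2 s3 s4 sg p1 p2 p3 p4 mu t1 t2 t3 : ℝ}
    (D : Dat (349/125:ℝ) (1/2:ℝ) (239/5000:ℝ) s1 s2 s3 s4 sg p1 p2 p3 p4 mu t1 t2 t3)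
    (h0 : (11/100:ℝ) ≤ s1) (h1 : s1 ≤ (27/200:ℝ)) (h2 : (1/10:ℝ) ≤ s2) (h3 : (9/100:ℝ) ≤ s3) (h4 : (3/400:ℝ) ≤ s4) (h5 : s4 ≤ (1/100:ℝ)) (h6 : (11/100:ℝ) ≤ t1) (h7 : (2/25:ℝ) ≤ t2) (h8 : (7/100:ℝ) ≤ t3) (h9 : t3 ≤ (13/100:ℝ)) (h10 : mu ≤ (9/100:ℝ)) : False := by
  obtain ⟨o1, o2, o3, o4, o5, o6, o7, o8, o9, o10, o11, o12, o13, o14, o15, o16, o17, o18, o19⟩ := D.lin
  have g0 : s1 ≤ (39789/250000:ℝ) := by have := (D.c1.glob (by norm_num)).2.2.2; linarith only [this]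
  have L1 : (11/100:ℝ) ≤ s1 := by linarith only [o1, o2, o3, o5, o7, o8, o9, o11, o12, o13, o15, o16, o17, o18, o19, o4, g0, h0, h1, h2, h3, h4, h5, h6, h7, h8, h9, h10]
  have U1 : s1 ≤ (27/200:ℝ) := by linarith only [o1, o2, o3, o5, o7, o8, o9, o11, o12, o13, o15, o16, o17, o18, o19, o4, g0, h0, h1, h2, h3, h4, h5, h6, h7, h8, h9, h10]
  have L2 : (1/10:ℝ) ≤ s2 := by linarith only [o1, o2, o3, o5, o7, o8, o9, o11, o12, o13, o15, o16, o17, o18, o19, o4, g0, h0, h1, h2, h3, h4, h5, h6, h7, h8, h9, h10]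
  have U2 : s2 ≤ (27/200:ℝ) := by linarith only [o1, o2, o3, o5, o7, o8, o9, o11, o12, o13, o15, o16, o17, o18, o19, o4, g0, h0, h1, h2, h3, h4, h5, h6, h7, h8, h9, h10]
  have L3 : (9/100:ℝ) ≤ s3 := by linarith only [o1, o2, o3, o5, o7, o8, o9, o11, o12, o13, o15, o16, o17, o18, o19, o4, g0, h0, h1, h2, h3, h4, h5, h6, h7, h8, h9, h10]
  have U3 : s3 ≤ (27/200:ℝ) := by linarith only [o1, o2, o3, o5, o7, o8, o9, o11, o12, o13, o15, o16, o17, o18, o19, o4, g0, h0, h1, h2, h3, h4, h5, h6, h7, h8, h9, h10]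
  have L4 : (3/400:ℝ) ≤ s4 := by linarith only [o1, o2, o3, o5, o7, o8, o9, o11, o12, o13, o15, o16, o17, o18, o19, o4, g0, h0, h1, h2, h3, h4, h5, h6, h7, h8, h9, h10]
  have U4 : s4 ≤ (1/100:ℝ) := by linarith only [o1, o2, o3, o5, o7, o8, o9, o11, o12, o13, o15, o16, o17, o18, o19, o4, g0, h0, h1, h2, h3, h4, h5, h6, h7, h8, h9, h10]
  have A0 : (11/100:ℝ) ≤ t1 := by linarith only [o1, o2, o3, o5, o7, o8, o9, o11, o12, o13, o15, o16, o17, o18, o19, o4, g0, h0, h1, h2, h3, h4, h5, h6, h7, h8, h9, h10]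
  have B0 : t1 ≤ (27/200:ℝ) := by linarith only [o1, o2, o3, o5, o7, o8, o9, o11, o12, o13, o15, o16, o17, o18, o19, o4, g0, h0, h1, h2, h3, h4, h5, h6, h7, h8, h9, h10]
  have A1 : (2/25:ℝ) ≤ t2 := by linarith only [o1, o2, o3, o5, o7, o8, o9, o11, o12, o13, o15, o16, o17, o18, o19, o4, g0, h0, h1, h2, h3, h4, h5, h6, h7, h8, h9, h10]
  have B1 : t2 ≤ (27/200:ℝ) := by linarith only [o1, o2, o3, o5, o7, o8, o9, o11, o12, o13, o15, o16, o17, o18, o19, o4, g0, h0, h1, h2, h3, h4, h5, h6, h7, h8, h9, h10]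
  have A2 : (7/100:ℝ) ≤ t3 := by linarith only [o1, o2, o3, o5, o7, o8, o9, o11, o12, o13, o15, o16, o17, o18, o19, o4, g0, h0, h1, h2, h3, h4, h5, h6, h7, h8, h9, h10]
  have B2 : t3 ≤ (13/100:ℝ) := by linarith only [o1, o2, o3, o5, o7, o8, o9, o11, o12, o13, o15, o16, o17, o18, o19, o4, g0, h0, h1, h2, h3, h4, h5, h6, h7, h8, h9, h10]
  have m0 := D.tcut _ _ _ _ _ _ (31/100:ℝ) A0 B0 A1 B1 A2 B2
  have m1 := D.tcut _ _ _ _ _ _ (33/100:ℝ) A0 B0 A1 B1 A2 B2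
  have u0 := D.mlb _ _ _ (21/400:ℝ) L1 L2 L3 (by norm_num) (by norm_num) (by norm_num) (by norm_num) (by norm_num)
  have u1 := D.sqc _ (9/100:ℝ) u0 (by linarith only [o1, o2, o3, o5, o7, o8, o9, o11, o12, o13, o15, o16, o17, o18, o19, o4, g0, h0, h1, h2, h3, h4, h5, h6, h7, h8, h9, h10])
  have u2 := D.rat _ _ rt6_2 U4
  have l1 := ln6_22 D.c1 L1 U1
  have l2 := ln6_29 D.c2 L2 U2
  have l3 := ln6_23 D.c3 L3 U3
  have l4 := ln6_31 D.c4 L4 U4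
  obtain ⟨g11, g12, g13, -⟩ := D.c1.glob (by norm_num)
  obtain ⟨g21, g22, g23, -⟩ := D.c2.glob (by norm_num)
  obtain ⟨g31, g32, g33, -⟩ := D.c3.glob (by norm_num)
  obtain ⟨g41, g42, g43, -⟩ := D.c4.glob (by norm_num)
  linarith

lemma ln6_32 {p s : ℝ} (h : CellP (349/125:ℝ) p s) (h1 : (1/100:ℝ) ≤ s) (h2 : s ≤ (1/80:ℝ)) :
    (347/100:ℝ) * s + (4047/100000:ℝ) ≤ p := by
  obtain ⟨g1, g2, g3, g4⟩ := h.glob (by norm_num)
  rcases h.pieces (by norm_num) (by norm_num) with ⟨a, b, c, d⟩ | ⟨a, b, c, d⟩ | ⟨a, b, c, d⟩ | ⟨a, b, c, d⟩ | ⟨a, b, c⟩ | ⟨a, b, c⟩ | ⟨a, b, c⟩ | ⟨a, b, c⟩ | ⟨a, b, c⟩ | ⟨a, b, c⟩ | ⟨a, b, c⟩ | a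
  · linarith
  · linarith
  · linarith
  · linarith
  · linarith
  · linarith
  · linarith
  · linarith
  · linarith
  · linarith
  · linarith
  · linarith

lemma leaf6_20 {s1 s2 s3 s4 sg p1 p2 p3 p4 mu t1 t2 t3 : ℝ}
    (D : Dat (349/125:ℝ) (1/2:ℝ) (239/5000:ℝ) s1 s2 s3 s4 sg p1 p2 p3 p4 mu t1 t2 t3)
    (h0 : (11/100:ℝ) ≤ s1) (h1 : s1 ≤ (27/200:ℝ)) (h2 : (1/10:ℝ) ≤ s2) (h3 : (9/100:ℝ) ≤ s3) (h4 : (1/100:ℝ) ≤ s4) (h5 : s4 ≤ (1/80:ℝ)) (h6 : (2/25:ℝ) ≤ t1) (h7 : t1 ≤ (11/100:ℝ)) (h8 : (2/25:ℝ) ≤ t2) (h9 : (7/100:ℝ) ≤ t3) (h10 : t3 ≤ (13/100:ℝ)) (h11 : mu ≤ (9/100:ℝ)) : False := by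
  obtain ⟨o1, o2, o3, o4, o5, o6, o7, o8, o9, o10, o11, o12, o13, o14, o15, o16, o17, o18, o19⟩ := D.lin
  have g0 : s1 ≤ (39789/250000:ℝ) := by have := (D.c1.glob (by norm_num)).2.2.2; linarith only [this]
  have L1 : (11/100:ℝ) ≤ s1 := by linarith only [o1, o2, o3, o5, o7, o8, o9, o11, o12, o13, o15, o16, o17, o18, o19, o4, g0, h0, h1, h2, h3, h4, h5, h6, h7, h8, h9, h10, h11]
  have U1 : s1 ≤ (27/200:ℝ) := by linarith only [o1, o2, o3, o5, o7, o8, o9, o11, o12, o13, o15, o16, o17, o18, o19, o4, g0, h0, h1, h2, h3, h4, h5, h6, h7, h8, h9, h10, h11]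
  have L2 : (1/10:ℝ) ≤ s2 := by linarith only [o1, o2, o3, o5, o7, o8, o9, o11, o12, o13, o15, o16, o17, o18, o19, o4, g0, h0, h1, h2, h3, h4, h5, h6, h7, h8, h9, h10, h11]
  have U2 : s2 ≤ (27/200:ℝ) := by linarith only [o1, o2, o3, o5, o7, o8, o9, o11, o12, o13, o15, o16, o17, o18, o19, o4, g0, h0, h1, h2, h3, h4, h5, h6, h7, h8, h9, h10, h11]
  have L3 : (9/100:ℝ) ≤ s3 := by linarith only [o1, o2, o3, o5, o7, o8, o9, o11, o12, o13, o15, o16, o17, o18, o19, o4, g0, h0, h1, h2, h3, h4, h5, h6, h7, h8, h9, h10, h11]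
  have U3 : s3 ≤ (27/200:ℝ) := by linarith only [o1, o2, o3, o5, o7, o8, o9, o11, o12, o13, o15, o16, o17, o18, o19, o4, g0, h0, h1, h2, h3, h4, h5, h6, h7, h8, h9, h10, h11]
  have L4 : (1/100:ℝ) ≤ s4 := by linarith only [o1, o2, o3, o5, o7, o8, o9, o11, o12, o13, o15, o16, o17, o18, o19, o4, g0, h0, h1, h2, h3, h4, h5, h6, h7, h8, h9, h10, h11]
  have U4 : s4 ≤ (1/80:ℝ) := by linarith only [o1, o2, o3, o5, o7, o8, o9, o11, o12, o13, o15, o16, o17, o18, o19, o4, g0, h0, h1, h2, h3, h4, h5, h6, h7, h8, h9, h10, h11]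
  have A0 : (2/25:ℝ) ≤ t1 := by linarith only [o1, o2, o3, o5, o7, o8, o9, o11, o12, o13, o15, o16, o17, o18, o19, o4, g0, h0, h1, h2, h3, h4, h5, h6, h7, h8, h9, h10, h11]
  have B0 : t1 ≤ (11/100:ℝ) := by linarith only [o1, o2, o3, o5, o7, o8, o9, o11, o12, o13, o15, o16, o17, o18, o19, o4, g0, h0, h1, h2, h3, h4, h5, h6, h7, h8, h9, h10, h11]
  have A1 : (2/25:ℝ) ≤ t2 := by linarith only [o1, o2, o3, o5, o7, o8, o9, o11, o12, o13, o15, o16, o17, o18, o19, o4, g0, h0, h1, h2, h3, h4, h5, h6, h7, h8, h9, h10, h11]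
  have B1 : t2 ≤ (27/200:ℝ) := by linarith only [o1, o2, o3, o5, o7, o8, o9, o11, o12, o13, o15, o16, o17, o18, o19, o4, g0, h0, h1, h2, h3, h4, h5, h6, h7, h8, h9, h10, h11]
  have A2 : (7/100:ℝ) ≤ t3 := by linarith only [o1, o2, o3, o5, o7, o8, o9, o11, o12, o13, o15, o16, o17, o18, o19, o4, g0, h0, h1, h2, h3, h4, h5, h6, h7, h8, h9, h10, h11]
  have B2 : t3 ≤ (13/100:ℝ) := by linarith only [o1, o2, o3, o5, o7, o8, o9, o11, o12, o13, o15, o16, o17, o18, o19, o4, g0, h0, h1, h2, h3, h4, h5, h6, h7, h8, h9, h10, h11]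
  have m0 := D.tcut _ _ _ _ _ _ (31/100:ℝ) A0 B0 A1 B1 A2 B2
  have m1 := D.tcut _ _ _ _ _ _ (33/100:ℝ) A0 B0 A1 B1 A2 B2
  have u0 := D.mlb _ _ _ (21/400:ℝ) L1 L2 L3 (by norm_num) (by norm_num) (by norm_num) (by norm_num) (by norm_num)
  have u1 := D.sqc _ (9/100:ℝ) u0 (by linarith only [o1, o2, o3, o5, o7, o8, o9, o11, o12, o13, o15, o16, o17, o18, o19, o4, g0, h0, h1, h2, h3, h4, h5, h6, h7, h8, h9, h10, h11])
  have u2 := D.rat _ _ rt6_4 U4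
  have l1 := ln6_22 D.c1 L1 U1
  have l2 := ln6_29 D.c2 L2 U2
  have l3 := ln6_23 D.c3 L3 U3
  have l4 := ln6_32 D.c4 L4 U4
  obtain ⟨g11, g12, g13, -⟩ := D.c1.glob (by norm_num)
  obtain ⟨g21, g22, g23, -⟩ := D.c2.glob (by norm_num)
  obtain ⟨g31, g32, g33, -⟩ := D.c3.glob (by norm_num)
  obtain ⟨g41, g42, g43, -⟩ := D.c4.glob (by norm_num)
  linarith

lemma leaf6_21 {s1 s2 s3 s4 sg p1 p2 p3 p4 mu t1 t2 t3 : ℝ}
    (D : Dat (349/125:ℝ) (1/2:ℝ) (239/5000:ℝ) s1 s2 s3 s4 sg p1 p2 p3 p4 mu t1 t2 t3)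
    (h0 : (11/100:ℝ) ≤ s1) (h1 : s1 ≤ (27/200:ℝ)) (h2 : (1/10:ℝ) ≤ s2) (h3 : (9/100:ℝ) ≤ s3) (h4 : (1/100:ℝ) ≤ s4) (h5 : s4 ≤ (1/80:ℝ)) (h6 : (11/100:ℝ) ≤ t1) (h7 : (2/25:ℝ) ≤ t2) (h8 : (7/100:ℝ) ≤ t3) (h9 : t3 ≤ (13/100:ℝ)) (h10 : mu ≤ (9/100:ℝ)) : False := by
  obtain ⟨o1, o2, o3, o4, o5, o6, o7, o8, o9, o10, o11, o12, o13, o14, o15, o16, o17, o18, o19⟩ := D.lin
  have g0 : s1 ≤ (39789/250000:ℝ) := by have := (D.c1.glob (by norm_num)).2.2.2; linarith only [this]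
  have L1 : (11/100:ℝ) ≤ s1 := by linarith only [o1, o2, o3, o5, o7, o8, o9, o11, o12, o13, o15, o16, o17, o18, o19, o4, g0, h0, h1, h2, h3, h4, h5, h6, h7, h8, h9, h10]
  have U1 : s1 ≤ (27/200:ℝ) := by linarith only [o1, o2, o3, o5, o7, o8, o9, o11, o12, o13, o15, o16, o17, o18, o19, o4, g0, h0, h1, h2, h3, h4, h5, h6, h7, h8, h9, h10]
  have L2 : (1/10:ℝ) ≤ s2 := by linarith only [o1, o2, o3, o5, o7, o8, o9, o11, o12, o13, o15, o16, o17, o18, o19, o4, g0, h0, h1, h2, h3, h4, h5, h6, h7, h8, h9, h10]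
  have U2 : s2 ≤ (27/200:ℝ) := by linarith only [o1, o2, o3, o5, o7, o8, o9, o11, o12, o13, o15, o16, o17, o18, o19, o4, g0, h0, h1, h2, h3, h4, h5, h6, h7, h8, h9, h10]
  have L3 : (9/100:ℝ) ≤ s3 := by linarith only [o1, o2, o3, o5, o7, o8, o9, o11, o12, o13, o15, o16, o17, o18, o19, o4, g0, h0, h1, h2, h3, h4, h5, h6, h7, h8, h9, h10]
  have U3 : s3 ≤ (27/200:ℝ) := by linarith only [o1, o2, o3, o5, o7, o8, o9, o11, o12, o13, o15, o16, o17, o18, o19, o4, g0, h0, h1, h2, h3, h4, h5, h6, h7, h8, h9, h10]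
  have L4 : (1/100:ℝ) ≤ s4 := by linarith only [o1, o2, o3, o5, o7, o8, o9, o11, o12, o13, o15, o16, o17, o18, o19, o4, g0, h0, h1, h2, h3, h4, h5, h6, h7, h8, h9, h10]
  have U4 : s4 ≤ (1/80:ℝ) := by linarith only [o1, o2, o3, o5, o7, o8, o9, o11, o12, o13, o15, o16, o17, o18, o19, o4, g0, h0, h1, h2, h3, h4, h5, h6, h7, h8, h9, h10]
  have A0 : (11/100:ℝ) ≤ t1 := by linarith only [o1, o2, o3, o5, o7, o8, o9, o11, o12, o13, o15, o16, o17, o18, o19, o4, g0, h0, h1, h2, h3, h4, h5, h6, h7, h8, h9, h10]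
  have B0 : t1 ≤ (27/200:ℝ) := by linarith only [o1, o2, o3, o5, o7, o8, o9, o11, o12, o13, o15, o16, o17, o18, o19, o4, g0, h0, h1, h2, h3, h4, h5, h6, h7, h8, h9, h10]
  have A1 : (2/25:ℝ) ≤ t2 := by linarith only [o1, o2, o3, o5, o7, o8, o9, o11, o12, o13, o15, o16, o17, o18, o19, o4, g0, h0, h1, h2, h3, h4, h5, h6, h7, h8, h9, h10]
  have B1 : t2 ≤ (27/200:ℝ) := by linarith only [o1, o2, o3, o5, o7, o8, o9, o11, o12, o13, o15, o16, o17, o18, o19, o4, g0, h0, h1, h2, h3, h4, h5, h6, h7, h8, h9, h10]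
  have A2 : (7/100:ℝ) ≤ t3 := by linarith only [o1, o2, o3, o5, o7, o8, o9, o11, o12, o13, o15, o16, o17, o18, o19, o4, g0, h0, h1, h2, h3, h4, h5, h6, h7, h8, h9, h10]
  have B2 : t3 ≤ (13/100:ℝ) := by linarith only [o1, o2, o3, o5, o7, o8, o9, o11, o12, o13, o15, o16, o17, o18, o19, o4, g0, h0, h1, h2, h3, h4, h5, h6, h7, h8, h9, h10]
  have m0 := D.tcut _ _ _ _ _ _ (31/100:ℝ) A0 B0 A1 B1 A2 B2
  have m1 := D.tcut _ _ _ _ _ _ (33/100:ℝ) A0 B0 A1 B1 A2 B2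
  have u0 := D.mlb _ _ _ (21/400:ℝ) L1 L2 L3 (by norm_num) (by norm_num) (by norm_num) (by norm_num) (by norm_num)
  have u1 := D.sqc _ (9/100:ℝ) u0 (by linarith only [o1, o2, o3, o5, o7, o8, o9, o11, o12, o13, o15, o16, o17, o18, o19, o4, g0, h0, h1, h2, h3, h4, h5, h6, h7, h8, h9, h10])
  have u2 := D.rat _ _ rt6_4 U4
  have l1 := ln6_22 D.c1 L1 U1
  have l2 := ln6_29 D.c2 L2 U2
  have l3 := ln6_23 D.c3 L3 U3
  have l4 := ln6_32 D.c4 L4 U4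
  obtain ⟨g11, g12, g13, -⟩ := D.c1.glob (by norm_num)
  obtain ⟨g21, g22, g23, -⟩ := D.c2.glob (by norm_num)
  obtain ⟨g31, g32, g33, -⟩ := D.c3.glob (by norm_num)
  obtain ⟨g41, g42, g43, -⟩ := D.c4.glob (by norm_num)
  linarith

lemma ln6_33 {p s : ℝ} (h : CellP (349/125:ℝ) p s) (h1 : (1/80:ℝ) ≤ s) (h2 : s ≤ (1/50:ℝ)) :
    (347/100:ℝ) * s + (4047/100000:ℝ) ≤ p := by
  obtain ⟨g1, g2, g3, g4⟩ := h.glob (by norm_num)
  rcases h.pieces (by norm_num) (by norm_num) with ⟨a, b, c, d⟩ | ⟨a, b, c, d⟩ | ⟨a, b, c, d⟩ | ⟨a, b, c, d⟩ | ⟨a, b, c⟩ | ⟨a, b, c⟩ | ⟨a, b, c⟩ | ⟨a, b, c⟩ | ⟨a, b, c⟩ | ⟨a, b, c⟩ | ⟨a, b, c⟩ | a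
  · linarith
  · linarith
  · linarith
  · linarith
  · linarith
  · linarith
  · linarith
  · linarith
  · linarith
  · linarith
  · linarith
  · linarith

lemma leaf6_22 {s1 s2 s3 s4 sg p1 p2 p3 p4 mu t1 t2 t3 : ℝ}
    (D : Dat (349/125:ℝ) (1/2:ℝ) (239/5000:ℝ) s1 s2 s3 s4 sg p1 p2 p3 p4 mu t1 t2 t3)
    (h0 : (11/100:ℝ) ≤ s1) (h1 : s1 ≤ (27/200:ℝ)) (h2 : (9/100:ℝ) ≤ s2) (h3 : (17/200:ℝ) ≤ s3) (h4 : (1/80:ℝ) ≤ s4) (h5 : s4 ≤ (1/50:ℝ)) (h6 : (2/25:ℝ) ≤ t1) (h7 : (2/25:ℝ) ≤ t2) (h8 : (7/100:ℝ) ≤ t3) (h9 : t3 ≤ (13/100:ℝ)) (h10 : mu ≤ (9/100:ℝ)) : False := by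
  obtain ⟨o1, o2, o3, o4, o5, o6, o7, o8, o9, o10, o11, o12, o13, o14, o15, o16, o17, o18, o19⟩ := D.lin
  have g0 : s1 ≤ (39789/250000:ℝ) := by have := (D.c1.glob (by norm_num)).2.2.2; linarith only [this]
  have L1 : (11/100:ℝ) ≤ s1 := by linarith only [o1, o2, o3, o5, o7, o8, o9, o11, o12, o13, o15, o16, o17, o18, o19, o4, g0, h0, h1, h2, h3, h4, h5, h6, h7, h8, h9, h10]
  have U1 : s1 ≤ (27/200:ℝ) := by linarith only [o1, o2, o3, o5, o7, o8, o9, o11, o12, o13, o15, o16, o17, o18, o19, o4, g0, h0, h1, h2, h3, h4, h5, h6, h7, h8, h9, h10]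
  have L2 : (9/100:ℝ) ≤ s2 := by linarith only [o1, o2, o3, o5, o7, o8, o9, o11, o12, o13, o15, o16, o17, o18, o19, o4, g0, h0, h1, h2, h3, h4, h5, h6, h7, h8, h9, h10]
  have U2 : s2 ≤ (27/200:ℝ) := by linarith only [o1, o2, o3, o5, o7, o8, o9, o11, o12, o13, o15, o16, o17, o18, o19, o4, g0, h0, h1, h2, h3, h4, h5, h6, h7, h8, h9, h10]
  have L3 : (17/200:ℝ) ≤ s3 := by linarith only [o1, o2, o3, o5, o7, o8, o9, o11, o12, o13, o15, o16, o17, o18, o19, o4, g0, h0, h1, h2, h3, h4, h5, h6, h7, h8, h9, h10]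
  have U3 : s3 ≤ (27/200:ℝ) := by linarith only [o1, o2, o3, o5, o7, o8, o9, o11, o12, o13, o15, o16, o17, o18, o19, o4, g0, h0, h1, h2, h3, h4, h5, h6, h7, h8, h9, h10]
  have L4 : (1/80:ℝ) ≤ s4 := by linarith only [o1, o2, o3, o5, o7, o8, o9, o11, o12, o13, o15, o16, o17, o18, o19, o4, g0, h0, h1, h2, h3, h4, h5, h6, h7, h8, h9, h10]
  have U4 : s4 ≤ (1/50:ℝ) := by linarith only [o1, o2, o3, o5, o7, o8, o9, o11, o12, o13, o15, o16, o17, o18, o19, o4, g0, h0, h1, h2, h3, h4, h5, h6, h7, h8, h9, h10]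
  have A0 : (2/25:ℝ) ≤ t1 := by linarith only [o1, o2, o3, o5, o7, o8, o9, o11, o12, o13, o15, o16, o17, o18, o19, o4, g0, h0, h1, h2, h3, h4, h5, h6, h7, h8, h9, h10]
  have B0 : t1 ≤ (27/200:ℝ) := by linarith only [o1, o2, o3, o5, o7, o8, o9, o11, o12, o13, o15, o16, o17, o18, o19, o4, g0, h0, h1, h2, h3, h4, h5, h6, h7, h8, h9, h10]
  have A1 : (2/25:ℝ) ≤ t2 := by linarith only [o1, o2, o3, o5, o7, o8, o9, o11, o12, o13, o15, o16, o17, o18, o19, o4, g0, h0, h1, h2, h3, h4, h5, h6, h7, h8, h9, h10]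
  have B1 : t2 ≤ (27/200:ℝ) := by linarith only [o1, o2, o3, o5, o7, o8, o9, o11, o12, o13, o15, o16, o17, o18, o19, o4, g0, h0, h1, h2, h3, h4, h5, h6, h7, h8, h9, h10]
  have A2 : (7/100:ℝ) ≤ t3 := by linarith only [o1, o2, o3, o5, o7, o8, o9, o11, o12, o13, o15, o16, o17, o18, o19, o4, g0, h0, h1, h2, h3, h4, h5, h6, h7, h8, h9, h10]
  have B2 : t3 ≤ (13/100:ℝ) := by linarith only [o1, o2, o3, o5, o7, o8, o9, o11, o12, o13, o15, o16, o17, o18, o19, o4, g0, h0, h1, h2, h3, h4, h5, h6, h7, h8, h9, h10]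
  have m0 := D.tcut _ _ _ _ _ _ (31/100:ℝ) A0 B0 A1 B1 A2 B2
  have m1 := D.tcut _ _ _ _ _ _ (33/100:ℝ) A0 B0 A1 B1 A2 B2
  have u0 := D.mlb _ _ _ (1/20:ℝ) L1 L2 L3 (by norm_num) (by norm_num) (by norm_num) (by norm_num) (by norm_num)
  have u1 := D.sqc _ (9/100:ℝ) u0 (by linarith only [o1, o2, o3, o5, o7, o8, o9, o11, o12, o13, o15, o16, o17, o18, o19, o4, g0, h0, h1, h2, h3, h4, h5, h6, h7, h8, h9, h10])
  have u2 := D.rat _ _ rt6_1 U4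
  have l1 := ln6_22 D.c1 L1 U1
  have l2 := ln6_23 D.c2 L2 U2
  have l3 := ln6_25 D.c3 L3 U3
  have l4 := ln6_33 D.c4 L4 U4
  obtain ⟨g11, g12, g13, -⟩ := D.c1.glob (by norm_num)
  obtain ⟨g21, g22, g23, -⟩ := D.c2.glob (by norm_num)
  obtain ⟨g31, g32, g33, -⟩ := D.c3.glob (by norm_num)
  obtain ⟨g41, g42, g43, -⟩ := D.c4.glob (by norm_num)
  linarith

lemma leaf6_23 {s1 s2 s3 s4 sg p1 p2 p3 p4 mu t1 t2 t3 : ℝ}
    (D : Dat (349/125:ℝ) (1/2:ℝ) (239/5000:ℝ) s1 s2 s3 s4 sg p1 p2 p3 p4 mu t1 t2 t3)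
    (h0 : (11/100:ℝ) ≤ s1) (h1 : s1 ≤ (27/200:ℝ)) (h2 : (9/100:ℝ) ≤ s2) (h3 : (17/200:ℝ) ≤ s3) (h4 : (1/200:ℝ) ≤ s4) (h5 : s4 ≤ (1/50:ℝ)) (h6 : (2/25:ℝ) ≤ t1) (h7 : (2/25:ℝ) ≤ t2) (h8 : (3/50:ℝ) ≤ t3) (h9 : t3 ≤ (13/100:ℝ)) (h10 : (9/100:ℝ) ≤ mu) (h11 : mu ≤ (1/10:ℝ)) : False := by
  obtain ⟨o1, o2, o3, o4, o5, o6, o7, o8, o9, o10, o11, o12, o13, o14, o15, o16, o17, o18, o19⟩ := D.lin
  have g0 : s1 ≤ (39789/250000:ℝ) := by have := (D.c1.glob (by norm_num)).2.2.2; linarith only [this]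
  have L1 : (11/100:ℝ) ≤ s1 := by linarith only [o1, o2, o3, o5, o7, o8, o9, o11, o12, o13, o15, o16, o17, o18, o19, o4, g0, h0, h1, h2, h3, h4, h5, h6, h7, h8, h9, h10, h11]
  have U1 : s1 ≤ (27/200:ℝ) := by linarith only [o1, o2, o3, o5, o7, o8, o9, o11, o12, o13, o15, o16, o17, o18, o19, o4, g0, h0, h1, h2, h3, h4, h5, h6, h7, h8, h9, h10, h11]
  have L2 : (9/100:ℝ) ≤ s2 := by linarith only [o1, o2, o3, o5, o7, o8, o9, o11, o12, o13, o15, o16, o17, o18, o19, o4, g0, h0, h1, h2, h3, h4, h5, h6, h7, h8, h9, h10, h11]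
  have U2 : s2 ≤ (27/200:ℝ) := by linarith only [o1, o2, o3, o5, o7, o8, o9, o11, o12, o13, o15, o16, o17, o18, o19, o4, g0, h0, h1, h2, h3, h4, h5, h6, h7, h8, h9, h10, h11]
  have L3 : (17/200:ℝ) ≤ s3 := by linarith only [o1, o2, o3, o5, o7, o8, o9, o11, o12, o13, o15, o16, o17, o18, o19, o4, g0, h0, h1, h2, h3, h4, h5, h6, h7, h8, h9, h10, h11]
  have U3 : s3 ≤ (27/200:ℝ) := by linarith only [o1, o2, o3, o5, o7, o8, o9, o11, o12, o13, o15, o16, o17, o18, o19, o4, g0, h0, h1, h2, h3, h4, h5, h6, h7, h8, h9, h10, h11]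
  have L4 : (1/200:ℝ) ≤ s4 := by linarith only [o1, o2, o3, o5, o7, o8, o9, o11, o12, o13, o15, o16, o17, o18, o19, o4, g0, h0, h1, h2, h3, h4, h5, h6, h7, h8, h9, h10, h11]
  have U4 : s4 ≤ (1/50:ℝ) := by linarith only [o1, o2, o3, o5, o7, o8, o9, o11, o12, o13, o15, o16, o17, o18, o19, o4, g0, h0, h1, h2, h3, h4, h5, h6, h7, h8, h9, h10, h11]
  have A0 : (2/25:ℝ) ≤ t1 := by linarith only [o1, o2, o3, o5, o7, o8, o9, o11, o12, o13, o15, o16, o17, o18, o19, o4, g0, h0, h1, h2, h3, h4, h5, h6, h7, h8, h9, h10, h11]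
  have B0 : t1 ≤ (27/200:ℝ) := by linarith only [o1, o2, o3, o5, o7, o8, o9, o11, o12, o13, o15, o16, o17, o18, o19, o4, g0, h0, h1, h2, h3, h4, h5, h6, h7, h8, h9, h10, h11]
  have A1 : (2/25:ℝ) ≤ t2 := by linarith only [o1, o2, o3, o5, o7, o8, o9, o11, o12, o13, o15, o16, o17, o18, o19, o4, g0, h0, h1, h2, h3, h4, h5, h6, h7, h8, h9, h10, h11]
  have B1 : t2 ≤ (27/200:ℝ) := by linarith only [o1, o2, o3, o5, o7, o8, o9, o11, o12, o13, o15, o16, o17, o18, o19, o4, g0, h0, h1, h2, h3, h4, h5, h6, h7, h8, h9, h10, h11]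
  have A2 : (3/50:ℝ) ≤ t3 := by linarith only [o1, o2, o3, o5, o7, o8, o9, o11, o12, o13, o15, o16, o17, o18, o19, o4, g0, h0, h1, h2, h3, h4, h5, h6, h7, h8, h9, h10, h11]
  have B2 : t3 ≤ (13/100:ℝ) := by linarith only [o1, o2, o3, o5, o7, o8, o9, o11, o12, o13, o15, o16, o17, o18, o19, o4, g0, h0, h1, h2, h3, h4, h5, h6, h7, h8, h9, h10, h11]
  have m0 := D.tcut _ _ _ _ _ _ (31/100:ℝ) A0 B0 A1 B1 A2 B2
  have m1 := D.tcut _ _ _ _ _ _ (33/100:ℝ) A0 B0 A1 B1 A2 B2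
  have u0 : (9/100:ℝ) ≤ mu := by linarith only [o1, o2, o3, o5, o7, o8, o9, o11, o12, o13, o15, o16, o17, o18, o19, o4, g0, h0, h1, h2, h3, h4, h5, h6, h7, h8, h9, h10, h11]
  have u1 := D.sqc _ (1/10:ℝ) u0 (by linarith only [o1, o2, o3, o5, o7, o8, o9, o11, o12, o13, o15, o16, o17, o18, o19, o4, g0, h0, h1, h2, h3, h4, h5, h6, h7, h8, h9, h10, h11])
  have u2 := D.rat _ _ rt6_1 U4
  have l1 := ln6_22 D.c1 L1 U1
  have l2 := ln6_23 D.c2 L2 U2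
  have l3 := ln6_25 D.c3 L3 U3
  have l4 := ln6_21 D.c4 L4 U4
  obtain ⟨g11, g12, g13, -⟩ := D.c1.glob (by norm_num)
  obtain ⟨g21, g22, g23, -⟩ := D.c2.glob (by norm_num)
  obtain ⟨g31, g32, g33, -⟩ := D.c3.glob (by norm_num)
  obtain ⟨g41, g42, g43, -⟩ := D.c4.glob (by norm_num)
  linarith

lemma ln6_34 {p s : ℝ} (h : CellP (349/125:ℝ) p s) (h1 : (27/200:ℝ) ≤ s) (h2 : s ≤ (39789/250000:ℝ)) :
    (1697/500:ℝ) * s + (-463/4000:ℝ) ≤ p := by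
  obtain ⟨g1, g2, g3, g4⟩ := h.glob (by norm_num)
  rcases h.pieces (by norm_num) (by norm_num) with ⟨a, b, c, d⟩ | ⟨a, b, c, d⟩ | ⟨a, b, c, d⟩ | ⟨a, b, c, d⟩ | ⟨a, b, c⟩ | ⟨a, b, c⟩ | ⟨a, b, c⟩ | ⟨a, b, c⟩ | ⟨a, b, c⟩ | ⟨a, b, c⟩ | ⟨a, b, c⟩ | a
  · linarith
  · linarith
  · linarith
  · linarith
  · linarith
  · linarith
  · linarith
  · linarith
  · linarith
  · linarith
  · linarith
  · linarith

lemma leaf6_24 {s1 s2 s3 s4 sg p1 p2 p3 p4 mu t1 t2 t3 : ℝ}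
    (D : Dat (349/125:ℝ) (1/2:ℝ) (239/5000:ℝ) s1 s2 s3 s4 sg p1 p2 p3 p4 mu t1 t2 t3)
    (h0 : (27/200:ℝ) ≤ s1) (h1 : (9/100:ℝ) ≤ s2) (h2 : (7/100:ℝ) ≤ s3) (h3 : (1/200:ℝ) ≤ s4) (h4 : s4 ≤ (1/50:ℝ)) (h5 : (2/25:ℝ) ≤ t1) (h6 : (2/25:ℝ) ≤ t2) (h7 : (3/50:ℝ) ≤ t3) (h8 : t3 ≤ (13/100:ℝ)) (h9 : mu ≤ (1/10:ℝ)) : False := by
  obtain ⟨o1, o2, o3, o4, o5, o6, o7, o8, o9, o10, o11, o12, o13, o14, o15, o16, o17, o18, o19⟩ := D.lin
  have g0 : s1 ≤ (39789/250000:ℝ) := by have := (D.c1.glob (by norm_num)).2.2.2; linarith only [this]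
  have L1 : (27/200:ℝ) ≤ s1 := by linarith only [o1, o2, o3, o5, o7, o8, o9, o11, o12, o13, o15, o16, o17, o18, o19, o4, g0, h0, h1, h2, h3, h4, h5, h6, h7, h8, h9]
  have U1 : s1 ≤ (39789/250000:ℝ) := by linarith only [o1, o2, o3, o5, o7, o8, o9, o11, o12, o13, o15, o16, o17, o18, o19, o4, g0, h0, h1, h2, h3, h4, h5, h6, h7, h8, h9]
  have L2 : (9/100:ℝ) ≤ s2 := by linarith only [o1, o2, o3, o5, o7, o8, o9, o11, o12, o13, o15, o16, o17, o18, o19, o4, g0, h0, h1, h2, h3, h4, h5, h6, h7, h8, h9]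
  have U2 : s2 ≤ (39789/250000:ℝ) := by linarith only [o1, o2, o3, o5, o7, o8, o9, o11, o12, o13, o15, o16, o17, o18, o19, o4, g0, h0, h1, h2, h3, h4, h5, h6, h7, h8, h9]
  have L3 : (7/100:ℝ) ≤ s3 := by linarith only [o1, o2, o3, o5, o7, o8, o9, o11, o12, o13, o15, o16, o17, o18, o19, o4, g0, h0, h1, h2, h3, h4, h5, h6, h7, h8, h9]
  have U3 : s3 ≤ (39789/250000:ℝ) := by linarith only [o1, o2, o3, o5, o7, o8, o9, o11, o12, o13, o15, o16, o17, o18, o19, o4, g0, h0, h1, h2, h3, h4, h5, h6, h7, h8, h9]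
  have L4 : (1/200:ℝ) ≤ s4 := by linarith only [o1, o2, o3, o5, o7, o8, o9, o11, o12, o13, o15, o16, o17, o18, o19, o4, g0, h0, h1, h2, h3, h4, h5, h6, h7, h8, h9]
  have U4 : s4 ≤ (1/50:ℝ) := by linarith only [o1, o2, o3, o5, o7, o8, o9, o11, o12, o13, o15, o16, o17, o18, o19, o4, g0, h0, h1, h2, h3, h4, h5, h6, h7, h8, h9]
  have A0 : (2/25:ℝ) ≤ t1 := by linarith only [o1, o2, o3, o5, o7, o8, o9, o11, o12, o13, o15, o16, o17, o18, o19, o4, g0, h0, h1, h2, h3, h4, h5, h6, h7, h8, h9]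
  have B0 : t1 ≤ (39789/250000:ℝ) := by linarith only [o1, o2, o3, o5, o7, o8, o9, o11, o12, o13, o15, o16, o17, o18, o19, o4, g0, h0, h1, h2, h3, h4, h5, h6, h7, h8, h9]
  have A1 : (2/25:ℝ) ≤ t2 := by linarith only [o1, o2, o3, o5, o7, o8, o9, o11, o12, o13, o15, o16, o17, o18, o19, o4, g0, h0, h1, h2, h3, h4, h5, h6, h7, h8, h9]
  have B1 : t2 ≤ (39789/250000:ℝ) := by linarith only [o1, o2, o3, o5, o7, o8, o9, o11, o12, o13, o15, o16, o17, o18, o19, o4, g0, h0, h1, h2, h3, h4, h5, h6, h7, h8, h9]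
  have A2 : (3/50:ℝ) ≤ t3 := by linarith only [o1, o2, o3, o5, o7, o8, o9, o11, o12, o13, o15, o16, o17, o18, o19, o4, g0, h0, h1, h2, h3, h4, h5, h6, h7, h8, h9]
  have B2 : t3 ≤ (13/100:ℝ) := by linarith only [o1, o2, o3, o5, o7, o8, o9, o11, o12, o13, o15, o16, o17, o18, o19, o4, g0, h0, h1, h2, h3, h4, h5, h6, h7, h8, h9]
  have m0 := D.tcut _ _ _ _ _ _ (31/100:ℝ) A0 B0 A1 B1 A2 B2
  have m1 := D.tcut _ _ _ _ _ _ (33/100:ℝ) A0 B0 A1 B1 A2 B2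
  have u0 := D.mlb _ _ _ (1/20:ℝ) L1 L2 L3 (by norm_num) (by norm_num) (by norm_num) (by norm_num) (by norm_num)
  have u1 := D.sqc _ (1/10:ℝ) u0 (by linarith only [o1, o2, o3, o5, o7, o8, o9, o11, o12, o13, o15, o16, o17, o18, o19, o4, g0, h0, h1, h2, h3, h4, h5, h6, h7, h8, h9])
  have u2 := D.rat _ _ rt6_1 U4
  have l1 := ln6_34 D.c1 L1 U1
  have l2 := ln6_10 D.c2 L2 U2
  have l3 := ln6_4 D.c3 L3 U3
  have l4 := ln6_21 D.c4 L4 U4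
  obtain ⟨g11, g12, g13, -⟩ := D.c1.glob (by norm_num)
  obtain ⟨g21, g22, g23, -⟩ := D.c2.glob (by norm_num)
  obtain ⟨g31, g32, g33, -⟩ := D.c3.glob (by norm_num)
  obtain ⟨g41, g42, g43, -⟩ := D.c4.glob (by norm_num)
  linarith

lemma leaf6_25 {s1 s2 s3 s4 sg p1 p2 p3 p4 mu t1 t2 t3 : ℝ}
    (D : Dat (349/125:ℝ) (1/2:ℝ) (239/5000:ℝ) s1 s2 s3 s4 sg p1 p2 p3 p4 mu t1 t2 t3)
    (h0 : (11/100:ℝ) ≤ s1) (h1 : (9/100:ℝ) ≤ s2) (h2 : (1/25:ℝ) ≤ s3) (h3 : (1/200:ℝ) ≤ s4) (h4 : s4 ≤ (1/50:ℝ)) (h5 : (2/25:ℝ) ≤ t1) (h6 : (2/25:ℝ) ≤ t2) (h7 : t3 ≤ (13/100:ℝ)) (h8 : (1/10:ℝ) ≤ mu) : False := by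
  obtain ⟨o1, o2, o3, o4, o5, o6, o7, o8, o9, o10, o11, o12, o13, o14, o15, o16, o17, o18, o19⟩ := D.lin
  have g0 : s1 ≤ (39789/250000:ℝ) := by have := (D.c1.glob (by norm_num)).2.2.2; linarith only [this]
  have L1 : (11/100:ℝ) ≤ s1 := by linarith only [o1, o2, o3, o5, o7, o8, o9, o11, o12, o13, o15, o16, o17, o18, o19, o4, g0, h0, h1, h2, h3, h4, h5, h6, h7, h8]
  have U1 : s1 ≤ (39789/250000:ℝ) := by linarith only [o1, o2, o3, o5, o7, o8, o9, o11, o12, o13, o15, o16, o17, o18, o19, o4, g0, h0, h1, h2, h3, h4, h5, h6, h7, h8]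
  have L2 : (9/100:ℝ) ≤ s2 := by linarith only [o1, o2, o3, o5, o7, o8, o9, o11, o12, o13, o15, o16, o17, o18, o19, o4, g0, h0, h1, h2, h3, h4, h5, h6, h7, h8]
  have U2 : s2 ≤ (39789/250000:ℝ) := by linarith only [o1, o2, o3, o5, o7, o8, o9, o11, o12, o13, o15, o16, o17, o18, o19, o4, g0, h0, h1, h2, h3, h4, h5, h6, h7, h8]
  have L3 : (1/25:ℝ) ≤ s3 := by linarith only [o1, o2, o3, o5, o7, o8, o9, o11, o12, o13, o15, o16, o17, o18, o19, o4, g0, h0, h1, h2, h3, h4, h5, h6, h7, h8]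
  have U3 : s3 ≤ (39789/250000:ℝ) := by linarith only [o1, o2, o3, o5, o7, o8, o9, o11, o12, o13, o15, o16, o17, o18, o19, o4, g0, h0, h1, h2, h3, h4, h5, h6, h7, h8]
  have L4 : (1/200:ℝ) ≤ s4 := by linarith only [o1, o2, o3, o5, o7, o8, o9, o11, o12, o13, o15, o16, o17, o18, o19, o4, g0, h0, h1, h2, h3, h4, h5, h6, h7, h8]
  have U4 : s4 ≤ (1/50:ℝ) := by linarith only [o1, o2, o3, o5, o7, o8, o9, o11, o12, o13, o15, o16, o17, o18, o19, o4, g0, h0, h1, h2, h3, h4, h5, h6, h7, h8]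
  have A0 : (2/25:ℝ) ≤ t1 := by linarith only [o1, o2, o3, o5, o7, o8, o9, o11, o12, o13, o15, o16, o17, o18, o19, o4, g0, h0, h1, h2, h3, h4, h5, h6, h7, h8]
  have B0 : t1 ≤ (39789/250000:ℝ) := by linarith only [o1, o2, o3, o5, o7, o8, o9, o11, o12, o13, o15, o16, o17, o18, o19, o4, g0, h0, h1, h2, h3, h4, h5, h6, h7, h8]
  have A1 : (2/25:ℝ) ≤ t2 := by linarith only [o1, o2, o3, o5, o7, o8, o9, o11, o12, o13, o15, o16, o17, o18, o19, o4, g0, h0, h1, h2, h3, h4, h5, h6, h7, h8]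
  have B1 : t2 ≤ (39789/250000:ℝ) := by linarith only [o1, o2, o3, o5, o7, o8, o9, o11, o12, o13, o15, o16, o17, o18, o19, o4, g0, h0, h1, h2, h3, h4, h5, h6, h7, h8]
  have A2 : (0:ℝ) ≤ t3 := by linarith only [o1, o2, o3, o5, o7, o8, o9, o11, o12, o13, o15, o16, o17, o18, o19, o4, g0, h0, h1, h2, h3, h4, h5, h6, h7, h8]
  have B2 : t3 ≤ (13/100:ℝ) := by linarith only [o1, o2, o3, o5, o7, o8, o9, o11, o12, o13, o15, o16, o17, o18, o19, o4, g0, h0, h1, h2, h3, h4, h5, h6, h7, h8]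
  have m0 := D.tcut _ _ _ _ _ _ (31/100:ℝ) A0 B0 A1 B1 A2 B2
  have m1 := D.tcut _ _ _ _ _ _ (33/100:ℝ) A0 B0 A1 B1 A2 B2
  have u0 : (1/10:ℝ) ≤ mu := by linarith only [o1, o2, o3, o5, o7, o8, o9, o11, o12, o13, o15, o16, o17, o18, o19, o4, g0, h0, h1, h2, h3, h4, h5, h6, h7, h8]
  have u1 := D.sqc _ (1:ℝ) u0 (by linarith only [o1, o2, o3, o5, o7, o8, o9, o11, o12, o13, o15, o16, o17, o18, o19, o4, g0, h0, h1, h2, h3, h4, h5, h6, h7, h8])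
  have u2 := D.rat _ _ rt6_1 U4
  have l1 := ln6_15 D.c1 L1 U1
  have l2 := ln6_10 D.c2 L2 U2
  have l3 := ln6_2 D.c3 L3 U3
  have l4 := ln6_21 D.c4 L4 U4
  obtain ⟨g11, g12, g13, -⟩ := D.c1.glob (by norm_num)
  obtain ⟨g21, g22, g23, -⟩ := D.c2.glob (by norm_num)
  obtain ⟨g31, g32, g33, -⟩ := D.c3.glob (by norm_num)
  obtain ⟨g41, g42, g43, -⟩ := D.c4.glob (by norm_num)
  linarith

lemma ln6_35 {p s : ℝ} (h : CellP (349/125:ℝ) p s) (h1 : (1/25:ℝ) ≤ s) (h2 : s ≤ (2/25:ℝ)) :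
    (1877/1000:ℝ) * s + (4253/50000:ℝ) ≤ p := by
  obtain ⟨g1, g2, g3, g4⟩ := h.glob (by norm_num)
  rcases h.pieces (by norm_num) (by norm_num) with ⟨a, b, c, d⟩ | ⟨a, b, c, d⟩ | ⟨a, b, c, d⟩ | ⟨a, b, c, d⟩ | ⟨a, b, c⟩ | ⟨a, b, c⟩ | ⟨a, b, c⟩ | ⟨a, b, c⟩ | ⟨a, b, c⟩ | ⟨a, b, c⟩ | ⟨a, b, c⟩ | a
  · linarith
  · linarith
  · linarith
  · linarith
  · linarith
  · linarith
  · linarith
  · linarith
  · linarith
  · linarith
  · linarith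
  · linarith

lemma ln6_36 {p s : ℝ} (h : CellP (349/125:ℝ) p s) (h1 : (1/50:ℝ) ≤ s) (h2 : s ≤ (1/25:ℝ)) :
    (2513/1000:ℝ) * s + (5961/100000:ℝ) ≤ p := by
  obtain ⟨g1, g2, g3, g4⟩ := h.glob (by norm_num)
  rcases h.pieces (by norm_num) (by norm_num) with ⟨a, b, c, d⟩ | ⟨a, b, c, d⟩ | ⟨a, b, c, d⟩ | ⟨a, b, c, d⟩ | ⟨a, b, c⟩ | ⟨a, b, c⟩ | ⟨a, b, c⟩ | ⟨a, b, c⟩ | ⟨a, b, c⟩ | ⟨a, b, c⟩ | ⟨a, b, c⟩ | a
  · linarith
  · linarith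
  · linarith
  · linarith
  · linarith
  · linarith
  · linarith
  · linarith
  · linarith
  · linarith
  · linarith
  · linarith

lemma leaf6_26 {s1 s2 s3 s4 sg p1 p2 p3 p4 mu t1 t2 t3 : ℝ}
    (D : Dat (349/125:ℝ) (1/2:ℝ) (239/5000:ℝ) s1 s2 s3 s4 sg p1 p2 p3 p4 mu t1 t2 t3)
    (h0 : (21/200:ℝ) ≤ s1) (h1 : (9/100:ℝ) ≤ s2) (h2 : (1/25:ℝ) ≤ s3) (h3 : s3 ≤ (2/25:ℝ)) (h4 : (1/50:ℝ) ≤ s4) (h5 : s4 ≤ (1/25:ℝ)) (h6 : t3 ≤ (13/100:ℝ)) : False := by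
  obtain ⟨o1, o2, o3, o4, o5, o6, o7, o8, o9, o10, o11, o12, o13, o14, o15, o16, o17, o18, o19⟩ := D.lin
  have g0 : s1 ≤ (39789/250000:ℝ) := by have := (D.c1.glob (by norm_num)).2.2.2; linarith only [this]
  have L1 : (21/200:ℝ) ≤ s1 := by linarith only [o1, o2, o3, o5, o7, o8, o9, o11, o12, o13, o15, o16, o17, o18, o19, o4, g0, h0, h1, h2, h3, h4, h5, h6]
  have U1 : s1 ≤ (39789/250000:ℝ) := by linarith only [o1, o2, o3, o5, o7, o8, o9, o11, o12, o13, o15, o16, o17, o18, o19, o4, g0, h0, h1, h2, h3, h4, h5, h6]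
  have L2 : (9/100:ℝ) ≤ s2 := by linarith only [o1, o2, o3, o5, o7, o8, o9, o11, o12, o13, o15, o16, o17, o18, o19, o4, g0, h0, h1, h2, h3, h4, h5, h6]
  have U2 : s2 ≤ (39789/250000:ℝ) := by linarith only [o1, o2, o3, o5, o7, o8, o9, o11, o12, o13, o15, o16, o17, o18, o19, o4, g0, h0, h1, h2, h3, h4, h5, h6]
  have L3 : (1/25:ℝ) ≤ s3 := by linarith only [o1, o2, o3, o5, o7, o8, o9, o11, o12, o13, o15, o16, o17, o18, o19, o4, g0, h0, h1, h2, h3, h4, h5, h6]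
  have U3 : s3 ≤ (2/25:ℝ) := by linarith only [o1, o2, o3, o5, o7, o8, o9, o11, o12, o13, o15, o16, o17, o18, o19, o4, g0, h0, h1, h2, h3, h4, h5, h6]
  have L4 : (1/50:ℝ) ≤ s4 := by linarith only [o1, o2, o3, o5, o7, o8, o9, o11, o12, o13, o15, o16, o17, o18, o19, o4, g0, h0, h1, h2, h3, h4, h5, h6]
  have U4 : s4 ≤ (1/25:ℝ) := by linarith only [o1, o2, o3, o5, o7, o8, o9, o11, o12, o13, o15, o16, o17, o18, o19, o4, g0, h0, h1, h2, h3, h4, h5, h6]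
  have A0 : (0:ℝ) ≤ t1 := by linarith only [o1, o2, o3, o5, o7, o8, o9, o11, o12, o13, o15, o16, o17, o18, o19, o4, g0, h0, h1, h2, h3, h4, h5, h6]
  have B0 : t1 ≤ (39789/250000:ℝ) := by linarith only [o1, o2, o3, o5, o7, o8, o9, o11, o12, o13, o15, o16, o17, o18, o19, o4, g0, h0, h1, h2, h3, h4, h5, h6]
  have A1 : (0:ℝ) ≤ t2 := by linarith only [o1, o2, o3, o5, o7, o8, o9, o11, o12, o13, o15, o16, o17, o18, o19, o4, g0, h0, h1, h2, h3, h4, h5, h6]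
  have B1 : t2 ≤ (39789/250000:ℝ) := by linarith only [o1, o2, o3, o5, o7, o8, o9, o11, o12, o13, o15, o16, o17, o18, o19, o4, g0, h0, h1, h2, h3, h4, h5, h6]
  have A2 : (0:ℝ) ≤ t3 := by linarith only [o1, o2, o3, o5, o7, o8, o9, o11, o12, o13, o15, o16, o17, o18, o19, o4, g0, h0, h1, h2, h3, h4, h5, h6]
  have B2 : t3 ≤ (2/25:ℝ) := by linarith only [o1, o2, o3, o5, o7, o8, o9, o11, o12, o13, o15, o16, o17, o18, o19, o4, g0, h0, h1, h2, h3, h4, h5, h6]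
  have m0 := D.tcut _ _ _ _ _ _ (31/100:ℝ) A0 B0 A1 B1 A2 B2
  have m1 := D.tcut _ _ _ _ _ _ (33/100:ℝ) A0 B0 A1 B1 A2 B2
  have u0 := D.mlb _ _ _ (7/200:ℝ) L1 L2 L3 (by norm_num) (by norm_num) (by norm_num) (by norm_num) (by norm_num)
  have u1 := D.sqc _ (1:ℝ) u0 (by linarith only [o1, o2, o3, o5, o7, o8, o9, o11, o12, o13, o15, o16, o17, o18, o19, o4, g0, h0, h1, h2, h3, h4, h5, h6])
  have u2 := D.rat _ _ rt6_0 U4
  have l1 := ln6_9 D.c1 L1 U1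
  have l2 := ln6_10 D.c2 L2 U2
  have l3 := ln6_35 D.c3 L3 U3
  have l4 := ln6_36 D.c4 L4 U4
  obtain ⟨g11, g12, g13, -⟩ := D.c1.glob (by norm_num)
  obtain ⟨g21, g22, g23, -⟩ := D.c2.glob (by norm_num)
  obtain ⟨g31, g32, g33, -⟩ := D.c3.glob (by norm_num)
  obtain ⟨g41, g42, g43, -⟩ := D.c4.glob (by norm_num)
  linarith

lemma ln6_37 {p s : ℝ} (h : CellP (349/125:ℝ) p s) (h1 : (2/25:ℝ) ≤ s) (h2 : s ≤ (39789/250000:ℝ)) :
    (1603/1000:ℝ) * s + (10699/100000:ℝ) ≤ p := by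
  obtain ⟨g1, g2, g3, g4⟩ := h.glob (by norm_num)
  rcases h.pieces (by norm_num) (by norm_num) with ⟨a, b, c, d⟩ | ⟨a, b, c, d⟩ | ⟨a, b, c, d⟩ | ⟨a, b, c, d⟩ | ⟨a, b, c⟩ | ⟨a, b, c⟩ | ⟨a, b, c⟩ | ⟨a, b, c⟩ | ⟨a, b, c⟩ | ⟨a, b, c⟩ | ⟨a, b, c⟩ | a
  · linarith
  · linarith
  · linarith
  · linarith
  · linarith
  · linarith
  · linarith
  · linarith
  · linarith
  · linarith
  · linarith
  · linarith

lemma leaf6_27 {s1 s2 s3 s4 sg p1 p2 p3 p4 mu t1 t2 t3 : ℝ}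
    (D : Dat (349/125:ℝ) (1/2:ℝ) (239/5000:ℝ) s1 s2 s3 s4 sg p1 p2 p3 p4 mu t1 t2 t3)
    (h0 : (21/200:ℝ) ≤ s1) (h1 : (9/100:ℝ) ≤ s2) (h2 : (2/25:ℝ) ≤ s3) (h3 : (1/50:ℝ) ≤ s4) (h4 : s4 ≤ (1/25:ℝ)) (h5 : t3 ≤ (13/100:ℝ)) : False := by
  obtain ⟨o1, o2, o3, o4, o5, o6, o7, o8, o9, o10, o11, o12, o13, o14, o15, o16, o17, o18, o19⟩ := D.lin
  have g0 : s1 ≤ (39789/250000:ℝ) := by have := (D.c1.glob (by norm_num)).2.2.2; linarith only [this]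
  have L1 : (21/200:ℝ) ≤ s1 := by linarith only [o1, o2, o3, o5, o7, o8, o9, o11, o12, o13, o15, o16, o17, o18, o19, o4, g0, h0, h1, h2, h3, h4, h5]
  have U1 : s1 ≤ (39789/250000:ℝ) := by linarith only [o1, o2, o3, o5, o7, o8, o9, o11, o12, o13, o15, o16, o17, o18, o19, o4, g0, h0, h1, h2, h3, h4, h5]
  have L2 : (9/100:ℝ) ≤ s2 := by linarith only [o1, o2, o3, o5, o7, o8, o9, o11, o12, o13, o15, o16, o17, o18, o19, o4, g0, h0, h1, h2, h3, h4, h5]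
  have U2 : s2 ≤ (39789/250000:ℝ) := by linarith only [o1, o2, o3, o5, o7, o8, o9, o11, o12, o13, o15, o16, o17, o18, o19, o4, g0, h0, h1, h2, h3, h4, h5]
  have L3 : (2/25:ℝ) ≤ s3 := by linarith only [o1, o2, o3, o5, o7, o8, o9, o11, o12, o13, o15, o16, o17, o18, o19, o4, g0, h0, h1, h2, h3, h4, h5]
  have U3 : s3 ≤ (39789/250000:ℝ) := by linarith only [o1, o2, o3, o5, o7, o8, o9, o11, o12, o13, o15, o16, o17, o18, o19, o4, g0, h0, h1, h2, h3, h4, h5]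
  have L4 : (1/50:ℝ) ≤ s4 := by linarith only [o1, o2, o3, o5, o7, o8, o9, o11, o12, o13, o15, o16, o17, o18, o19, o4, g0, h0, h1, h2, h3, h4, h5]
  have U4 : s4 ≤ (1/25:ℝ) := by linarith only [o1, o2, o3, o5, o7, o8, o9, o11, o12, o13, o15, o16, o17, o18, o19, o4, g0, h0, h1, h2, h3, h4, h5]
  have A0 : (0:ℝ) ≤ t1 := by linarith only [o1, o2, o3, o5, o7, o8, o9, o11, o12, o13, o15, o16, o17, o18, o19, o4, g0, h0, h1, h2, h3, h4, h5]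
  have B0 : t1 ≤ (39789/250000:ℝ) := by linarith only [o1, o2, o3, o5, o7, o8, o9, o11, o12, o13, o15, o16, o17, o18, o19, o4, g0, h0, h1, h2, h3, h4, h5]
  have A1 : (0:ℝ) ≤ t2 := by linarith only [o1, o2, o3, o5, o7, o8, o9, o11, o12, o13, o15, o16, o17, o18, o19, o4, g0, h0, h1, h2, h3, h4, h5]
  have B1 : t2 ≤ (39789/250000:ℝ) := by linarith only [o1, o2, o3, o5, o7, o8, o9, o11, o12, o13, o15, o16, o17, o18, o19, o4, g0, h0, h1, h2, h3, h4, h5]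
  have A2 : (0:ℝ) ≤ t3 := by linarith only [o1, o2, o3, o5, o7, o8, o9, o11, o12, o13, o15, o16, o17, o18, o19, o4, g0, h0, h1, h2, h3, h4, h5]
  have B2 : t3 ≤ (13/100:ℝ) := by linarith only [o1, o2, o3, o5, o7, o8, o9, o11, o12, o13, o15, o16, o17, o18, o19, o4, g0, h0, h1, h2, h3, h4, h5]
  have m0 := D.tcut _ _ _ _ _ _ (31/100:ℝ) A0 B0 A1 B1 A2 B2
  have m1 := D.tcut _ _ _ _ _ _ (33/100:ℝ) A0 B0 A1 B1 A2 B2
  have u0 := D.mlb _ _ _ (19/400:ℝ) L1 L2 L3 (by norm_num) (by norm_num) (by norm_num) (by norm_num) (by norm_num)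
  have u1 := D.sqc _ (1:ℝ) u0 (by linarith only [o1, o2, o3, o5, o7, o8, o9, o11, o12, o13, o15, o16, o17, o18, o19, o4, g0, h0, h1, h2, h3, h4, h5])
  have u2 := D.rat _ _ rt6_0 U4
  have l1 := ln6_9 D.c1 L1 U1
  have l2 := ln6_10 D.c2 L2 U2
  have l3 := ln6_37 D.c3 L3 U3
  have l4 := ln6_36 D.c4 L4 U4
  obtain ⟨g11, g12, g13, -⟩ := D.c1.glob (by norm_num)
  obtain ⟨g21, g22, g23, -⟩ := D.c2.glob (by norm_num)
  obtain ⟨g31, g32, g33, -⟩ := D.c3.glob (by norm_num)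
  obtain ⟨g41, g42, g43, -⟩ := D.c4.glob (by norm_num)
  linarith

lemma rt6_6 (p s : ℝ) (h : CellP (349/125:ℝ) p s) (h2 : s ≤ (2/25:ℝ)) : s ≤ (3401/10000:ℝ) * p := by
  obtain ⟨g1, g2, g3, g4⟩ := h.glob (by norm_num)
  rcases h.pieces (by norm_num) (by norm_num) with ⟨a, b, c, d⟩ | ⟨a, b, c, d⟩ | ⟨a, b, c, d⟩ | ⟨a, b, c, d⟩ | ⟨a, b, c⟩ | ⟨a, b, c⟩ | ⟨a, b, c⟩ | ⟨a, b, c⟩ | ⟨a, b, c⟩ | ⟨a, b, c⟩ | ⟨a, b, c⟩ | a <;> linarith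

lemma leaf6_28 {s1 s2 s3 s4 sg p1 p2 p3 p4 mu t1 t2 t3 : ℝ}
    (D : Dat (349/125:ℝ) (1/2:ℝ) (239/5000:ℝ) s1 s2 s3 s4 sg p1 p2 p3 p4 mu t1 t2 t3)
    (h0 : s2 ≤ (1/10:ℝ)) (h1 : (1/25:ℝ) ≤ s4) (h2 : s4 ≤ (2/25:ℝ)) (h3 : t3 ≤ (13/100:ℝ)) : False := by
  obtain ⟨o1, o2, o3, o4, o5, o6, o7, o8, o9, o10, o11, o12, o13, o14, o15, o16, o17, o18, o19⟩ := D.lin
  have g0 : s1 ≤ (39789/250000:ℝ) := by have := (D.c1.glob (by norm_num)).2.2.2; linarith only [this]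
  have L1 : (1/25:ℝ) ≤ s1 := by linarith only [o1, o2, o3, o5, o7, o8, o9, o11, o12, o13, o15, o16, o17, o18, o19, o4, g0, h0, h1, h2, h3]
  have U1 : s1 ≤ (39789/250000:ℝ) := by linarith only [o1, o2, o3, o5, o7, o8, o9, o11, o12, o13, o15, o16, o17, o18, o19, o4, g0, h0, h1, h2, h3]
  have L2 : (1/25:ℝ) ≤ s2 := by linarith only [o1, o2, o3, o5, o7, o8, o9, o11, o12, o13, o15, o16, o17, o18, o19, o4, g0, h0, h1, h2, h3]
  have U2 : s2 ≤ (1/10:ℝ) := by linarith only [o1, o2, o3, o5, o7, o8, o9, o11, o12, o13, o15, o16, o17, o18, o19, o4, g0, h0, h1, h2, h3]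
  have L3 : (1/25:ℝ) ≤ s3 := by linarith only [o1, o2, o3, o5, o7, o8, o9, o11, o12, o13, o15, o16, o17, o18, o19, o4, g0, h0, h1, h2, h3]
  have U3 : s3 ≤ (1/10:ℝ) := by linarith only [o1, o2, o3, o5, o7, o8, o9, o11, o12, o13, o15, o16, o17, o18, o19, o4, g0, h0, h1, h2, h3]
  have L4 : (1/25:ℝ) ≤ s4 := by linarith only [o1, o2, o3, o5, o7, o8, o9, o11, o12, o13, o15, o16, o17, o18, o19, o4, g0, h0, h1, h2, h3]
  have U4 : s4 ≤ (2/25:ℝ) := by linarith only [o1, o2, o3, o5, o7, o8, o9, o11, o12, o13, o15, o16, o17, o18, o19, o4, g0, h0, h1, h2, h3]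
  have A0 : (0:ℝ) ≤ t1 := by linarith only [o1, o2, o3, o5, o7, o8, o9, o11, o12, o13, o15, o16, o17, o18, o19, o4, g0, h0, h1, h2, h3]
  have B0 : t1 ≤ (39789/250000:ℝ) := by linarith only [o1, o2, o3, o5, o7, o8, o9, o11, o12, o13, o15, o16, o17, o18, o19, o4, g0, h0, h1, h2, h3]
  have A1 : (0:ℝ) ≤ t2 := by linarith only [o1, o2, o3, o5, o7, o8, o9, o11, o12, o13, o15, o16, o17, o18, o19, o4, g0, h0, h1, h2, h3]
  have B1 : t2 ≤ (1/10:ℝ) := by linarith only [o1, o2, o3, o5, o7, o8, o9, o11, o12, o13, o15, o16, o17, o18, o19, o4, g0, h0, h1, h2, h3]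
  have A2 : (0:ℝ) ≤ t3 := by linarith only [o1, o2, o3, o5, o7, o8, o9, o11, o12, o13, o15, o16, o17, o18, o19, o4, g0, h0, h1, h2, h3]
  have B2 : t3 ≤ (1/10:ℝ) := by linarith only [o1, o2, o3, o5, o7, o8, o9, o11, o12, o13, o15, o16, o17, o18, o19, o4, g0, h0, h1, h2, h3]
  have m0 := D.tcut _ _ _ _ _ _ (31/100:ℝ) A0 B0 A1 B1 A2 B2
  have m1 := D.tcut _ _ _ _ _ _ (33/100:ℝ) A0 B0 A1 B1 A2 B2
  have u0 := D.mlb _ _ _ (1/50:ℝ) L1 L2 L3 (by norm_num) (by norm_num) (by norm_num) (by norm_num) (by norm_num)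
  have u1 := D.sqc _ (1:ℝ) u0 (by linarith only [o1, o2, o3, o5, o7, o8, o9, o11, o12, o13, o15, o16, o17, o18, o19, o4, g0, h0, h1, h2, h3])
  have u2 := D.rat _ _ rt6_6 U4
  have l1 := ln6_2 D.c1 L1 U1
  have l2 := ln6_17 D.c2 L2 U2
  have l3 := ln6_17 D.c3 L3 U3
  have l4 := ln6_35 D.c4 L4 U4
  obtain ⟨g11, g12, g13, -⟩ := D.c1.glob (by norm_num)
  obtain ⟨g21, g22, g23, -⟩ := D.c2.glob (by norm_num)
  obtain ⟨g31, g32, g33, -⟩ := D.c3.glob (by norm_num)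
  obtain ⟨g41, g42, g43, -⟩ := D.c4.glob (by norm_num)
  linarith

lemma leaf6_29 {s1 s2 s3 s4 sg p1 p2 p3 p4 mu t1 t2 t3 : ℝ}
    (D : Dat (349/125:ℝ) (1/2:ℝ) (239/5000:ℝ) s1 s2 s3 s4 sg p1 p2 p3 p4 mu t1 t2 t3)
    (h0 : (1/10:ℝ) ≤ s2) (h1 : (1/25:ℝ) ≤ s4) (h2 : s4 ≤ (2/25:ℝ)) (h3 : t3 ≤ (13/100:ℝ)) : False := by
  obtain ⟨o1, o2, o3, o4, o5, o6, o7, o8, o9, o10, o11, o12, o13, o14, o15, o16, o17, o18, o19⟩ := D.lin
  have g0 : s1 ≤ (39789/250000:ℝ) := by have := (D.c1.glob (by norm_num)).2.2.2; linarith only [this]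
  have L1 : (1/10:ℝ) ≤ s1 := by linarith only [o1, o2, o3, o5, o7, o8, o9, o11, o12, o13, o15, o16, o17, o18, o19, o4, g0, h0, h1, h2, h3]
  have U1 : s1 ≤ (39789/250000:ℝ) := by linarith only [o1, o2, o3, o5, o7, o8, o9, o11, o12, o13, o15, o16, o17, o18, o19, o4, g0, h0, h1, h2, h3]
  have L2 : (1/10:ℝ) ≤ s2 := by linarith only [o1, o2, o3, o5, o7, o8, o9, o11, o12, o13, o15, o16, o17, o18, o19, o4, g0, h0, h1, h2, h3]
  have U2 : s2 ≤ (39789/250000:ℝ) := by linarith only [o1, o2, o3, o5, o7, o8, o9, o11, o12, o13, o15, o16, o17, o18, o19, o4, g0, h0, h1, h2, h3]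
  have L3 : (1/25:ℝ) ≤ s3 := by linarith only [o1, o2, o3, o5, o7, o8, o9, o11, o12, o13, o15, o16, o17, o18, o19, o4, g0, h0, h1, h2, h3]
  have U3 : s3 ≤ (39789/250000:ℝ) := by linarith only [o1, o2, o3, o5, o7, o8, o9, o11, o12, o13, o15, o16, o17, o18, o19, o4, g0, h0, h1, h2, h3]
  have L4 : (1/25:ℝ) ≤ s4 := by linarith only [o1, o2, o3, o5, o7, o8, o9, o11, o12, o13, o15, o16, o17, o18, o19, o4, g0, h0, h1, h2, h3]
  have U4 : s4 ≤ (2/25:ℝ) := by linarith only [o1, o2, o3, o5, o7, o8, o9, o11, o12, o13, o15, o16, o17, o18, o19, o4, g0, h0, h1, h2, h3]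
  have A0 : (0:ℝ) ≤ t1 := by linarith only [o1, o2, o3, o5, o7, o8, o9, o11, o12, o13, o15, o16, o17, o18, o19, o4, g0, h0, h1, h2, h3]
  have B0 : t1 ≤ (39789/250000:ℝ) := by linarith only [o1, o2, o3, o5, o7, o8, o9, o11, o12, o13, o15, o16, o17, o18, o19, o4, g0, h0, h1, h2, h3]
  have A1 : (0:ℝ) ≤ t2 := by linarith only [o1, o2, o3, o5, o7, o8, o9, o11, o12, o13, o15, o16, o17, o18, o19, o4, g0, h0, h1, h2, h3]
  have B1 : t2 ≤ (39789/250000:ℝ) := by linarith only [o1, o2, o3, o5, o7, o8, o9, o11, o12, o13, o15, o16, o17, o18, o19, o4, g0, h0, h1, h2, h3]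
  have A2 : (0:ℝ) ≤ t3 := by linarith only [o1, o2, o3, o5, o7, o8, o9, o11, o12, o13, o15, o16, o17, o18, o19, o4, g0, h0, h1, h2, h3]
  have B2 : t3 ≤ (13/100:ℝ) := by linarith only [o1, o2, o3, o5, o7, o8, o9, o11, o12, o13, o15, o16, o17, o18, o19, o4, g0, h0, h1, h2, h3]
  have m0 := D.tcut _ _ _ _ _ _ (31/100:ℝ) A0 B0 A1 B1 A2 B2
  have m1 := D.tcut _ _ _ _ _ _ (33/100:ℝ) A0 B0 A1 B1 A2 B2
  have u0 := D.mlb _ _ _ (3/80:ℝ) L1 L2 L3 (by norm_num) (by norm_num) (by norm_num) (by norm_num) (by norm_num)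
  have u1 := D.sqc _ (1:ℝ) u0 (by linarith only [o1, o2, o3, o5, o7, o8, o9, o11, o12, o13, o15, o16, o17, o18, o19, o4, g0, h0, h1, h2, h3])
  have u2 := D.rat _ _ rt6_6 U4
  have l1 := ln6_19 D.c1 L1 U1
  have l2 := ln6_19 D.c2 L2 U2
  have l3 := ln6_2 D.c3 L3 U3
  have l4 := ln6_35 D.c4 L4 U4
  obtain ⟨g11, g12, g13, -⟩ := D.c1.glob (by norm_num)
  obtain ⟨g21, g22, g23, -⟩ := D.c2.glob (by norm_num)
  obtain ⟨g31, g32, g33, -⟩ := D.c3.glob (by norm_num)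
  obtain ⟨g41, g42, g43, -⟩ := D.c4.glob (by norm_num)
  linarith

lemma ln6_38 {p s : ℝ} (h : CellP (349/125:ℝ) p s) (h1 : (0:ℝ) ≤ s) (h2 : s ≤ (2/25:ℝ)) :
    (147/50:ℝ) * s + (-1/100000:ℝ) ≤ p := by
  obtain ⟨g1, g2, g3, g4⟩ := h.glob (by norm_num)
  rcases h.pieces (by norm_num) (by norm_num) with ⟨a, b, c, d⟩ | ⟨a, b, c, d⟩ | ⟨a, b, c, d⟩ | ⟨a, b, c, d⟩ | ⟨a, b, c⟩ | ⟨a, b, c⟩ | ⟨a, b, c⟩ | ⟨a, b, c⟩ | ⟨a, b, c⟩ | ⟨a, b, c⟩ | ⟨a, b, c⟩ | a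
  · linarith
  · linarith
  · linarith
  · linarith
  · linarith
  · linarith
  · linarith
  · linarith
  · linarith
  · linarith
  · linarith
  · linarith

lemma leaf6_30 {s1 s2 s3 s4 sg p1 p2 p3 p4 mu t1 t2 t3 : ℝ}
    (D : Dat (349/125:ℝ) (1/2:ℝ) (239/5000:ℝ) s1 s2 s3 s4 sg p1 p2 p3 p4 mu t1 t2 t3)
    (h0 : s4 ≤ (2/25:ℝ)) (h1 : (13/100:ℝ) ≤ t3) : False := by
  obtain ⟨o1, o2, o3, o4, o5, o6, o7, o8, o9, o10, o11, o12, o13, o14, o15, o16, o17, o18, o19⟩ := D.lin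
  have g0 : s1 ≤ (39789/250000:ℝ) := by have := (D.c1.glob (by norm_num)).2.2.2; linarith only [this]
  have L1 : (0:ℝ) ≤ s1 := by linarith only [o1, o2, o3, o5, o7, o8, o9, o11, o12, o13, o15, o16, o17, o18, o19, o4, g0, h0, h1]
  have U1 : s1 ≤ (39789/250000:ℝ) := by linarith only [o1, o2, o3, o5, o7, o8, o9, o11, o12, o13, o15, o16, o17, o18, o19, o4, g0, h0, h1]
  have L2 : (0:ℝ) ≤ s2 := by linarith only [o1, o2, o3, o5, o7, o8, o9, o11, o12, o13, o15, o16, o17, o18, o19, o4, g0, h0, h1]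
  have U2 : s2 ≤ (39789/250000:ℝ) := by linarith only [o1, o2, o3, o5, o7, o8, o9, o11, o12, o13, o15, o16, o17, o18, o19, o4, g0, h0, h1]
  have L3 : (0:ℝ) ≤ s3 := by linarith only [o1, o2, o3, o5, o7, o8, o9, o11, o12, o13, o15, o16, o17, o18, o19, o4, g0, h0, h1]
  have U3 : s3 ≤ (39789/250000:ℝ) := by linarith only [o1, o2, o3, o5, o7, o8, o9, o11, o12, o13, o15, o16, o17, o18, o19, o4, g0, h0, h1]
  have L4 : (0:ℝ) ≤ s4 := by linarith only [o1, o2, o3, o5, o7, o8, o9, o11, o12, o13, o15, o16, o17, o18, o19, o4, g0, h0, h1]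
  have U4 : s4 ≤ (2/25:ℝ) := by linarith only [o1, o2, o3, o5, o7, o8, o9, o11, o12, o13, o15, o16, o17, o18, o19, o4, g0, h0, h1]
  have A0 : (0:ℝ) ≤ t1 := by linarith only [o1, o2, o3, o5, o7, o8, o9, o11, o12, o13, o15, o16, o17, o18, o19, o4, g0, h0, h1]
  have B0 : t1 ≤ (39789/250000:ℝ) := by linarith only [o1, o2, o3, o5, o7, o8, o9, o11, o12, o13, o15, o16, o17, o18, o19, o4, g0, h0, h1]
  have A1 : (0:ℝ) ≤ t2 := by linarith only [o1, o2, o3, o5, o7, o8, o9, o11, o12, o13, o15, o16, o17, o18, o19, o4, g0, h0, h1]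
  have B1 : t2 ≤ (39789/250000:ℝ) := by linarith only [o1, o2, o3, o5, o7, o8, o9, o11, o12, o13, o15, o16, o17, o18, o19, o4, g0, h0, h1]
  have A2 : (13/100:ℝ) ≤ t3 := by linarith only [o1, o2, o3, o5, o7, o8, o9, o11, o12, o13, o15, o16, o17, o18, o19, o4, g0, h0, h1]
  have B2 : t3 ≤ (39789/250000:ℝ) := by linarith only [o1, o2, o3, o5, o7, o8, o9, o11, o12, o13, o15, o16, o17, o18, o19, o4, g0, h0, h1]
  have m0 := D.tcut _ _ _ _ _ _ (31/100:ℝ) A0 B0 A1 B1 A2 B2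
  have m1 := D.tcut _ _ _ _ _ _ (33/100:ℝ) A0 B0 A1 B1 A2 B2
  have u0 : (0:ℝ) ≤ mu := by linarith only [o1, o2, o3, o5, o7, o8, o9, o11, o12, o13, o15, o16, o17, o18, o19, o4, g0, h0, h1]
  have u1 := D.sqc _ (1:ℝ) u0 (by linarith only [o1, o2, o3, o5, o7, o8, o9, o11, o12, o13, o15, o16, o17, o18, o19, o4, g0, h0, h1])
  have u2 := D.rat _ _ rt6_6 U4
  have l1 := ln6_0 D.c1 L1 U1
  have l2 := ln6_0 D.c2 L2 U2
  have l3 := ln6_0 D.c3 L3 U3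
  have l4 := ln6_38 D.c4 L4 U4
  obtain ⟨g11, g12, g13, -⟩ := D.c1.glob (by norm_num)
  obtain ⟨g21, g22, g23, -⟩ := D.c2.glob (by norm_num)
  obtain ⟨g31, g32, g33, -⟩ := D.c3.glob (by norm_num)
  obtain ⟨g41, g42, g43, -⟩ := D.c4.glob (by norm_num)
  linarith

lemma rt6_7 (p s : ℝ) (h : CellP (349/125:ℝ) p s) (h2 : s ≤ (39789/250000:ℝ)) : s ≤ (4029/10000:ℝ) * p := by
  obtain ⟨g1, g2, g3, g4⟩ := h.glob (by norm_num)
  rcases h.pieces (by norm_num) (by norm_num) with ⟨a, b, c, d⟩ | ⟨a, b, c, d⟩ | ⟨a, b, c, d⟩ | ⟨a, b, c, d⟩ | ⟨a, b, c⟩ | ⟨a, b, c⟩ | ⟨a, b, c⟩ | ⟨a, b, c⟩ | ⟨a, b, c⟩ | ⟨a, b, c⟩ | ⟨a, b, c⟩ | a <;> linarith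

lemma leaf6_31 {s1 s2 s3 s4 sg p1 p2 p3 p4 mu t1 t2 t3 : ℝ}
    (D : Dat (349/125:ℝ) (1/2:ℝ) (239/5000:ℝ) s1 s2 s3 s4 sg p1 p2 p3 p4 mu t1 t2 t3)
    (h0 : (2/25:ℝ) ≤ s4) : False := by
  obtain ⟨o1, o2, o3, o4, o5, o6, o7, o8, o9, o10, o11, o12, o13, o14, o15, o16, o17, o18, o19⟩ := D.lin
  have g0 : s1 ≤ (39789/250000:ℝ) := by have := (D.c1.glob (by norm_num)).2.2.2; linarith only [this]
  have L1 : (2/25:ℝ) ≤ s1 := by linarith only [o1, o2, o3, o5, o7, o8, o9, o11, o12, o13, o15, o16, o17, o18, o19, o4, g0, h0]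
  have U1 : s1 ≤ (39789/250000:ℝ) := by linarith only [o1, o2, o3, o5, o7, o8, o9, o11, o12, o13, o15, o16, o17, o18, o19, o4, g0, h0]
  have L2 : (2/25:ℝ) ≤ s2 := by linarith only [o1, o2, o3, o5, o7, o8, o9, o11, o12, o13, o15, o16, o17, o18, o19, o4, g0, h0]
  have U2 : s2 ≤ (39789/250000:ℝ) := by linarith only [o1, o2, o3, o5, o7, o8, o9, o11, o12, o13, o15, o16, o17, o18, o19, o4, g0, h0]
  have L3 : (2/25:ℝ) ≤ s3 := by linarith only [o1, o2, o3, o5, o7, o8, o9, o11, o12, o13, o15, o16, o17, o18, o19, o4, g0, h0]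
  have U3 : s3 ≤ (39789/250000:ℝ) := by linarith only [o1, o2, o3, o5, o7, o8, o9, o11, o12, o13, o15, o16, o17, o18, o19, o4, g0, h0]
  have L4 : (2/25:ℝ) ≤ s4 := by linarith only [o1, o2, o3, o5, o7, o8, o9, o11, o12, o13, o15, o16, o17, o18, o19, o4, g0, h0]
  have U4 : s4 ≤ (39789/250000:ℝ) := by linarith only [o1, o2, o3, o5, o7, o8, o9, o11, o12, o13, o15, o16, o17, o18, o19, o4, g0, h0]
  have u0 := D.mlb _ _ _ (1/25:ℝ) L1 L2 L3 (by norm_num) (by norm_num) (by norm_num) (by norm_num) (by norm_num)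
  have u1 := D.sqc _ (1:ℝ) u0 (by linarith only [o1, o2, o3, o5, o7, o8, o9, o11, o12, o13, o15, o16, o17, o18, o19, o4, g0, h0])
  have u2 := D.rat _ _ rt6_7 U4
  have l1 := ln6_37 D.c1 L1 U1
  have l2 := ln6_37 D.c2 L2 U2
  have l3 := ln6_37 D.c3 L3 U3
  have l4 := ln6_37 D.c4 L4 U4
  obtain ⟨g11, g12, g13, -⟩ := D.c1.glob (by norm_num)
  obtain ⟨g21, g22, g23, -⟩ := D.c2.glob (by norm_num)
  obtain ⟨g31, g32, g33, -⟩ := D.c3.glob (by norm_num)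
  obtain ⟨g41, g42, g43, -⟩ := D.c4.glob (by norm_num)
  linarith

theorem num6 {s1 s2 s3 s4 sg p1 p2 p3 p4 mu t1 t2 t3 : ℝ}
    (D : Dat (349/125:ℝ) (1/2:ℝ) (239/5000:ℝ) s1 s2 s3 s4 sg p1 p2 p3 p4 mu t1 t2 t3) : False := by
  rcases le_total s4 (2/25:ℝ) with r1 | r1
  · rcases le_total t3 (13/100:ℝ) with r2 | r2
    · rcases le_total s4 (1/25:ℝ) with r3 | r3
      · rcases le_total s3 (1/25:ℝ) with r4 | r4
        · exact leaf6_0 D (by assumption) (by assumption) (by assumption)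
        rcases le_total s2 (7/100:ℝ) with r5 | r5
        · exact leaf6_1 D (by assumption) (by assumption) (by assumption) (by assumption)
        rcases le_total s2 (9/100:ℝ) with r6 | r6
        · exact leaf6_2 D (by assumption) (by assumption) (by assumption) (by assumption) (by assumption)
        rcases le_total s1 (21/200:ℝ) with r7 | r7
        · exact leaf6_3 D (by assumption) (by assumption) (by assumption) (by assumption) (by assumption)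
        rcases le_total s4 (1/50:ℝ) with r8 | r8
        · rcases le_total t1 (2/25:ℝ) with r9 | r9
          · exact leaf6_4 D (by assumption) (by assumption) (by assumption) (by assumption) (by assumption) (by assumption)
          rcases le_total s1 (11/100:ℝ) with r10 | r10
          · exact leaf6_5 D (by assumption) (by assumption) (by assumption) (by assumption) (by assumption) (by assumption) (by assumption)
          rcases le_total t2 (2/25:ℝ) with r11 | r11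
          · rcases le_total s4 (1/100:ℝ) with r12 | r12
            · exact leaf6_6 D (by assumption) (by assumption) (by assumption) (by assumption) (by assumption) (by assumption) (by assumption)
            rcases le_total s3 (1/10:ℝ) with r13 | r13
            · exact leaf6_7 D (by assumption) (by assumption) (by assumption) (by assumption) (by assumption) (by assumption) (by assumption) (by assumption) (by assumption)
            exact leaf6_8 D (by assumption) (by assumption) (by assumption) (by assumption) (by assumption) (by assumption) (by assumption) (by assumption)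
          rcases le_total s4 (1/200:ℝ) with r14 | r14
          · rcases le_total t1 (11/100:ℝ) with r15 | r15
            · exact leaf6_9 D (by assumption) (by assumption) (by assumption) (by assumption) (by assumption) (by assumption) (by assumption) (by assumption)
            exact leaf6_10 D (by assumption) (by assumption) (by assumption) (by assumption) (by assumption) (by assumption) (by assumption)
          rcases le_total mu (1/10:ℝ) with r16 | r16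
          · rcases le_total s3 (7/100:ℝ) with r17 | r17
            · exact leaf6_11 D (by assumption) (by assumption) (by assumption) (by assumption) (by assumption) (by assumption) (by assumption) (by assumption) (by assumption) (by assumption)
            rcases le_total t3 (3/50:ℝ) with r18 | r18
            · exact leaf6_12 D (by assumption) (by assumption) (by assumption) (by assumption) (by assumption) (by assumption) (by assumption) (by assumption) (by assumption)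
            rcases le_total s1 (27/200:ℝ) with r19 | r19
            · rcases le_total s3 (17/200:ℝ) with r20 | r20
              · exact leaf6_13 D (by assumption) (by assumption) (by assumption) (by assumption) (by assumption) (by assumption) (by assumption) (by assumption) (by assumption) (by assumption) (by assumption) (by assumption)
              rcases le_total mu (9/100:ℝ) with r21 | r21
              · rcases le_total t3 (7/100:ℝ) with r22 | r22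
                · exact leaf6_14 D (by assumption) (by assumption) (by assumption) (by assumption) (by assumption) (by assumption) (by assumption) (by assumption) (by assumption) (by assumption) (by assumption)
                rcases le_total s4 (1/80:ℝ) with r23 | r23
                · rcases le_total s3 (9/100:ℝ) with r24 | r24
                  · exact leaf6_15 D (by assumption) (by assumption) (by assumption) (by assumption) (by assumption) (by assumption) (by assumption) (by assumption) (by assumption) (by assumption) (by assumption) (by assumption)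
                  rcases le_total s2 (1/10:ℝ) with r25 | r25
                  · exact leaf6_16 D (by assumption) (by assumption) (by assumption) (by assumption) (by assumption) (by assumption) (by assumption) (by assumption) (by assumption) (by assumption) (by assumption) (by assumption)
                  rcases le_total s4 (1/100:ℝ) with r26 | r26
                  · rcases le_total s4 (3/400:ℝ) with r27 | r27
                    · exact leaf6_17 D (by assumption) (by assumption) (by assumption) (by assumption) (by assumption) (by assumption) (by assumption) (by assumption) (by assumption) (by assumption) (by assumption)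
                    rcases le_total t1 (11/100:ℝ) with r28 | r28
                    · exact leaf6_18 D (by assumption) (by assumption) (by assumption) (by assumption) (by assumption) (by assumption) (by assumption) (by assumption) (by assumption) (by assumption) (by assumption) (by assumption)
                    exact leaf6_19 D (by assumption) (by assumption) (by assumption) (by assumption) (by assumption) (by assumption) (by assumption) (by assumption) (by assumption) (by assumption) (by assumption)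
                  rcases le_total t1 (11/100:ℝ) with r29 | r29
                  · exact leaf6_20 D (by assumption) (by assumption) (by assumption) (by assumption) (by assumption) (by assumption) (by assumption) (by assumption) (by assumption) (by assumption) (by assumption) (by assumption)
                  exact leaf6_21 D (by assumption) (by assumption) (by assumption) (by assumption) (by assumption) (by assumption) (by assumption) (by assumption) (by assumption) (by assumption) (by assumption)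
                exact leaf6_22 D (by assumption) (by assumption) (by assumption) (by assumption) (by assumption) (by assumption) (by assumption) (by assumption) (by assumption) (by assumption) (by assumption)
              exact leaf6_23 D (by assumption) (by assumption) (by assumption) (by assumption) (by assumption) (by assumption) (by assumption) (by assumption) (by assumption) (by assumption) (by assumption) (by assumption)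
            exact leaf6_24 D (by assumption) (by assumption) (by assumption) (by assumption) (by assumption) (by assumption) (by assumption) (by assumption) (by assumption) (by assumption)
          exact leaf6_25 D (by assumption) (by assumption) (by assumption) (by assumption) (by assumption) (by assumption) (by assumption) (by assumption) (by assumption)
        rcases le_total s3 (2/25:ℝ) with r30 | r30
        · exact leaf6_26 D (by assumption) (by assumption) (by assumption) (by assumption) (by assumption) (by assumption) (by assumption)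
        exact leaf6_27 D (by assumption) (by assumption) (by assumption) (by assumption) (by assumption) (by assumption)
      rcases le_total s2 (1/10:ℝ) with r31 | r31
      · exact leaf6_28 D (by assumption) (by assumption) (by assumption) (by assumption)
      exact leaf6_29 D (by assumption) (by assumption) (by assumption) (by assumption)
    exact leaf6_30 D (by assumption) (by assumption)
  exact leaf6_31 D (by assumption)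

end Vale.Agent.P226
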