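import Vale.Agent.P226.N4
import Vale.Agent.P226.N5
import Vale.Agent.P226.N6

/-! Assembly of the proof of the propeller inequality. -/

open MeasureTheory ProbabilityTheory Set Filter Topology Real
open scoped RealInnerProductSpace ENNReal

namespace Vale.Agent.P226

lemma det_lb {t1 t2 t3 x y w u1 u2 u3 D : ℝ} (hx : 0 ≤ x) (hy : 0 ≤ y) (hw : 0 ≤ w)
    (b1 : x + y ≤ t1) (b2 : x + w ≤ t2) (b3 : y + w ≤ t3) (c2 : t3 ≤ 2 * t2) (c1 : t3 ≤ 2 * t1)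
    (l1 : u1 ≤ t1) (l2 : u2 ≤ t2) (l3 : u3 ≤ t3) (o : u2 ≤ u1) (p2 : 0 ≤ u2) (p3 : 0 ≤ u3)
    (d1 : D ≤ u1 * u2 + u1 * u3 + u2 * u3) (d2 : D ≤ u3 * (u1 + 3 * u2)) :
    D ≤ (t1 + x + y - w) * (t2 + x + w - y) + (t1 + x + y - w) * (t3 + y + w - x)
      + (t2 + x + w - y) * (t3 + y + w - x) := by
  have e : (t1 + x + y - w) * (t2 + x + w - y) + (t1 + x + y - w) * (t3 + y + w - x)
      + (t2 + x + w - y) * (t3 + y + w - x) = (t1 * t2 + t1 * t3 + t2 * t3 + x * (2 * t3 - x))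
      + y * (2 * t2 - y) + w * (2 * t1 - w) + 2 * (x * y + x * w + y * w) := by ring
  have h1 : 0 ≤ y * (2 * t2 - y) := mul_nonneg hy (by linarith)
  have h2 : 0 ≤ w * (2 * t1 - w) := mul_nonneg hw (by linarith)
  have h3 : 0 ≤ x * y + x * w + y * w := by positivity
  have h4 : D ≤ t1 * t2 + t1 * t3 + t2 * t3 + x * (2 * t3 - x) := by
    have q1 : u1 * u2 ≤ t1 * t2 := mul_le_mul l1 l2 p2 (by linarith)
    have q2 : u1 * u3 ≤ t1 * t3 := mul_le_mul l1 l3 p3 (by linarith)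
    have q3 : u2 * u3 ≤ t2 * t3 := mul_le_mul l2 l3 p3 (by linarith)
    rcases le_total x (2 * t3) with h | h
    · have := mul_nonneg hx (sub_nonneg.2 h); linarith
    · have q4 : ∀ m, x ≤ m → m * m ≤ t1 * t2 → u2 ≤ m →
          D ≤ t1 * t2 + t1 * t3 + t2 * t3 + x * (2 * t3 - x) := by
        intro m h5 h6 h7
        have q5 : u2 * u3 ≤ m * t3 := mul_le_mul h7 l3 p3 (by linarith)
        nlinarith [mul_nonneg (sub_nonneg.2 h5) (show 0 ≤ m + x - 2 * t3 by linarith)]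
      rcases le_total t1 t2 with h8 | h8
      · exact q4 t1 (by linarith) (mul_le_mul_of_nonneg_left h8 (by linarith)) (by linarith)
      · exact q4 t2 (by linarith) (mul_le_mul_of_nonneg_right h8 (by linarith)) l2
  rw [e]; linarith

lemma two_pi_cube : 62.01 ≤ 2 * π ^ 3 := by
  have h := Real.pi_gt_d6
  have : (3.141592:ℝ) ^ 3 ≤ π ^ 3 := by gcongr
  norm_num at this ⊢
  linarith

variable {E : Type} [NormedAddCommGroup E] [InnerProductSpace ℝ E] [FiniteDimensional ℝ E]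
  [MeasurableSpace E] [BorelSpace E] {ι : Type} [Fintype ι] [DecidableEq ι] {z : ι → E}

omit [BorelSpace E] in
lemma Crit.inner_omega (h : Crit z) (R : Finset ι) {j : ι} (hj : j ∈ R) :
    ⟪z j, ∑ i ∈ Rᶜ, z i⟫ ≤ 0 := by
  rw [inner_sum]
  exact Finset.sum_nonpos fun i hi => (h.neg j i fun e => (Finset.mem_compl.1 hi) (e ▸ hj)).le

omit [BorelSpace E] in
lemma Crit.sum_inner_omega (h : Crit z) (R : Finset ι) :
    -∑ j ∈ R, ⟪z j, ∑ i ∈ Rᶜ, z i⟫ ≤ ∑ i ∈ Rᶜ, ‖z i‖ ^ 2 := by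
  have hR : ∑ j ∈ R, z j = -∑ i ∈ Rᶜ, z i := by
    rw [eq_neg_iff_add_eq_zero, Finset.sum_add_sum_compl, h.sum]
  rw [← sum_inner, hR, inner_neg_left, neg_neg, real_inner_self_eq_norm_sq]
  exact h.omega_le _

omit [BorelSpace E] in
lemma Crit.inner_omega_ge (h : Crit z) (R : Finset ι) {j : ι} (hj : j ∈ R) :
    -⟪z j, ∑ i ∈ Rᶜ, z i⟫ ≤ ∑ i ∈ Rᶜ, ‖z i‖ ^ 2 := by
  refine le_trans ?_ (h.sum_inner_omega R)
  rw [← Finset.sum_neg_distrib]
  exact Finset.single_le_sum (f := fun j => -⟪z j, ∑ i ∈ Rᶜ, z i⟫)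
    (fun l hl => by linarith [h.inner_omega R hl]) hj

lemma Crit.sigma_ge (h : Crit z) (R : Finset ι) (hR' : R ≠ Finset.univ) {i1 i2 i3 : ι}
    (m1 : i1 ∈ R) (m2 : i2 ∈ R) (m3 : i3 ∈ R) (n12 : i1 ≠ i2) (n13 : i1 ≠ i3) (n23 : i2 ≠ i3)
    (o12 : ‖z i2‖ ^ 2 ≤ ‖z i1‖ ^ 2) (o23 : ‖z i3‖ ^ 2 ≤ ‖z i2‖ ^ 2) {c l1 l2 l3 θ : ℝ}
    (hc0 : 0 < c) (hc : c * ((R.card : ℝ) + 1) ^ 4 ≤ 62.01) (a1 : l1 ≤ ‖z i1‖ ^ 2)
    (a2 : l2 ≤ ‖z i2‖ ^ 2) (a3 : l3 ≤ ‖z i3‖ ^ 2) (o1 : l2 ≤ l1) (o2 : l3 ≤ l2) (o3 : 2 * θ ≤ l3)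
    (d1 : θ ≤ c * ((l1 - θ) * (l2 - θ) + (l1 - θ) * (l3 - θ) + (l2 - θ) * (l3 - θ)))
    (d2 : θ ≤ c * ((l3 - θ) * (l1 - θ + 3 * (l2 - θ)))) : θ ≤ ∑ i ∈ Rᶜ, ‖z i‖ ^ 2 := by
  by_contra hcon
  push Not at hcon
  have hσ : 0 ≤ ∑ i ∈ Rᶜ, ‖z i‖ ^ 2 := by positivity
  have hm := h.multi R hR' m1 m2 m3 n12 n13 n23 rfl rfl rfl rfl rfl rfl
  have b1 := h.beta R m1 m2 m3 n12 n13 n23
  have b2 := h.beta R m2 m1 m3 n12.symm n23 n13
  have b3 := h.beta R m3 m1 m2 n13.symm n23.symm n12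
  rw [real_inner_comm (z i1) (z i2)] at b2
  rw [real_inner_comm (z i1) (z i3), real_inner_comm (z i2) (z i3)] at b3
  have e1 := h.inner_omega_ge R m1
  have e2 := h.inner_omega_ge R m2
  have e3 := h.inner_omega_ge R m3
  have f3 := h.inner_omega R m3
  have hd := det_lb (u1 := l1 - θ) (u2 := l2 - θ) (u3 := l3 - θ) (D := θ / c)
    (by linarith [h.neg i1 i2 n12]) (by linarith [h.neg i1 i3 n13]) (by linarith [h.neg i2 i3 n23])
    b1 b2 b3 (by linarith) (by linarith) (by linarith) (by linarith) (by linarith) (by linarith)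
    (by linarith) (by linarith) (by rw [div_le_iff₀' hc0]; exact d1)
    (by rw [div_le_iff₀' hc0]; exact d2)
  have hθ : 0 < θ := by linarith
  have h1 := mul_le_mul two_pi_cube hd (by positivity) (by positivity)
  have h2 : ((R.card : ℝ) + 1) ^ 4 * ∑ i ∈ Rᶜ, ‖z i‖ ^ 2 ≤ ((R.card : ℝ) + 1) ^ 4 * θ := by
    gcongr
  have h3 : ((R.card : ℝ) + 1) ^ 4 * θ ≤ 62.01 * (θ / c) := by
    rw [mul_div_assoc', le_div_iff₀ hc0]
    nlinarith
  linarith

lemma exists_max (f : ι → ℝ) (R : Finset ι) (h : R.card < Fintype.card ι) :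
    ∃ i, i ∉ R ∧ ∀ j, j ∉ R → f j ≤ f i := by
  have hne : (Rᶜ).Nonempty := by
    rw [← Finset.card_pos, Finset.card_compl]; omega
  obtain ⟨i, hi, hm⟩ := Finset.exists_max_image Rᶜ f hne
  exact ⟨i, Finset.mem_compl.1 hi, fun j hj => hm j (Finset.mem_compl.2 hj)⟩

lemma sum_compl_insert (f : ι → ℝ) {R : Finset ι} {i : ι} (hi : i ∉ R) :
    ∑ j ∈ Rᶜ, f j = f i + ∑ j ∈ (insert i R)ᶜ, f j := by
  rw [Finset.compl_insert, Finset.add_sum_erase _ _ (Finset.mem_compl.2 hi)]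

lemma Crit.dat (h : Crit z) (hk : 4 ≤ Fintype.card ι) {K lam cM : ℝ} (hK0 : 0 ≤ K)
    (hK : K * ((Fintype.card ι - 1) / Fintype.card ι * F0) ≤ 1) {i1 i2 i3 i4 : ι}
    (n12 : i1 ≠ i2) (n13 : i1 ≠ i3) (n23 : i2 ≠ i3) (n4 : i4 ∉ ({i1, i2, i3} : Finset ι))
    (o12 : ‖z i2‖ ^ 2 ≤ ‖z i1‖ ^ 2) (o23 : ‖z i3‖ ^ 2 ≤ ‖z i2‖ ^ 2)
    (o34 : ‖z i4‖ ^ 2 ≤ ‖z i3‖ ^ 2)
    (o4 : ∀ j, j ∉ ({i1, i2, i3} : Finset ι) → ‖z j‖ ^ 2 ≤ ‖z i4‖ ^ 2)
    (hm : ∀ l1 l2 l3 m : ℝ, l1 ≤ ‖z i1‖ ^ 2 → l2 ≤ ‖z i2‖ ^ 2 → l3 ≤ ‖z i3‖ ^ 2 → l2 ≤ l1 →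
      l3 ≤ l2 → 2 * (lam * m ^ 2) ≤ l3 →
      lam * m ^ 2 ≤ cM * ((l1 - lam * m ^ 2) * (l2 - lam * m ^ 2) +
        (l1 - lam * m ^ 2) * (l3 - lam * m ^ 2) + (l2 - lam * m ^ 2) * (l3 - lam * m ^ 2)) →
      lam * m ^ 2 ≤ cM * ((l3 - lam * m ^ 2) * (l1 - lam * m ^ 2 + 3 * (l2 - lam * m ^ 2))) →
      m ≤ ∑ j ∈ (insert i4 ({i1, i2, i3} : Finset ι))ᶜ, (stdGaussian E).real (cell z j)) :
    ∃ t1 t2 t3, Dat K lam cM (‖z i1‖ ^ 2) (‖z i2‖ ^ 2) (‖z i3‖ ^ 2) (‖z i4‖ ^ 2)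
      (∑ j ∈ (insert i4 ({i1, i2, i3} : Finset ι))ᶜ, ‖z j‖ ^ 2)
      ((stdGaussian E).real (cell z i1)) ((stdGaussian E).real (cell z i2))
      ((stdGaussian E).real (cell z i3)) ((stdGaussian E).real (cell z i4))
      (∑ j ∈ (insert i4 ({i1, i2, i3} : Finset ι))ᶜ, (stdGaussian E).real (cell z j))
      t1 t2 t3 := by
  have : Nonempty ι := ⟨i1⟩
  set R : Finset ι := {i1, i2, i3} with hR
  have m1 : i1 ∈ R := by simp [hR]
  have m2 : i2 ∈ R := by simp [hR]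
  have m3 : i3 ∈ R := by simp [hR]
  have hn : i1 ∉ ({i2, i3} : Finset ι) := by simp [n12, n13]
  have sumR : ∀ f : ι → ℝ, ∑ j ∈ R, f j = f i1 + f i2 + f i3 := fun f => by
    rw [hR, Finset.sum_insert hn, Finset.sum_pair n23, add_assoc]
  have split : ∀ f : ι → ℝ, ∑ j, f j = f i1 + f i2 + f i3 + f i4 + ∑ j ∈ (insert i4 R)ᶜ, f j :=
    fun f => by rw [← Finset.sum_add_sum_compl R, sumR, sum_compl_insert f n4]; ring
  have row : ∀ j, ⟪z j, z i1⟫ + ⟪z j, z i2⟫ + ⟪z j, z i3⟫ + ⟪z j, ∑ i ∈ Rᶜ, z i⟫ = 0 := fun j => by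
    have := h.row j
    rwa [← Finset.sum_add_sum_compl R, sumR, ← inner_sum Rᶜ] at this
  have r1 := row i1
  have r2 := row i2
  have r3 := row i3
  rw [real_inner_self_eq_norm_sq] at r1 r2 r3
  rw [real_inner_comm (z i1) (z i2)] at r2
  rw [real_inner_comm (z i1) (z i3), real_inner_comm (z i2) (z i3)] at r3
  have p12 := h.neg i1 i2 n12
  have p13 := h.neg i1 i3 n13
  have p23 := h.neg i2 i3 n23
  have hcell := h.cellP hk hK
  have hmul := h.multi R (fun e => n4 (e ▸ Finset.mem_univ i4)) m1 m2 m3 n12 n13 n23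
    rfl rfl rfl rfl rfl rfl
  have hcard : R.card = 3 := by rw [hR, Finset.card_insert_of_notMem hn, Finset.card_pair n23]
  rw [hcard, sum_compl_insert (fun i => ‖z i‖ ^ 2) n4] at hmul
  have hbs := h.sum_inner_omega R
  rw [sumR, sum_compl_insert (fun i => ‖z i‖ ^ 2) n4] at hbs
  refine ⟨‖z i1‖ ^ 2 + ⟪z i1, ∑ i ∈ Rᶜ, z i⟫, ‖z i2‖ ^ 2 + ⟪z i2, ∑ i ∈ Rᶜ, z i⟫,
    ‖z i3‖ ^ 2 + ⟪z i3, ∑ i ∈ Rᶜ, z i⟫, hcell i1, hcell i2, hcell i3, hcell i4, o12, o23, o34,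
    ?_, Finset.sum_nonneg fun _ _ => measureReal_nonneg, by positivity,
    by linarith [h.inner_omega R m1], by linarith [h.inner_omega R m2],
    by linarith [h.inner_omega R m3], by linarith, by linarith, by linarith, by linarith,
    ?_, ?_, ?_, ?_, hm⟩
  · rw [← split (fun j => (stdGaussian E).real (cell z j)), h.sum_p]
  · rw [show ‖z i1‖ ^ 2 + ⟪z i1, ∑ i ∈ Rᶜ, z i⟫ = -⟪z i1, z i2⟫ + -⟪z i1, z i3⟫ by linarith,
      show ‖z i2‖ ^ 2 + ⟪z i2, ∑ i ∈ Rᶜ, z i⟫ = -⟪z i1, z i2⟫ + -⟪z i2, z i3⟫ by linarith,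
      show ‖z i3‖ ^ 2 + ⟪z i3, ∑ i ∈ Rᶜ, z i⟫ = -⟪z i1, z i3⟫ + -⟪z i2, z i3⟫ by linarith] at hmul ⊢
    have hx : 0 ≤ -⟪z i1, z i2⟫ * -⟪z i1, z i3⟫ + -⟪z i1, z i2⟫ * -⟪z i2, z i3⟫
      + -⟪z i1, z i3⟫ * -⟪z i2, z i3⟫ := by
      have := mul_pos (neg_pos.2 p12) (neg_pos.2 p13)
      have := mul_pos (neg_pos.2 p12) (neg_pos.2 p23)
      have := mul_pos (neg_pos.2 p13) (neg_pos.2 p23)
      linarith
    have h1 := mul_le_mul_of_nonneg_right two_pi_cube hx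
    have h2 : (0:ℝ) ≤ ‖z i4‖ ^ 2 + ∑ j ∈ (insert i4 R)ᶜ, ‖z j‖ ^ 2 := by positivity
    push_cast at hmul
    nlinarith
  · rw [← split (fun i => ‖z i‖ ^ 2)]
    have := F0_bounds.1
    have := h.big
    norm_num at *; linarith
  · refine le_trans (Finset.sum_le_sum fun j _ => (hcell j).two_sq hK0) ?_
    rw [← Finset.mul_sum]
    exact mul_le_mul_of_nonneg_left (Finset.sum_sq_le_sq_sum_of_nonneg
      fun _ _ => measureReal_nonneg) (by norm_num)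
  · intro u ρ hρ hu
    rw [Finset.mul_sum]
    refine Finset.sum_le_sum fun j hj => hρ _ _ (hcell j) ((o4 j fun hj' => ?_).trans hu)
    exact Finset.mem_compl.1 hj (Finset.mem_insert_of_mem hj')

lemma Crit.false (h : Crit z) (hk : 4 ≤ Fintype.card ι) : False := by
  obtain ⟨i1, -, x1⟩ := exists_max (fun i => ‖z i‖ ^ 2) ∅ (by simp; omega)
  obtain ⟨i2, y2, x2⟩ := exists_max (fun i => ‖z i‖ ^ 2) {i1} (by simp; omega)
  obtain ⟨i3, y3, x3⟩ := exists_max (fun i => ‖z i‖ ^ 2) {i1, i2}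
    (lt_of_le_of_lt Finset.card_le_two (by omega))
  obtain ⟨i4, n4, o4⟩ := exists_max (fun i => ‖z i‖ ^ 2) {i1, i2, i3}
    (lt_of_le_of_lt Finset.card_le_three (by omega))
  have n12 : i1 ≠ i2 := fun e => y2 (by simp [e])
  have n13 : i1 ≠ i3 := fun e => y3 (by simp [e])
  have n23 : i2 ≠ i3 := fun e => y3 (by simp [e])
  have o12 : ‖z i2‖ ^ 2 ≤ ‖z i1‖ ^ 2 := x1 i2 (by simp)
  have o23 : ‖z i3‖ ^ 2 ≤ ‖z i2‖ ^ 2 := x2 i3 (by simpa using n13.symm)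
  have o34 : ‖z i4‖ ^ 2 ≤ ‖z i3‖ ^ 2 := x3 i4 (fun e => n4 (by
    simp only [Finset.mem_insert, Finset.mem_singleton] at e ⊢; tauto))
  have hn : i1 ∉ ({i2, i3} : Finset ι) := by simp [n12, n13]
  have c4 : (insert i4 ({i1, i2, i3} : Finset ι)).card = 4 := by
    rw [Finset.card_insert_of_notMem n4, Finset.card_insert_of_notMem hn, Finset.card_pair n23]
  have hF := F0_bounds
  have hmu : 0 ≤ ∑ j ∈ (insert i4 ({i1, i2, i3} : Finset ι))ᶜ, (stdGaussian E).real (cell z j) :=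
    Finset.sum_nonneg fun _ _ => measureReal_nonneg
  rcases hk.eq_or_lt with k4 | k5
  · have he : (insert i4 ({i1, i2, i3} : Finset ι))ᶜ = ∅ := by
      rw [← Finset.card_eq_zero, Finset.card_compl, c4, ← k4]
    obtain ⟨t1, t2, t3, D⟩ := h.dat hk (K := 3723 / 1000) (lam := 2) (cM := 0) (by norm_num)
      (by rw [← k4]; norm_num; linarith) n12 n13 n23 n4 o12 o23 o34 o4
      (fun l1 l2 l3 m _ _ _ _ _ _ d _ => by nlinarith [sq_nonneg m])
    have cp : ∀ i, CapP ((stdGaussian E).real (cell z i)) (‖z i‖ ^ 2) := fun i hp =>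
      pow_le_pow_left₀ (norm_nonneg _) (h.cap k4.symm i hp) 2
    exact num4 D (cp _) (cp _) (cp _) (cp _) (by simp [he]) (by simp [he])
  have hne4 : insert i4 ({i1, i2, i3} : Finset ι) ≠ Finset.univ := fun e => by
    rw [e, Finset.card_univ] at c4; omega
  rcases (show 5 ≤ Fintype.card ι from k5).eq_or_lt with k5 | k6
  · have hK : (349 / 100 : ℝ) * ((Fintype.card ι - 1) / Fintype.card ι * F0) ≤ 1 := by
      rw [← k5]; norm_num; linarith
    obtain ⟨t1, t2, t3, D⟩ := h.dat hk (K := 349 / 100) (lam := 2) (cM := 62 / 625) (by norm_num)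
      hK n12 n13 n23 n4 o12 o23 o34 o4
      (fun l1 l2 l3 m a1 a2 a3 b1 b2 b3 d1 d2 => by
        have h1 := h.sigma_ge _ hne4 (by simp) (by simp) (by simp) n12 n13 n23 o12 o23
          (by norm_num) (by rw [c4]; norm_num) a1 a2 a3 b1 b2 b3 d1 d2
        have h2 : ∑ j ∈ (insert i4 ({i1, i2, i3} : Finset ι))ᶜ, ‖z j‖ ^ 2 ≤ 2 *
            (∑ j ∈ (insert i4 ({i1, i2, i3} : Finset ι))ᶜ, (stdGaussian E).real (cell z j)) ^ 2 := by
          refine le_trans (Finset.sum_le_sum fun j _ => (h.cellP hk hK j).two_sq (by norm_num)) ?_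
          rw [← Finset.mul_sum]
          exact mul_le_mul_of_nonneg_left (Finset.sum_sq_le_sq_sum_of_nonneg
            fun _ _ => measureReal_nonneg) (by norm_num)
        exact le_of_sq_le_sq (by linarith) hmu)
    exact num5 D
  · have hk6 : (6:ℝ) ≤ Fintype.card ι := by exact_mod_cast k6
    have hK : (349 / 125 : ℝ) * ((Fintype.card ι - 1) / Fintype.card ι * F0) ≤ 1 := by
      have : ((Fintype.card ι : ℝ) - 1) / Fintype.card ι ≤ 1 := by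
        rw [div_le_one (by linarith)]; linarith
      nlinarith
    obtain ⟨i5, n5, o5⟩ := exists_max (fun i => ‖z i‖ ^ 2) (insert i4 {i1, i2, i3})
      (by rw [c4]; omega)
    have c5 : (insert i5 (insert i4 ({i1, i2, i3} : Finset ι))).card = 5 := by
      rw [Finset.card_insert_of_notMem n5, c4]
    have hne5 : insert i5 (insert i4 ({i1, i2, i3} : Finset ι)) ≠ Finset.univ := fun e => by
      rw [e, Finset.card_univ] at c5; omega
    obtain ⟨t1, t2, t3, D⟩ := h.dat hk (K := 349 / 125) (lam := 1 / 2) (cM := 239 / 5000)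
      (by norm_num) hK n12 n13 n23 n4 o12 o23 o34 o4
      (fun l1 l2 l3 m a1 a2 a3 b1 b2 b3 d1 d2 => by
        have h1 := h.sigma_ge _ hne5 (by simp) (by simp) (by simp) n12 n13 n23 o12 o23
          (by norm_num) (by rw [c5]; norm_num) a1 a2 a3 b1 b2 b3 d1 d2
        have h2 : ∑ j ∈ (insert i5 (insert i4 ({i1, i2, i3} : Finset ι)))ᶜ, ‖z j‖ ^ 2 ≤
            2 * (stdGaussian E).real (cell z i5) *
            ∑ j ∈ (insert i5 (insert i4 ({i1, i2, i3} : Finset ι)))ᶜ,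
              (stdGaussian E).real (cell z j) := by
          rw [Finset.mul_sum]
          refine Finset.sum_le_sum fun j hj => ?_
          have q1 := (h.cellP hk hK j).two_sq (by norm_num)
          have q2 := (o5 j fun hj' => Finset.mem_compl.1 hj (Finset.mem_insert_of_mem hj')).trans
            ((h.cellP hk hK i5).two_sq (by norm_num))
          refine le_of_sq_le_sq ?_ (by positivity)
          have := mul_le_mul q1 q2 (sq_nonneg _) (by positivity)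
          nlinarith
        refine le_of_sq_le_sq ?_ hmu
        rw [sum_compl_insert (fun j => (stdGaussian E).real (cell z j)) n5]
        nlinarith [sq_nonneg ((stdGaussian E).real (cell z i5) -
          ∑ j ∈ (insert i5 (insert i4 ({i1, i2, i3} : Finset ι)))ᶜ,
            (stdGaussian E).real (cell z j))])
    exact num6 D

theorem good_all (n : ℕ) : ∀ (ι : Type) [Fintype ι], Fintype.card ι ≤ n → Good E ι := by
  induction n with
  | zero => intro ι _ h; exact good_small (by omega)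
  | succ n ih =>
    intro ι _ h
    classical
    by_contra hg
    obtain ⟨z, hz⟩ := exists_crit (fun S hS => ih S (by
      have := Finset.card_lt_card (Finset.ssubset_univ_iff.2 hS)
      rw [Finset.card_univ] at this
      rw [Fintype.card_coe]; omega)) hg
    rcases le_or_gt (Fintype.card ι) 3 with h3 | h3
    · exact hg (good_small h3)
    · exact hz.false h3

omit [DecidableEq ι] in
theorem propeller {B : ι → Set E} (hm : ∀ i, MeasurableSet (B i))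
    (hd : Pairwise (Function.onFun (AEDisjoint (stdGaussian E)) B))
    (hc : (⋃ i, B i) =ᵐ[stdGaussian E] univ) :
    ∑ i, ‖∫ x in B i, x ∂stdGaussian E‖ ^ 2 ≤ 9 / (8 * π) := by
  classical
  have h1 := partition_le hm hd hc (fun i => ∫ x in B i, x ∂stdGaussian E) id
  have h2 := good_all _ ι le_rfl (fun i => ∫ x in B i, x ∂stdGaussian E)
  simp only [id, real_inner_self_eq_norm_sq] at h1
  have h0 : 0 ≤ ∑ i, ‖∫ x in B i, x ∂stdGaussian E‖ ^ 2 := by positivity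
  have h3 := pow_le_pow_left₀ h0 h1 2
  have := F0_pos
  change _ ≤ F0
  by_contra hc
  push Not at hc
  nlinarith

end Vale.Agent.P226
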