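import Vale.Agent.P226.G3

/-! The finite list of real inequalities fed to the case analysis. -/

namespace Vale.Agent.P226

structure Dat (K lam cM s1 s2 s3 s4 sg p1 p2 p3 p4 mu t1 t2 t3 : ℝ) : Prop where
  c1 : CellP K p1 s1
  c2 : CellP K p2 s2
  c3 : CellP K p3 s3
  c4 : CellP K p4 s4
  o12 : s2 ≤ s1
  o23 : s3 ≤ s2
  o34 : s4 ≤ s3
  sum : p1 + p2 + p3 + p4 + mu ≤ 1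
  mu0 : 0 ≤ mu
  sg0 : 0 ≤ sg
  b1 : t1 ≤ s1
  b2 : t2 ≤ s2
  b3 : t3 ≤ s3
  bs : (s1 - t1) + (s2 - t2) + (s3 - t3) ≤ s4 + sg
  tri1 : t1 ≤ t2 + t3
  tri2 : t2 ≤ t1 + t3
  tri3 : t3 ≤ t1 + t2
  M3 : 218 / 400 * ((t1 + t2 + t3) ^ 2 - 2 * (t1 ^ 2 + t2 ^ 2 + t3 ^ 2)) ≤ s4 + sg
  big : 358 / 1000 < s1 + s2 + s3 + s4 + sg
  sq : sg ≤ 2 * mu ^ 2
  rat : ∀ u ρ : ℝ, (∀ p s, CellP K p s → s ≤ u → s ≤ ρ * p) → s4 ≤ u → sg ≤ ρ * mu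
  mlb : ∀ l1 l2 l3 m : ℝ, l1 ≤ s1 → l2 ≤ s2 → l3 ≤ s3 → l2 ≤ l1 → l3 ≤ l2 →
    2 * (lam * m ^ 2) ≤ l3 →
    lam * m ^ 2 ≤ cM * ((l1 - lam * m ^ 2) * (l2 - lam * m ^ 2) +
      (l1 - lam * m ^ 2) * (l3 - lam * m ^ 2) + (l2 - lam * m ^ 2) * (l3 - lam * m ^ 2)) →
    lam * m ^ 2 ≤ cM * ((l3 - lam * m ^ 2) * (l1 - lam * m ^ 2 + 3 * (l2 - lam * m ^ 2))) →
    m ≤ mu

variable {K lam cM s1 s2 s3 s4 sg p1 p2 p3 p4 mu t1 t2 t3 : ℝ}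

lemma Dat.lin (D : Dat K lam cM s1 s2 s3 s4 sg p1 p2 p3 p4 mu t1 t2 t3) :
    s2 ≤ s1 ∧ s3 ≤ s2 ∧ s4 ≤ s3 ∧ p1 + p2 + p3 + p4 + mu ≤ 1 ∧ 0 ≤ mu ∧ 0 ≤ sg ∧ t1 ≤ s1 ∧
    t2 ≤ s2 ∧ t3 ≤ s3 ∧ (s1 - t1) + (s2 - t2) + (s3 - t3) ≤ s4 + sg ∧ t1 ≤ t2 + t3 ∧
    t2 ≤ t1 + t3 ∧ t3 ≤ t1 + t2 ∧ 358 / 1000 < s1 + s2 + s3 + s4 + sg ∧ 0 ≤ s4 ∧ 0 < p1 ∧
    0 < p2 ∧ 0 < p3 ∧ 0 < p4 :=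
  ⟨D.o12, D.o23, D.o34, D.sum, D.mu0, D.sg0, D.b1, D.b2, D.b3, D.bs, D.tri1, D.tri2, D.tri3,
    D.big, D.c4.pos.1, D.c1.pos.2.1, D.c2.pos.2.1, D.c3.pos.2.1, D.c4.pos.2.1⟩

lemma Dat.tcut (D : Dat K lam cM s1 s2 s3 s4 sg p1 p2 p3 p4 mu t1 t2 t3) (l1 u1 l2 u2 l3 u3 S : ℝ)
    (a1 : l1 ≤ t1) (b1 : t1 ≤ u1) (a2 : l2 ≤ t2) (b2 : t2 ≤ u2) (a3 : l3 ≤ t3) (b3 : t3 ≤ u3) :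
    218 / 400 * (2 * S * (t1 + t2 + t3) - S ^ 2 - 2 * (((l1 + u1) * t1 - l1 * u1) +
      ((l2 + u2) * t2 - l2 * u2) + ((l3 + u3) * t3 - l3 * u3))) ≤ s4 + sg := by
  have := D.M3
  nlinarith [mul_nonneg (sub_nonneg.2 a1) (sub_nonneg.2 b1),
    mul_nonneg (sub_nonneg.2 a2) (sub_nonneg.2 b2), mul_nonneg (sub_nonneg.2 a3) (sub_nonneg.2 b3),
    sq_nonneg (t1 + t2 + t3 - S)]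

lemma Dat.sqc (D : Dat K lam cM s1 s2 s3 s4 sg p1 p2 p3 p4 mu t1 t2 t3) (l u : ℝ) (a : l ≤ mu)
    (b : mu ≤ u) : sg ≤ 2 * (l + u) * mu - 2 * l * u := by
  have := D.sq
  nlinarith [mul_nonneg (sub_nonneg.2 a) (sub_nonneg.2 b)]

lemma CellP.p_ge {p s : ℝ} (h : CellP K p s) (hK : 0 ≤ K) (hs : 46 / 1000 ≤ s) :
    15 / 100 ≤ p := by
  have h1 := h.two_sq hK
  have h2 := h.pos.2.1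
  nlinarith

end Vale.Agent.P226
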