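import Vale.Agent.P226.N0

/-! Generated linear case analysis, case 4. -/

set_option linter.unusedVariables false

namespace Vale.Agent.P226

lemma ln4_0 {p s : ℝ} (h : CellP (3723/1000:ℝ) p s) (hc : CapP p s) (h1 : (0:ℝ) ≤ s) (h2 : s ≤ (39789/250000:ℝ)) :
    (1323/500:ℝ) * s + (-1/100000:ℝ) ≤ p := by
  obtain ⟨g1, g2, g3, g4⟩ := h.glob (by norm_num)
  rcases h.pieces (by norm_num) (by norm_num) with ⟨a, b, c, d⟩ | ⟨a, b, c, d⟩ | ⟨a, b, c, d⟩ | ⟨a, b, c, d⟩ | ⟨a, b, c⟩ | ⟨a, b, c⟩ | ⟨a, b, c⟩ | ⟨a, b, c⟩ | ⟨a, b, c⟩ | ⟨a, b, c⟩ | ⟨a, b, c⟩ | a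
  · linarith
  · linarith
  · linarith
  · linarith
  · linarith
  · linarith
  · have hq := cap_lines hc (by linarith) (by linarith)
    linarith [hq.1, hq.2.1, hq.2.2.1, hq.2.2.2]
  · have hq := cap_lines hc (by linarith) (by linarith)
    linarith [hq.1, hq.2.1, hq.2.2.1, hq.2.2.2]
  · have hq := cap_lines hc (by linarith) (by linarith)
    linarith [hq.1, hq.2.1, hq.2.2.1, hq.2.2.2]
  · have hq := cap_lines hc (by linarith) (by linarith)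
    linarith [hq.1, hq.2.1, hq.2.2.1, hq.2.2.2]
  · have hq := cap_lines hc (by linarith) (by linarith)
    linarith [hq.1, hq.2.1, hq.2.2.1, hq.2.2.2]
  · have hq := cap_lines hc (by linarith) (by linarith)
    linarith [hq.1, hq.2.1, hq.2.2.1, hq.2.2.2]

lemma ln4_1 {p s : ℝ} (h : CellP (3723/1000:ℝ) p s) (hc : CapP p s) (h1 : (0:ℝ) ≤ s) (h2 : s ≤ (2/25:ℝ)) :
    (1489/500:ℝ) * s + (-1/100000:ℝ) ≤ p := by
  obtain ⟨g1, g2, g3, g4⟩ := h.glob (by norm_num)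
  rcases h.pieces (by norm_num) (by norm_num) with ⟨a, b, c, d⟩ | ⟨a, b, c, d⟩ | ⟨a, b, c, d⟩ | ⟨a, b, c, d⟩ | ⟨a, b, c⟩ | ⟨a, b, c⟩ | ⟨a, b, c⟩ | ⟨a, b, c⟩ | ⟨a, b, c⟩ | ⟨a, b, c⟩ | ⟨a, b, c⟩ | a
  · linarith
  · linarith
  · linarith
  · linarith
  · linarith
  · linarith
  · have hq := cap_lines hc (by linarith) (by linarith)
    linarith [hq.1, hq.2.1, hq.2.2.1, hq.2.2.2]
  · have hq := cap_lines hc (by linarith) (by linarith)
    linarith [hq.1, hq.2.1, hq.2.2.1, hq.2.2.2]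
  · have hq := cap_lines hc (by linarith) (by linarith)
    linarith [hq.1, hq.2.1, hq.2.2.1, hq.2.2.2]
  · have hq := cap_lines hc (by linarith) (by linarith)
    linarith [hq.1, hq.2.1, hq.2.2.1, hq.2.2.2]
  · have hq := cap_lines hc (by linarith) (by linarith)
    linarith [hq.1, hq.2.1, hq.2.2.1, hq.2.2.2]
  · have hq := cap_lines hc (by linarith) (by linarith)
    linarith [hq.1, hq.2.1, hq.2.2.1, hq.2.2.2]

lemma leaf4_0 {s1 s2 s3 s4 sg p1 p2 p3 p4 mu t1 t2 t3 : ℝ}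
    (D : Dat (3723/1000:ℝ) (2:ℝ) (0:ℝ) s1 s2 s3 s4 sg p1 p2 p3 p4 mu t1 t2 t3) (k1 : CapP p1 s1) (k2 : CapP p2 s2) (k3 : CapP p3 s3) (k4 : CapP p4 s4) (e1 : sg = 0) (e2 : mu = 0)
    (h0 : s2 ≤ (2/25:ℝ)) : False := by
  obtain ⟨o1, o2, o3, o4, o5, o6, o7, o8, o9, o10, o11, o12, o13, o14, o15, o16, o17, o18, o19⟩ := D.lin
  have g0 : s1 ≤ (39789/250000:ℝ) := by have := (D.c1.glob (by norm_num)).2.2.2; linarith only [this]
  have L1 : (0:ℝ) ≤ s1 := by linarith only [o1, o2, o3, o5, o7, o8, o9, o11, o12, o13, o15, o16, o17, o18, o19, o4, g0, h0]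
  have U1 : s1 ≤ (39789/250000:ℝ) := by linarith only [o1, o2, o3, o5, o7, o8, o9, o11, o12, o13, o15, o16, o17, o18, o19, o4, g0, h0]
  have L2 : (0:ℝ) ≤ s2 := by linarith only [o1, o2, o3, o5, o7, o8, o9, o11, o12, o13, o15, o16, o17, o18, o19, o4, g0, h0]
  have U2 : s2 ≤ (2/25:ℝ) := by linarith only [o1, o2, o3, o5, o7, o8, o9, o11, o12, o13, o15, o16, o17, o18, o19, o4, g0, h0]
  have L3 : (0:ℝ) ≤ s3 := by linarith only [o1, o2, o3, o5, o7, o8, o9, o11, o12, o13, o15, o16, o17, o18, o19, o4, g0, h0]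
  have U3 : s3 ≤ (2/25:ℝ) := by linarith only [o1, o2, o3, o5, o7, o8, o9, o11, o12, o13, o15, o16, o17, o18, o19, o4, g0, h0]
  have L4 : (0:ℝ) ≤ s4 := by linarith only [o1, o2, o3, o5, o7, o8, o9, o11, o12, o13, o15, o16, o17, o18, o19, o4, g0, h0]
  have U4 : s4 ≤ (2/25:ℝ) := by linarith only [o1, o2, o3, o5, o7, o8, o9, o11, o12, o13, o15, o16, o17, o18, o19, o4, g0, h0]
  have l1 := ln4_0 D.c1 k1 L1 U1
  have l2 := ln4_1 D.c2 k2 L2 U2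
  have l3 := ln4_1 D.c3 k3 L3 U3
  have l4 := ln4_1 D.c4 k4 L4 U4
  obtain ⟨g11, g12, g13, -⟩ := D.c1.glob (by norm_num)
  obtain ⟨g21, g22, g23, -⟩ := D.c2.glob (by norm_num)
  obtain ⟨g31, g32, g33, -⟩ := D.c3.glob (by norm_num)
  obtain ⟨g41, g42, g43, -⟩ := D.c4.glob (by norm_num)
  linarith

lemma ln4_2 {p s : ℝ} (h : CellP (3723/1000:ℝ) p s) (hc : CapP p s) (h1 : (2/25:ℝ) ≤ s) (h2 : s ≤ (39789/250000:ℝ)) :
    (863/500:ℝ) * s + (10019/100000:ℝ) ≤ p := by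
  obtain ⟨g1, g2, g3, g4⟩ := h.glob (by norm_num)
  rcases h.pieces (by norm_num) (by norm_num) with ⟨a, b, c, d⟩ | ⟨a, b, c, d⟩ | ⟨a, b, c, d⟩ | ⟨a, b, c, d⟩ | ⟨a, b, c⟩ | ⟨a, b, c⟩ | ⟨a, b, c⟩ | ⟨a, b, c⟩ | ⟨a, b, c⟩ | ⟨a, b, c⟩ | ⟨a, b, c⟩ | a
  · linarith
  · linarith
  · linarith
  · linarith
  · linarith
  · linarith
  · have hq := cap_lines hc (by linarith) (by linarith)
    linarith [hq.1, hq.2.1, hq.2.2.1, hq.2.2.2]
  · have hq := cap_lines hc (by linarith) (by linarith)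
    linarith [hq.1, hq.2.1, hq.2.2.1, hq.2.2.2]
  · have hq := cap_lines hc (by linarith) (by linarith)
    linarith [hq.1, hq.2.1, hq.2.2.1, hq.2.2.2]
  · have hq := cap_lines hc (by linarith) (by linarith)
    linarith [hq.1, hq.2.1, hq.2.2.1, hq.2.2.2]
  · have hq := cap_lines hc (by linarith) (by linarith)
    linarith [hq.1, hq.2.1, hq.2.2.1, hq.2.2.2]
  · have hq := cap_lines hc (by linarith) (by linarith)
    linarith [hq.1, hq.2.1, hq.2.2.1, hq.2.2.2]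

lemma ln4_3 {p s : ℝ} (h : CellP (3723/1000:ℝ) p s) (hc : CapP p s) (h1 : (0:ℝ) ≤ s) (h2 : s ≤ (1/50:ℝ)) :
    (5509/1000:ℝ) * s + (-1/100000:ℝ) ≤ p := by
  obtain ⟨g1, g2, g3, g4⟩ := h.glob (by norm_num)
  rcases h.pieces (by norm_num) (by norm_num) with ⟨a, b, c, d⟩ | ⟨a, b, c, d⟩ | ⟨a, b, c, d⟩ | ⟨a, b, c, d⟩ | ⟨a, b, c⟩ | ⟨a, b, c⟩ | ⟨a, b, c⟩ | ⟨a, b, c⟩ | ⟨a, b, c⟩ | ⟨a, b, c⟩ | ⟨a, b, c⟩ | a
  · linarith
  · linarith
  · linarith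
  · linarith
  · linarith
  · linarith
  · have hq := cap_lines hc (by linarith) (by linarith)
    linarith [hq.1, hq.2.1, hq.2.2.1, hq.2.2.2]
  · have hq := cap_lines hc (by linarith) (by linarith)
    linarith [hq.1, hq.2.1, hq.2.2.1, hq.2.2.2]
  · have hq := cap_lines hc (by linarith) (by linarith)
    linarith [hq.1, hq.2.1, hq.2.2.1, hq.2.2.2]
  · have hq := cap_lines hc (by linarith) (by linarith)
    linarith [hq.1, hq.2.1, hq.2.2.1, hq.2.2.2]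
  · have hq := cap_lines hc (by linarith) (by linarith)
    linarith [hq.1, hq.2.1, hq.2.2.1, hq.2.2.2]
  · have hq := cap_lines hc (by linarith) (by linarith)
    linarith [hq.1, hq.2.1, hq.2.2.1, hq.2.2.2]

lemma leaf4_1 {s1 s2 s3 s4 sg p1 p2 p3 p4 mu t1 t2 t3 : ℝ}
    (D : Dat (3723/1000:ℝ) (2:ℝ) (0:ℝ) s1 s2 s3 s4 sg p1 p2 p3 p4 mu t1 t2 t3) (k1 : CapP p1 s1) (k2 : CapP p2 s2) (k3 : CapP p3 s3) (k4 : CapP p4 s4) (e1 : sg = 0) (e2 : mu = 0)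
    (h0 : (2/25:ℝ) ≤ s2) (h1 : s4 ≤ (1/50:ℝ)) (h2 : t1 ≤ (2/25:ℝ)) : False := by
  obtain ⟨o1, o2, o3, o4, o5, o6, o7, o8, o9, o10, o11, o12, o13, o14, o15, o16, o17, o18, o19⟩ := D.lin
  have g0 : s1 ≤ (39789/250000:ℝ) := by have := (D.c1.glob (by norm_num)).2.2.2; linarith only [this]
  have L1 : (2/25:ℝ) ≤ s1 := by linarith only [o1, o2, o3, o5, o7, o8, o9, o11, o12, o13, o15, o16, o17, o18, o19, o4, g0, h0, h1, h2]
  have U1 : s1 ≤ (39789/250000:ℝ) := by linarith only [o1, o2, o3, o5, o7, o8, o9, o11, o12, o13, o15, o16, o17, o18, o19, o4, g0, h0, h1, h2]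
  have L2 : (2/25:ℝ) ≤ s2 := by linarith only [o1, o2, o3, o5, o7, o8, o9, o11, o12, o13, o15, o16, o17, o18, o19, o4, g0, h0, h1, h2]
  have U2 : s2 ≤ (39789/250000:ℝ) := by linarith only [o1, o2, o3, o5, o7, o8, o9, o11, o12, o13, o15, o16, o17, o18, o19, o4, g0, h0, h1, h2]
  have L3 : (0:ℝ) ≤ s3 := by linarith only [o1, o2, o3, o5, o7, o8, o9, o11, o12, o13, o15, o16, o17, o18, o19, o4, g0, h0, h1, h2]
  have U3 : s3 ≤ (39789/250000:ℝ) := by linarith only [o1, o2, o3, o5, o7, o8, o9, o11, o12, o13, o15, o16, o17, o18, o19, o4, g0, h0, h1, h2]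
  have L4 : (0:ℝ) ≤ s4 := by linarith only [o1, o2, o3, o5, o7, o8, o9, o11, o12, o13, o15, o16, o17, o18, o19, o4, g0, h0, h1, h2]
  have U4 : s4 ≤ (1/50:ℝ) := by linarith only [o1, o2, o3, o5, o7, o8, o9, o11, o12, o13, o15, o16, o17, o18, o19, o4, g0, h0, h1, h2]
  have A0 : (0:ℝ) ≤ t1 := by linarith only [o1, o2, o3, o5, o7, o8, o9, o11, o12, o13, o15, o16, o17, o18, o19, o4, g0, h0, h1, h2]
  have B0 : t1 ≤ (2/25:ℝ) := by linarith only [o1, o2, o3, o5, o7, o8, o9, o11, o12, o13, o15, o16, o17, o18, o19, o4, g0, h0, h1, h2]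
  have A1 : (0:ℝ) ≤ t2 := by linarith only [o1, o2, o3, o5, o7, o8, o9, o11, o12, o13, o15, o16, o17, o18, o19, o4, g0, h0, h1, h2]
  have B1 : t2 ≤ (39789/250000:ℝ) := by linarith only [o1, o2, o3, o5, o7, o8, o9, o11, o12, o13, o15, o16, o17, o18, o19, o4, g0, h0, h1, h2]
  have A2 : (0:ℝ) ≤ t3 := by linarith only [o1, o2, o3, o5, o7, o8, o9, o11, o12, o13, o15, o16, o17, o18, o19, o4, g0, h0, h1, h2]
  have B2 : t3 ≤ (39789/250000:ℝ) := by linarith only [o1, o2, o3, o5, o7, o8, o9, o11, o12, o13, o15, o16, o17, o18, o19, o4, g0, h0, h1, h2]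
  have m0 := D.tcut _ _ _ _ _ _ (31/100:ℝ) A0 B0 A1 B1 A2 B2
  have m1 := D.tcut _ _ _ _ _ _ (33/100:ℝ) A0 B0 A1 B1 A2 B2
  have l1 := ln4_2 D.c1 k1 L1 U1
  obtain ⟨q11, q12, q13, q14⟩ := cap_lines k1 (by linarith only [U1]) (D.c1.p_ge (by norm_num) (by linarith only [L1]))
  have l2 := ln4_2 D.c2 k2 L2 U2
  obtain ⟨q21, q22, q23, q24⟩ := cap_lines k2 (by linarith only [U2]) (D.c2.p_ge (by norm_num) (by linarith only [L2]))
  have l3 := ln4_0 D.c3 k3 L3 U3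
  have l4 := ln4_3 D.c4 k4 L4 U4
  obtain ⟨g11, g12, g13, -⟩ := D.c1.glob (by norm_num)
  obtain ⟨g21, g22, g23, -⟩ := D.c2.glob (by norm_num)
  obtain ⟨g31, g32, g33, -⟩ := D.c3.glob (by norm_num)
  obtain ⟨g41, g42, g43, -⟩ := D.c4.glob (by norm_num)
  linarith

lemma ln4_4 {p s : ℝ} (h : CellP (3723/1000:ℝ) p s) (hc : CapP p s) (h1 : (1/50:ℝ) ≤ s) (h2 : s ≤ (39789/250000:ℝ)) :
    (507/250:ℝ) * s + (3481/50000:ℝ) ≤ p := by
  obtain ⟨g1, g2, g3, g4⟩ := h.glob (by norm_num)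
  rcases h.pieces (by norm_num) (by norm_num) with ⟨a, b, c, d⟩ | ⟨a, b, c, d⟩ | ⟨a, b, c, d⟩ | ⟨a, b, c, d⟩ | ⟨a, b, c⟩ | ⟨a, b, c⟩ | ⟨a, b, c⟩ | ⟨a, b, c⟩ | ⟨a, b, c⟩ | ⟨a, b, c⟩ | ⟨a, b, c⟩ | a
  · linarith
  · linarith
  · linarith
  · linarith
  · linarith
  · linarith
  · have hq := cap_lines hc (by linarith) (by linarith)
    linarith [hq.1, hq.2.1, hq.2.2.1, hq.2.2.2]
  · have hq := cap_lines hc (by linarith) (by linarith)
    linarith [hq.1, hq.2.1, hq.2.2.1, hq.2.2.2]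
  · have hq := cap_lines hc (by linarith) (by linarith)
    linarith [hq.1, hq.2.1, hq.2.2.1, hq.2.2.2]
  · have hq := cap_lines hc (by linarith) (by linarith)
    linarith [hq.1, hq.2.1, hq.2.2.1, hq.2.2.2]
  · have hq := cap_lines hc (by linarith) (by linarith)
    linarith [hq.1, hq.2.1, hq.2.2.1, hq.2.2.2]
  · have hq := cap_lines hc (by linarith) (by linarith)
    linarith [hq.1, hq.2.1, hq.2.2.1, hq.2.2.2]

lemma ln4_5 {p s : ℝ} (h : CellP (3723/1000:ℝ) p s) (hc : CapP p s) (h1 : (1/50:ℝ) ≤ s) (h2 : s ≤ (1/25:ℝ)) :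
    (317/125:ℝ) * s + (2973/50000:ℝ) ≤ p := by
  obtain ⟨g1, g2, g3, g4⟩ := h.glob (by norm_num)
  rcases h.pieces (by norm_num) (by norm_num) with ⟨a, b, c, d⟩ | ⟨a, b, c, d⟩ | ⟨a, b, c, d⟩ | ⟨a, b, c, d⟩ | ⟨a, b, c⟩ | ⟨a, b, c⟩ | ⟨a, b, c⟩ | ⟨a, b, c⟩ | ⟨a, b, c⟩ | ⟨a, b, c⟩ | ⟨a, b, c⟩ | a
  · linarith
  · linarith
  · linarith
  · linarith
  · linarith
  · linarith
  · have hq := cap_lines hc (by linarith) (by linarith)
    linarith [hq.1, hq.2.1, hq.2.2.1, hq.2.2.2]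
  · have hq := cap_lines hc (by linarith) (by linarith)
    linarith [hq.1, hq.2.1, hq.2.2.1, hq.2.2.2]
  · have hq := cap_lines hc (by linarith) (by linarith)
    linarith [hq.1, hq.2.1, hq.2.2.1, hq.2.2.2]
  · have hq := cap_lines hc (by linarith) (by linarith)
    linarith [hq.1, hq.2.1, hq.2.2.1, hq.2.2.2]
  · have hq := cap_lines hc (by linarith) (by linarith)
    linarith [hq.1, hq.2.1, hq.2.2.1, hq.2.2.2]
  · have hq := cap_lines hc (by linarith) (by linarith)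
    linarith [hq.1, hq.2.1, hq.2.2.1, hq.2.2.2]

lemma leaf4_2 {s1 s2 s3 s4 sg p1 p2 p3 p4 mu t1 t2 t3 : ℝ}
    (D : Dat (3723/1000:ℝ) (2:ℝ) (0:ℝ) s1 s2 s3 s4 sg p1 p2 p3 p4 mu t1 t2 t3) (k1 : CapP p1 s1) (k2 : CapP p2 s2) (k3 : CapP p3 s3) (k4 : CapP p4 s4) (e1 : sg = 0) (e2 : mu = 0)
    (h0 : (2/25:ℝ) ≤ s2) (h1 : (1/50:ℝ) ≤ s4) (h2 : s4 ≤ (1/25:ℝ)) (h3 : t1 ≤ (2/25:ℝ)) : False := by
  obtain ⟨o1, o2, o3, o4, o5, o6, o7, o8, o9, o10, o11, o12, o13, o14, o15, o16, o17, o18, o19⟩ := D.lin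
  have g0 : s1 ≤ (39789/250000:ℝ) := by have := (D.c1.glob (by norm_num)).2.2.2; linarith only [this]
  have L1 : (2/25:ℝ) ≤ s1 := by linarith only [o1, o2, o3, o5, o7, o8, o9, o11, o12, o13, o15, o16, o17, o18, o19, o4, g0, h0, h1, h2, h3]
  have U1 : s1 ≤ (39789/250000:ℝ) := by linarith only [o1, o2, o3, o5, o7, o8, o9, o11, o12, o13, o15, o16, o17, o18, o19, o4, g0, h0, h1, h2, h3]
  have L2 : (2/25:ℝ) ≤ s2 := by linarith only [o1, o2, o3, o5, o7, o8, o9, o11, o12, o13, o15, o16, o17, o18, o19, o4, g0, h0, h1, h2, h3]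
  have U2 : s2 ≤ (39789/250000:ℝ) := by linarith only [o1, o2, o3, o5, o7, o8, o9, o11, o12, o13, o15, o16, o17, o18, o19, o4, g0, h0, h1, h2, h3]
  have L3 : (1/50:ℝ) ≤ s3 := by linarith only [o1, o2, o3, o5, o7, o8, o9, o11, o12, o13, o15, o16, o17, o18, o19, o4, g0, h0, h1, h2, h3]
  have U3 : s3 ≤ (39789/250000:ℝ) := by linarith only [o1, o2, o3, o5, o7, o8, o9, o11, o12, o13, o15, o16, o17, o18, o19, o4, g0, h0, h1, h2, h3]
  have L4 : (1/50:ℝ) ≤ s4 := by linarith only [o1, o2, o3, o5, o7, o8, o9, o11, o12, o13, o15, o16, o17, o18, o19, o4, g0, h0, h1, h2, h3]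
  have U4 : s4 ≤ (1/25:ℝ) := by linarith only [o1, o2, o3, o5, o7, o8, o9, o11, o12, o13, o15, o16, o17, o18, o19, o4, g0, h0, h1, h2, h3]
  have A0 : (0:ℝ) ≤ t1 := by linarith only [o1, o2, o3, o5, o7, o8, o9, o11, o12, o13, o15, o16, o17, o18, o19, o4, g0, h0, h1, h2, h3]
  have B0 : t1 ≤ (2/25:ℝ) := by linarith only [o1, o2, o3, o5, o7, o8, o9, o11, o12, o13, o15, o16, o17, o18, o19, o4, g0, h0, h1, h2, h3]
  have A1 : (0:ℝ) ≤ t2 := by linarith only [o1, o2, o3, o5, o7, o8, o9, o11, o12, o13, o15, o16, o17, o18, o19, o4, g0, h0, h1, h2, h3]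
  have B1 : t2 ≤ (39789/250000:ℝ) := by linarith only [o1, o2, o3, o5, o7, o8, o9, o11, o12, o13, o15, o16, o17, o18, o19, o4, g0, h0, h1, h2, h3]
  have A2 : (0:ℝ) ≤ t3 := by linarith only [o1, o2, o3, o5, o7, o8, o9, o11, o12, o13, o15, o16, o17, o18, o19, o4, g0, h0, h1, h2, h3]
  have B2 : t3 ≤ (39789/250000:ℝ) := by linarith only [o1, o2, o3, o5, o7, o8, o9, o11, o12, o13, o15, o16, o17, o18, o19, o4, g0, h0, h1, h2, h3]
  have m0 := D.tcut _ _ _ _ _ _ (31/100:ℝ) A0 B0 A1 B1 A2 B2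
  have m1 := D.tcut _ _ _ _ _ _ (33/100:ℝ) A0 B0 A1 B1 A2 B2
  have l1 := ln4_2 D.c1 k1 L1 U1
  obtain ⟨q11, q12, q13, q14⟩ := cap_lines k1 (by linarith only [U1]) (D.c1.p_ge (by norm_num) (by linarith only [L1]))
  have l2 := ln4_2 D.c2 k2 L2 U2
  obtain ⟨q21, q22, q23, q24⟩ := cap_lines k2 (by linarith only [U2]) (D.c2.p_ge (by norm_num) (by linarith only [L2]))
  have l3 := ln4_4 D.c3 k3 L3 U3
  have l4 := ln4_5 D.c4 k4 L4 U4
  obtain ⟨g11, g12, g13, -⟩ := D.c1.glob (by norm_num)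
  obtain ⟨g21, g22, g23, -⟩ := D.c2.glob (by norm_num)
  obtain ⟨g31, g32, g33, -⟩ := D.c3.glob (by norm_num)
  obtain ⟨g41, g42, g43, -⟩ := D.c4.glob (by norm_num)
  linarith

lemma ln4_6 {p s : ℝ} (h : CellP (3723/1000:ℝ) p s) (hc : CapP p s) (h1 : (0:ℝ) ≤ s) (h2 : s ≤ (1/100:ℝ)) :
    (1881/250:ℝ) * s + (-1/100000:ℝ) ≤ p := by
  obtain ⟨g1, g2, g3, g4⟩ := h.glob (by norm_num)
  rcases h.pieces (by norm_num) (by norm_num) with ⟨a, b, c, d⟩ | ⟨a, b, c, d⟩ | ⟨a, b, c, d⟩ | ⟨a, b, c, d⟩ | ⟨a, b, c⟩ | ⟨a, b, c⟩ | ⟨a, b, c⟩ | ⟨a, b, c⟩ | ⟨a, b, c⟩ | ⟨a, b, c⟩ | ⟨a, b, c⟩ | a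
  · linarith
  · linarith
  · linarith
  · linarith
  · linarith
  · linarith
  · have hq := cap_lines hc (by linarith) (by linarith)
    linarith [hq.1, hq.2.1, hq.2.2.1, hq.2.2.2]
  · have hq := cap_lines hc (by linarith) (by linarith)
    linarith [hq.1, hq.2.1, hq.2.2.1, hq.2.2.2]
  · have hq := cap_lines hc (by linarith) (by linarith)
    linarith [hq.1, hq.2.1, hq.2.2.1, hq.2.2.2]
  · have hq := cap_lines hc (by linarith) (by linarith)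
    linarith [hq.1, hq.2.1, hq.2.2.1, hq.2.2.2]
  · have hq := cap_lines hc (by linarith) (by linarith)
    linarith [hq.1, hq.2.1, hq.2.2.1, hq.2.2.2]
  · have hq := cap_lines hc (by linarith) (by linarith)
    linarith [hq.1, hq.2.1, hq.2.2.1, hq.2.2.2]

lemma leaf4_3 {s1 s2 s3 s4 sg p1 p2 p3 p4 mu t1 t2 t3 : ℝ}
    (D : Dat (3723/1000:ℝ) (2:ℝ) (0:ℝ) s1 s2 s3 s4 sg p1 p2 p3 p4 mu t1 t2 t3) (k1 : CapP p1 s1) (k2 : CapP p2 s2) (k3 : CapP p3 s3) (k4 : CapP p4 s4) (e1 : sg = 0) (e2 : mu = 0)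
    (h0 : (2/25:ℝ) ≤ s2) (h1 : s4 ≤ (1/100:ℝ)) (h2 : (2/25:ℝ) ≤ t1) (h3 : t3 ≤ (2/25:ℝ)) : False := by
  obtain ⟨o1, o2, o3, o4, o5, o6, o7, o8, o9, o10, o11, o12, o13, o14, o15, o16, o17, o18, o19⟩ := D.lin
  have g0 : s1 ≤ (39789/250000:ℝ) := by have := (D.c1.glob (by norm_num)).2.2.2; linarith only [this]
  have L1 : (2/25:ℝ) ≤ s1 := by linarith only [o1, o2, o3, o5, o7, o8, o9, o11, o12, o13, o15, o16, o17, o18, o19, o4, g0, h0, h1, h2, h3]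
  have U1 : s1 ≤ (39789/250000:ℝ) := by linarith only [o1, o2, o3, o5, o7, o8, o9, o11, o12, o13, o15, o16, o17, o18, o19, o4, g0, h0, h1, h2, h3]
  have L2 : (2/25:ℝ) ≤ s2 := by linarith only [o1, o2, o3, o5, o7, o8, o9, o11, o12, o13, o15, o16, o17, o18, o19, o4, g0, h0, h1, h2, h3]
  have U2 : s2 ≤ (39789/250000:ℝ) := by linarith only [o1, o2, o3, o5, o7, o8, o9, o11, o12, o13, o15, o16, o17, o18, o19, o4, g0, h0, h1, h2, h3]
  have L3 : (0:ℝ) ≤ s3 := by linarith only [o1, o2, o3, o5, o7, o8, o9, o11, o12, o13, o15, o16, o17, o18, o19, o4, g0, h0, h1, h2, h3]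
  have U3 : s3 ≤ (39789/250000:ℝ) := by linarith only [o1, o2, o3, o5, o7, o8, o9, o11, o12, o13, o15, o16, o17, o18, o19, o4, g0, h0, h1, h2, h3]
  have L4 : (0:ℝ) ≤ s4 := by linarith only [o1, o2, o3, o5, o7, o8, o9, o11, o12, o13, o15, o16, o17, o18, o19, o4, g0, h0, h1, h2, h3]
  have U4 : s4 ≤ (1/100:ℝ) := by linarith only [o1, o2, o3, o5, o7, o8, o9, o11, o12, o13, o15, o16, o17, o18, o19, o4, g0, h0, h1, h2, h3]
  have A0 : (2/25:ℝ) ≤ t1 := by linarith only [o1, o2, o3, o5, o7, o8, o9, o11, o12, o13, o15, o16, o17, o18, o19, o4, g0, h0, h1, h2, h3]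
  have B0 : t1 ≤ (39789/250000:ℝ) := by linarith only [o1, o2, o3, o5, o7, o8, o9, o11, o12, o13, o15, o16, o17, o18, o19, o4, g0, h0, h1, h2, h3]
  have A1 : (0:ℝ) ≤ t2 := by linarith only [o1, o2, o3, o5, o7, o8, o9, o11, o12, o13, o15, o16, o17, o18, o19, o4, g0, h0, h1, h2, h3]
  have B1 : t2 ≤ (39789/250000:ℝ) := by linarith only [o1, o2, o3, o5, o7, o8, o9, o11, o12, o13, o15, o16, o17, o18, o19, o4, g0, h0, h1, h2, h3]
  have A2 : (0:ℝ) ≤ t3 := by linarith only [o1, o2, o3, o5, o7, o8, o9, o11, o12, o13, o15, o16, o17, o18, o19, o4, g0, h0, h1, h2, h3]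
  have B2 : t3 ≤ (2/25:ℝ) := by linarith only [o1, o2, o3, o5, o7, o8, o9, o11, o12, o13, o15, o16, o17, o18, o19, o4, g0, h0, h1, h2, h3]
  have m0 := D.tcut _ _ _ _ _ _ (31/100:ℝ) A0 B0 A1 B1 A2 B2
  have m1 := D.tcut _ _ _ _ _ _ (33/100:ℝ) A0 B0 A1 B1 A2 B2
  have l1 := ln4_2 D.c1 k1 L1 U1
  obtain ⟨q11, q12, q13, q14⟩ := cap_lines k1 (by linarith only [U1]) (D.c1.p_ge (by norm_num) (by linarith only [L1]))
  have l2 := ln4_2 D.c2 k2 L2 U2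
  obtain ⟨q21, q22, q23, q24⟩ := cap_lines k2 (by linarith only [U2]) (D.c2.p_ge (by norm_num) (by linarith only [L2]))
  have l3 := ln4_0 D.c3 k3 L3 U3
  have l4 := ln4_6 D.c4 k4 L4 U4
  obtain ⟨g11, g12, g13, -⟩ := D.c1.glob (by norm_num)
  obtain ⟨g21, g22, g23, -⟩ := D.c2.glob (by norm_num)
  obtain ⟨g31, g32, g33, -⟩ := D.c3.glob (by norm_num)
  obtain ⟨g41, g42, g43, -⟩ := D.c4.glob (by norm_num)
  linarith

lemma leaf4_4 {s1 s2 s3 s4 sg p1 p2 p3 p4 mu t1 t2 t3 : ℝ}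
    (D : Dat (3723/1000:ℝ) (2:ℝ) (0:ℝ) s1 s2 s3 s4 sg p1 p2 p3 p4 mu t1 t2 t3) (k1 : CapP p1 s1) (k2 : CapP p2 s2) (k3 : CapP p3 s3) (k4 : CapP p4 s4) (e1 : sg = 0) (e2 : mu = 0)
    (h0 : (2/25:ℝ) ≤ s2) (h1 : s4 ≤ (1/100:ℝ)) (h2 : (2/25:ℝ) ≤ t1) (h3 : (2/25:ℝ) ≤ t3) : False := by
  obtain ⟨o1, o2, o3, o4, o5, o6, o7, o8, o9, o10, o11, o12, o13, o14, o15, o16, o17, o18, o19⟩ := D.lin
  have g0 : s1 ≤ (39789/250000:ℝ) := by have := (D.c1.glob (by norm_num)).2.2.2; linarith only [this]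
  have L1 : (2/25:ℝ) ≤ s1 := by linarith only [o1, o2, o3, o5, o7, o8, o9, o11, o12, o13, o15, o16, o17, o18, o19, o4, g0, h0, h1, h2, h3]
  have U1 : s1 ≤ (39789/250000:ℝ) := by linarith only [o1, o2, o3, o5, o7, o8, o9, o11, o12, o13, o15, o16, o17, o18, o19, o4, g0, h0, h1, h2, h3]
  have L2 : (2/25:ℝ) ≤ s2 := by linarith only [o1, o2, o3, o5, o7, o8, o9, o11, o12, o13, o15, o16, o17, o18, o19, o4, g0, h0, h1, h2, h3]
  have U2 : s2 ≤ (39789/250000:ℝ) := by linarith only [o1, o2, o3, o5, o7, o8, o9, o11, o12, o13, o15, o16, o17, o18, o19, o4, g0, h0, h1, h2, h3]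
  have L3 : (0:ℝ) ≤ s3 := by linarith only [o1, o2, o3, o5, o7, o8, o9, o11, o12, o13, o15, o16, o17, o18, o19, o4, g0, h0, h1, h2, h3]
  have U3 : s3 ≤ (39789/250000:ℝ) := by linarith only [o1, o2, o3, o5, o7, o8, o9, o11, o12, o13, o15, o16, o17, o18, o19, o4, g0, h0, h1, h2, h3]
  have L4 : (0:ℝ) ≤ s4 := by linarith only [o1, o2, o3, o5, o7, o8, o9, o11, o12, o13, o15, o16, o17, o18, o19, o4, g0, h0, h1, h2, h3]
  have U4 : s4 ≤ (1/100:ℝ) := by linarith only [o1, o2, o3, o5, o7, o8, o9, o11, o12, o13, o15, o16, o17, o18, o19, o4, g0, h0, h1, h2, h3]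
  have A0 : (2/25:ℝ) ≤ t1 := by linarith only [o1, o2, o3, o5, o7, o8, o9, o11, o12, o13, o15, o16, o17, o18, o19, o4, g0, h0, h1, h2, h3]
  have B0 : t1 ≤ (39789/250000:ℝ) := by linarith only [o1, o2, o3, o5, o7, o8, o9, o11, o12, o13, o15, o16, o17, o18, o19, o4, g0, h0, h1, h2, h3]
  have A1 : (0:ℝ) ≤ t2 := by linarith only [o1, o2, o3, o5, o7, o8, o9, o11, o12, o13, o15, o16, o17, o18, o19, o4, g0, h0, h1, h2, h3]
  have B1 : t2 ≤ (39789/250000:ℝ) := by linarith only [o1, o2, o3, o5, o7, o8, o9, o11, o12, o13, o15, o16, o17, o18, o19, o4, g0, h0, h1, h2, h3]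
  have A2 : (2/25:ℝ) ≤ t3 := by linarith only [o1, o2, o3, o5, o7, o8, o9, o11, o12, o13, o15, o16, o17, o18, o19, o4, g0, h0, h1, h2, h3]
  have B2 : t3 ≤ (39789/250000:ℝ) := by linarith only [o1, o2, o3, o5, o7, o8, o9, o11, o12, o13, o15, o16, o17, o18, o19, o4, g0, h0, h1, h2, h3]
  have m0 := D.tcut _ _ _ _ _ _ (31/100:ℝ) A0 B0 A1 B1 A2 B2
  have m1 := D.tcut _ _ _ _ _ _ (33/100:ℝ) A0 B0 A1 B1 A2 B2
  have l1 := ln4_2 D.c1 k1 L1 U1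
  obtain ⟨q11, q12, q13, q14⟩ := cap_lines k1 (by linarith only [U1]) (D.c1.p_ge (by norm_num) (by linarith only [L1]))
  have l2 := ln4_2 D.c2 k2 L2 U2
  obtain ⟨q21, q22, q23, q24⟩ := cap_lines k2 (by linarith only [U2]) (D.c2.p_ge (by norm_num) (by linarith only [L2]))
  have l3 := ln4_0 D.c3 k3 L3 U3
  have l4 := ln4_6 D.c4 k4 L4 U4
  obtain ⟨g11, g12, g13, -⟩ := D.c1.glob (by norm_num)
  obtain ⟨g21, g22, g23, -⟩ := D.c2.glob (by norm_num)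
  obtain ⟨g31, g32, g33, -⟩ := D.c3.glob (by norm_num)
  obtain ⟨g41, g42, g43, -⟩ := D.c4.glob (by norm_num)
  linarith

lemma ln4_7 {p s : ℝ} (h : CellP (3723/1000:ℝ) p s) (hc : CapP p s) (h1 : (1/100:ℝ) ≤ s) (h2 : s ≤ (39789/250000:ℝ)) :
    (547/250:ℝ) * s + (667/12500:ℝ) ≤ p := by
  obtain ⟨g1, g2, g3, g4⟩ := h.glob (by norm_num)
  rcases h.pieces (by norm_num) (by norm_num) with ⟨a, b, c, d⟩ | ⟨a, b, c, d⟩ | ⟨a, b, c, d⟩ | ⟨a, b, c, d⟩ | ⟨a, b, c⟩ | ⟨a, b, c⟩ | ⟨a, b, c⟩ | ⟨a, b, c⟩ | ⟨a, b, c⟩ | ⟨a, b, c⟩ | ⟨a, b, c⟩ | a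
  · linarith
  · linarith
  · linarith
  · linarith
  · linarith
  · linarith
  · have hq := cap_lines hc (by linarith) (by linarith)
    linarith [hq.1, hq.2.1, hq.2.2.1, hq.2.2.2]
  · have hq := cap_lines hc (by linarith) (by linarith)
    linarith [hq.1, hq.2.1, hq.2.2.1, hq.2.2.2]
  · have hq := cap_lines hc (by linarith) (by linarith)
    linarith [hq.1, hq.2.1, hq.2.2.1, hq.2.2.2]
  · have hq := cap_lines hc (by linarith) (by linarith)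
    linarith [hq.1, hq.2.1, hq.2.2.1, hq.2.2.2]
  · have hq := cap_lines hc (by linarith) (by linarith)
    linarith [hq.1, hq.2.1, hq.2.2.1, hq.2.2.2]
  · have hq := cap_lines hc (by linarith) (by linarith)
    linarith [hq.1, hq.2.1, hq.2.2.1, hq.2.2.2]

lemma ln4_8 {p s : ℝ} (h : CellP (3723/1000:ℝ) p s) (hc : CapP p s) (h1 : (1/100:ℝ) ≤ s) (h2 : s ≤ (1/25:ℝ)) :
    (571/200:ℝ) * s + (4669/100000:ℝ) ≤ p := by
  obtain ⟨g1, g2, g3, g4⟩ := h.glob (by norm_num)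
  rcases h.pieces (by norm_num) (by norm_num) with ⟨a, b, c, d⟩ | ⟨a, b, c, d⟩ | ⟨a, b, c, d⟩ | ⟨a, b, c, d⟩ | ⟨a, b, c⟩ | ⟨a, b, c⟩ | ⟨a, b, c⟩ | ⟨a, b, c⟩ | ⟨a, b, c⟩ | ⟨a, b, c⟩ | ⟨a, b, c⟩ | a
  · linarith
  · linarith
  · linarith
  · linarith
  · linarith
  · linarith
  · have hq := cap_lines hc (by linarith) (by linarith)
    linarith [hq.1, hq.2.1, hq.2.2.1, hq.2.2.2]
  · have hq := cap_lines hc (by linarith) (by linarith)
    linarith [hq.1, hq.2.1, hq.2.2.1, hq.2.2.2]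
  · have hq := cap_lines hc (by linarith) (by linarith)
    linarith [hq.1, hq.2.1, hq.2.2.1, hq.2.2.2]
  · have hq := cap_lines hc (by linarith) (by linarith)
    linarith [hq.1, hq.2.1, hq.2.2.1, hq.2.2.2]
  · have hq := cap_lines hc (by linarith) (by linarith)
    linarith [hq.1, hq.2.1, hq.2.2.1, hq.2.2.2]
  · have hq := cap_lines hc (by linarith) (by linarith)
    linarith [hq.1, hq.2.1, hq.2.2.1, hq.2.2.2]

lemma leaf4_5 {s1 s2 s3 s4 sg p1 p2 p3 p4 mu t1 t2 t3 : ℝ}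
    (D : Dat (3723/1000:ℝ) (2:ℝ) (0:ℝ) s1 s2 s3 s4 sg p1 p2 p3 p4 mu t1 t2 t3) (k1 : CapP p1 s1) (k2 : CapP p2 s2) (k3 : CapP p3 s3) (k4 : CapP p4 s4) (e1 : sg = 0) (e2 : mu = 0)
    (h0 : (2/25:ℝ) ≤ s2) (h1 : (1/100:ℝ) ≤ s4) (h2 : s4 ≤ (1/25:ℝ)) (h3 : (2/25:ℝ) ≤ t1) (h4 : t2 ≤ (11/100:ℝ)) : False := by
  obtain ⟨o1, o2, o3, o4, o5, o6, o7, o8, o9, o10, o11, o12, o13, o14, o15, o16, o17, o18, o19⟩ := D.lin
  have g0 : s1 ≤ (39789/250000:ℝ) := by have := (D.c1.glob (by norm_num)).2.2.2; linarith only [this]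
  have L1 : (2/25:ℝ) ≤ s1 := by linarith only [o1, o2, o3, o5, o7, o8, o9, o11, o12, o13, o15, o16, o17, o18, o19, o4, g0, h0, h1, h2, h3, h4]
  have U1 : s1 ≤ (39789/250000:ℝ) := by linarith only [o1, o2, o3, o5, o7, o8, o9, o11, o12, o13, o15, o16, o17, o18, o19, o4, g0, h0, h1, h2, h3, h4]
  have L2 : (2/25:ℝ) ≤ s2 := by linarith only [o1, o2, o3, o5, o7, o8, o9, o11, o12, o13, o15, o16, o17, o18, o19, o4, g0, h0, h1, h2, h3, h4]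
  have U2 : s2 ≤ (39789/250000:ℝ) := by linarith only [o1, o2, o3, o5, o7, o8, o9, o11, o12, o13, o15, o16, o17, o18, o19, o4, g0, h0, h1, h2, h3, h4]
  have L3 : (1/100:ℝ) ≤ s3 := by linarith only [o1, o2, o3, o5, o7, o8, o9, o11, o12, o13, o15, o16, o17, o18, o19, o4, g0, h0, h1, h2, h3, h4]
  have U3 : s3 ≤ (39789/250000:ℝ) := by linarith only [o1, o2, o3, o5, o7, o8, o9, o11, o12, o13, o15, o16, o17, o18, o19, o4, g0, h0, h1, h2, h3, h4]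
  have L4 : (1/100:ℝ) ≤ s4 := by linarith only [o1, o2, o3, o5, o7, o8, o9, o11, o12, o13, o15, o16, o17, o18, o19, o4, g0, h0, h1, h2, h3, h4]
  have U4 : s4 ≤ (1/25:ℝ) := by linarith only [o1, o2, o3, o5, o7, o8, o9, o11, o12, o13, o15, o16, o17, o18, o19, o4, g0, h0, h1, h2, h3, h4]
  have A0 : (2/25:ℝ) ≤ t1 := by linarith only [o1, o2, o3, o5, o7, o8, o9, o11, o12, o13, o15, o16, o17, o18, o19, o4, g0, h0, h1, h2, h3, h4]
  have B0 : t1 ≤ (39789/250000:ℝ) := by linarith only [o1, o2, o3, o5, o7, o8, o9, o11, o12, o13, o15, o16, o17, o18, o19, o4, g0, h0, h1, h2, h3, h4]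
  have A1 : (0:ℝ) ≤ t2 := by linarith only [o1, o2, o3, o5, o7, o8, o9, o11, o12, o13, o15, o16, o17, o18, o19, o4, g0, h0, h1, h2, h3, h4]
  have B1 : t2 ≤ (11/100:ℝ) := by linarith only [o1, o2, o3, o5, o7, o8, o9, o11, o12, o13, o15, o16, o17, o18, o19, o4, g0, h0, h1, h2, h3, h4]
  have A2 : (0:ℝ) ≤ t3 := by linarith only [o1, o2, o3, o5, o7, o8, o9, o11, o12, o13, o15, o16, o17, o18, o19, o4, g0, h0, h1, h2, h3, h4]
  have B2 : t3 ≤ (39789/250000:ℝ) := by linarith only [o1, o2, o3, o5, o7, o8, o9, o11, o12, o13, o15, o16, o17, o18, o19, o4, g0, h0, h1, h2, h3, h4]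
  have m0 := D.tcut _ _ _ _ _ _ (31/100:ℝ) A0 B0 A1 B1 A2 B2
  have m1 := D.tcut _ _ _ _ _ _ (33/100:ℝ) A0 B0 A1 B1 A2 B2
  have l1 := ln4_2 D.c1 k1 L1 U1
  obtain ⟨q11, q12, q13, q14⟩ := cap_lines k1 (by linarith only [U1]) (D.c1.p_ge (by norm_num) (by linarith only [L1]))
  have l2 := ln4_2 D.c2 k2 L2 U2
  obtain ⟨q21, q22, q23, q24⟩ := cap_lines k2 (by linarith only [U2]) (D.c2.p_ge (by norm_num) (by linarith only [L2]))
  have l3 := ln4_7 D.c3 k3 L3 U3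
  have l4 := ln4_8 D.c4 k4 L4 U4
  obtain ⟨g11, g12, g13, -⟩ := D.c1.glob (by norm_num)
  obtain ⟨g21, g22, g23, -⟩ := D.c2.glob (by norm_num)
  obtain ⟨g31, g32, g33, -⟩ := D.c3.glob (by norm_num)
  obtain ⟨g41, g42, g43, -⟩ := D.c4.glob (by norm_num)
  linarith

lemma leaf4_6 {s1 s2 s3 s4 sg p1 p2 p3 p4 mu t1 t2 t3 : ℝ}
    (D : Dat (3723/1000:ℝ) (2:ℝ) (0:ℝ) s1 s2 s3 s4 sg p1 p2 p3 p4 mu t1 t2 t3) (k1 : CapP p1 s1) (k2 : CapP p2 s2) (k3 : CapP p3 s3) (k4 : CapP p4 s4) (e1 : sg = 0) (e2 : mu = 0)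
    (h0 : (2/25:ℝ) ≤ s2) (h1 : (1/100:ℝ) ≤ s4) (h2 : s4 ≤ (1/25:ℝ)) (h3 : (2/25:ℝ) ≤ t1) (h4 : (11/100:ℝ) ≤ t2) : False := by
  obtain ⟨o1, o2, o3, o4, o5, o6, o7, o8, o9, o10, o11, o12, o13, o14, o15, o16, o17, o18, o19⟩ := D.lin
  have g0 : s1 ≤ (39789/250000:ℝ) := by have := (D.c1.glob (by norm_num)).2.2.2; linarith only [this]
  have L1 : (2/25:ℝ) ≤ s1 := by linarith only [o1, o2, o3, o5, o7, o8, o9, o11, o12, o13, o15, o16, o17, o18, o19, o4, g0, h0, h1, h2, h3, h4]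
  have U1 : s1 ≤ (39789/250000:ℝ) := by linarith only [o1, o2, o3, o5, o7, o8, o9, o11, o12, o13, o15, o16, o17, o18, o19, o4, g0, h0, h1, h2, h3, h4]
  have L2 : (2/25:ℝ) ≤ s2 := by linarith only [o1, o2, o3, o5, o7, o8, o9, o11, o12, o13, o15, o16, o17, o18, o19, o4, g0, h0, h1, h2, h3, h4]
  have U2 : s2 ≤ (39789/250000:ℝ) := by linarith only [o1, o2, o3, o5, o7, o8, o9, o11, o12, o13, o15, o16, o17, o18, o19, o4, g0, h0, h1, h2, h3, h4]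
  have L3 : (1/100:ℝ) ≤ s3 := by linarith only [o1, o2, o3, o5, o7, o8, o9, o11, o12, o13, o15, o16, o17, o18, o19, o4, g0, h0, h1, h2, h3, h4]
  have U3 : s3 ≤ (39789/250000:ℝ) := by linarith only [o1, o2, o3, o5, o7, o8, o9, o11, o12, o13, o15, o16, o17, o18, o19, o4, g0, h0, h1, h2, h3, h4]
  have L4 : (1/100:ℝ) ≤ s4 := by linarith only [o1, o2, o3, o5, o7, o8, o9, o11, o12, o13, o15, o16, o17, o18, o19, o4, g0, h0, h1, h2, h3, h4]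
  have U4 : s4 ≤ (1/25:ℝ) := by linarith only [o1, o2, o3, o5, o7, o8, o9, o11, o12, o13, o15, o16, o17, o18, o19, o4, g0, h0, h1, h2, h3, h4]
  have A0 : (2/25:ℝ) ≤ t1 := by linarith only [o1, o2, o3, o5, o7, o8, o9, o11, o12, o13, o15, o16, o17, o18, o19, o4, g0, h0, h1, h2, h3, h4]
  have B0 : t1 ≤ (39789/250000:ℝ) := by linarith only [o1, o2, o3, o5, o7, o8, o9, o11, o12, o13, o15, o16, o17, o18, o19, o4, g0, h0, h1, h2, h3, h4]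
  have A1 : (11/100:ℝ) ≤ t2 := by linarith only [o1, o2, o3, o5, o7, o8, o9, o11, o12, o13, o15, o16, o17, o18, o19, o4, g0, h0, h1, h2, h3, h4]
  have B1 : t2 ≤ (39789/250000:ℝ) := by linarith only [o1, o2, o3, o5, o7, o8, o9, o11, o12, o13, o15, o16, o17, o18, o19, o4, g0, h0, h1, h2, h3, h4]
  have A2 : (0:ℝ) ≤ t3 := by linarith only [o1, o2, o3, o5, o7, o8, o9, o11, o12, o13, o15, o16, o17, o18, o19, o4, g0, h0, h1, h2, h3, h4]
  have B2 : t3 ≤ (39789/250000:ℝ) := by linarith only [o1, o2, o3, o5, o7, o8, o9, o11, o12, o13, o15, o16, o17, o18, o19, o4, g0, h0, h1, h2, h3, h4]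
  have m0 := D.tcut _ _ _ _ _ _ (31/100:ℝ) A0 B0 A1 B1 A2 B2
  have m1 := D.tcut _ _ _ _ _ _ (33/100:ℝ) A0 B0 A1 B1 A2 B2
  have l1 := ln4_2 D.c1 k1 L1 U1
  obtain ⟨q11, q12, q13, q14⟩ := cap_lines k1 (by linarith only [U1]) (D.c1.p_ge (by norm_num) (by linarith only [L1]))
  have l2 := ln4_2 D.c2 k2 L2 U2
  obtain ⟨q21, q22, q23, q24⟩ := cap_lines k2 (by linarith only [U2]) (D.c2.p_ge (by norm_num) (by linarith only [L2]))
  have l3 := ln4_7 D.c3 k3 L3 U3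
  have l4 := ln4_8 D.c4 k4 L4 U4
  obtain ⟨g11, g12, g13, -⟩ := D.c1.glob (by norm_num)
  obtain ⟨g21, g22, g23, -⟩ := D.c2.glob (by norm_num)
  obtain ⟨g31, g32, g33, -⟩ := D.c3.glob (by norm_num)
  obtain ⟨g41, g42, g43, -⟩ := D.c4.glob (by norm_num)
  linarith

lemma ln4_9 {p s : ℝ} (h : CellP (3723/1000:ℝ) p s) (hc : CapP p s) (h1 : (1/25:ℝ) ≤ s) (h2 : s ≤ (39789/250000:ℝ)) :
    (931/500:ℝ) * s + (8643/100000:ℝ) ≤ p := by
  obtain ⟨g1, g2, g3, g4⟩ := h.glob (by norm_num)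
  rcases h.pieces (by norm_num) (by norm_num) with ⟨a, b, c, d⟩ | ⟨a, b, c, d⟩ | ⟨a, b, c, d⟩ | ⟨a, b, c, d⟩ | ⟨a, b, c⟩ | ⟨a, b, c⟩ | ⟨a, b, c⟩ | ⟨a, b, c⟩ | ⟨a, b, c⟩ | ⟨a, b, c⟩ | ⟨a, b, c⟩ | a
  · linarith
  · linarith
  · linarith
  · linarith
  · linarith
  · linarith
  · have hq := cap_lines hc (by linarith) (by linarith)
    linarith [hq.1, hq.2.1, hq.2.2.1, hq.2.2.2]
  · have hq := cap_lines hc (by linarith) (by linarith)
    linarith [hq.1, hq.2.1, hq.2.2.1, hq.2.2.2]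
  · have hq := cap_lines hc (by linarith) (by linarith)
    linarith [hq.1, hq.2.1, hq.2.2.1, hq.2.2.2]
  · have hq := cap_lines hc (by linarith) (by linarith)
    linarith [hq.1, hq.2.1, hq.2.2.1, hq.2.2.2]
  · have hq := cap_lines hc (by linarith) (by linarith)
    linarith [hq.1, hq.2.1, hq.2.2.1, hq.2.2.2]
  · have hq := cap_lines hc (by linarith) (by linarith)
    linarith [hq.1, hq.2.1, hq.2.2.1, hq.2.2.2]

lemma leaf4_7 {s1 s2 s3 s4 sg p1 p2 p3 p4 mu t1 t2 t3 : ℝ}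
    (D : Dat (3723/1000:ℝ) (2:ℝ) (0:ℝ) s1 s2 s3 s4 sg p1 p2 p3 p4 mu t1 t2 t3) (k1 : CapP p1 s1) (k2 : CapP p2 s2) (k3 : CapP p3 s3) (k4 : CapP p4 s4) (e1 : sg = 0) (e2 : mu = 0)
    (h0 : (2/25:ℝ) ≤ s2) (h1 : (1/25:ℝ) ≤ s4) : False := by
  obtain ⟨o1, o2, o3, o4, o5, o6, o7, o8, o9, o10, o11, o12, o13, o14, o15, o16, o17, o18, o19⟩ := D.lin
  have g0 : s1 ≤ (39789/250000:ℝ) := by have := (D.c1.glob (by norm_num)).2.2.2; linarith only [this]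
  have L1 : (2/25:ℝ) ≤ s1 := by linarith only [o1, o2, o3, o5, o7, o8, o9, o11, o12, o13, o15, o16, o17, o18, o19, o4, g0, h0, h1]
  have U1 : s1 ≤ (39789/250000:ℝ) := by linarith only [o1, o2, o3, o5, o7, o8, o9, o11, o12, o13, o15, o16, o17, o18, o19, o4, g0, h0, h1]
  have L2 : (2/25:ℝ) ≤ s2 := by linarith only [o1, o2, o3, o5, o7, o8, o9, o11, o12, o13, o15, o16, o17, o18, o19, o4, g0, h0, h1]
  have U2 : s2 ≤ (39789/250000:ℝ) := by linarith only [o1, o2, o3, o5, o7, o8, o9, o11, o12, o13, o15, o16, o17, o18, o19, o4, g0, h0, h1]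
  have L3 : (1/25:ℝ) ≤ s3 := by linarith only [o1, o2, o3, o5, o7, o8, o9, o11, o12, o13, o15, o16, o17, o18, o19, o4, g0, h0, h1]
  have U3 : s3 ≤ (39789/250000:ℝ) := by linarith only [o1, o2, o3, o5, o7, o8, o9, o11, o12, o13, o15, o16, o17, o18, o19, o4, g0, h0, h1]
  have L4 : (1/25:ℝ) ≤ s4 := by linarith only [o1, o2, o3, o5, o7, o8, o9, o11, o12, o13, o15, o16, o17, o18, o19, o4, g0, h0, h1]
  have U4 : s4 ≤ (39789/250000:ℝ) := by linarith only [o1, o2, o3, o5, o7, o8, o9, o11, o12, o13, o15, o16, o17, o18, o19, o4, g0, h0, h1]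
  have l1 := ln4_2 D.c1 k1 L1 U1
  obtain ⟨q11, q12, q13, q14⟩ := cap_lines k1 (by linarith only [U1]) (D.c1.p_ge (by norm_num) (by linarith only [L1]))
  have l2 := ln4_2 D.c2 k2 L2 U2
  obtain ⟨q21, q22, q23, q24⟩ := cap_lines k2 (by linarith only [U2]) (D.c2.p_ge (by norm_num) (by linarith only [L2]))
  have l3 := ln4_9 D.c3 k3 L3 U3
  have l4 := ln4_9 D.c4 k4 L4 U4
  obtain ⟨g11, g12, g13, -⟩ := D.c1.glob (by norm_num)
  obtain ⟨g21, g22, g23, -⟩ := D.c2.glob (by norm_num)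
  obtain ⟨g31, g32, g33, -⟩ := D.c3.glob (by norm_num)
  obtain ⟨g41, g42, g43, -⟩ := D.c4.glob (by norm_num)
  linarith

theorem num4 {s1 s2 s3 s4 sg p1 p2 p3 p4 mu t1 t2 t3 : ℝ}
    (D : Dat (3723/1000:ℝ) (2:ℝ) (0:ℝ) s1 s2 s3 s4 sg p1 p2 p3 p4 mu t1 t2 t3) (k1 : CapP p1 s1) (k2 : CapP p2 s2) (k3 : CapP p3 s3) (k4 : CapP p4 s4) (e1 : sg = 0) (e2 : mu = 0) : False := by
  rcases le_total s2 (2/25:ℝ) with r1 | r1
  · exact leaf4_0 D k1 k2 k3 k4 e1 e2 (by assumption)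
  rcases le_total s4 (1/25:ℝ) with r2 | r2
  · rcases le_total t1 (2/25:ℝ) with r3 | r3
    · rcases le_total s4 (1/50:ℝ) with r4 | r4
      · exact leaf4_1 D k1 k2 k3 k4 e1 e2 (by assumption) (by assumption) (by assumption)
      exact leaf4_2 D k1 k2 k3 k4 e1 e2 (by assumption) (by assumption) (by assumption) (by assumption)
    rcases le_total s4 (1/100:ℝ) with r5 | r5
    · rcases le_total t3 (2/25:ℝ) with r6 | r6
      · exact leaf4_3 D k1 k2 k3 k4 e1 e2 (by assumption) (by assumption) (by assumption) (by assumption)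
      exact leaf4_4 D k1 k2 k3 k4 e1 e2 (by assumption) (by assumption) (by assumption) (by assumption)
    rcases le_total t2 (11/100:ℝ) with r7 | r7
    · exact leaf4_5 D k1 k2 k3 k4 e1 e2 (by assumption) (by assumption) (by assumption) (by assumption) (by assumption)
    exact leaf4_6 D k1 k2 k3 k4 e1 e2 (by assumption) (by assumption) (by assumption) (by assumption) (by assumption)
  exact leaf4_7 D k1 k2 k3 k4 e1 e2 (by assumption) (by assumption)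

end Vale.Agent.P226
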