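import Vale.Agent.P226.G2

/-! Expected maxima of Gaussian linear forms: basic properties, base case, extremal configuration. -/

open MeasureTheory ProbabilityTheory Set Filter Topology Real
open scoped RealInnerProductSpace ENNReal

namespace Vale.Agent.P226

variable {E : Type} [NormedAddCommGroup E] [InnerProductSpace ℝ E] [FiniteDimensional ℝ E]
  [MeasurableSpace E] [BorelSpace E] {ι : Type} [Fintype ι]

noncomputable def MM (v : ι → E) (x : E) : ℝ := ⨆ i, ⟪v i, x⟫
noncomputable def HH (v : ι → E) : ℝ := ∫ x, MM v x ∂stdGaussian E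
noncomputable def F0 : ℝ := 9 / (8 * π)

def Good (E : Type) [NormedAddCommGroup E] [InnerProductSpace ℝ E] [FiniteDimensional ℝ E]
    [MeasurableSpace E] (ι : Type) [Fintype ι] : Prop :=
  ∀ v : ι → E, HH v ^ 2 ≤ F0 * ∑ i, ‖v i‖ ^ 2

lemma F0_pos : 0 < F0 := by unfold F0; positivity

lemma F0_eq : F0 = 9 / 4 * cc ^ 2 := by rw [cc_sq, F0]; field_simp; norm_num

section
omit [FiniteDimensional ℝ E] [MeasurableSpace E] [BorelSpace E]

lemma le_MM (v : ι → E) (x : E) (i : ι) : ⟪v i, x⟫ ≤ MM v x :=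
  le_ciSup (f := fun i => ⟪v i, x⟫) (Finite.bddAbove_range _) i

lemma exists_MM [Nonempty ι] (v : ι → E) (x : E) : ∃ i, ⟪v i, x⟫ = MM v x :=
  exists_eq_ciSup_of_finite

omit [Fintype ι] in
lemma MM_le [Nonempty ι] {v : ι → E} {x : E} {t : ℝ} (h : ∀ i, ⟪v i, x⟫ ≤ t) : MM v x ≤ t :=
  ciSup_le h

lemma abs_MM_le (v : ι → E) (x : E) : |MM v x| ≤ ∑ i, |⟪v i, x⟫| := by
  rcases isEmpty_or_nonempty ι with h | h
  · simp [MM]
  obtain ⟨i, hi⟩ := exists_MM v x
  rw [← hi]
  exact Finset.single_le_sum (f := fun i => |⟪v i, x⟫|) (fun _ _ => abs_nonneg _)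
    (Finset.mem_univ i)

lemma MM_le_add (v w : ι → E) (x : E) : MM v x ≤ MM w x + ∑ i, |⟪v i - w i, x⟫| := by
  rcases isEmpty_or_nonempty ι with h | h
  · simp [MM]
  refine MM_le fun i => ?_
  have h1 := le_MM w x i
  have h2 := Finset.single_le_sum (f := fun i => |⟪v i - w i, x⟫|) (fun _ _ => abs_nonneg _)
    (Finset.mem_univ i)
  have h3 := le_abs_self ⟪v i - w i, x⟫
  simp only [inner_sub_left] at *
  linarith

end

omit [FiniteDimensional ℝ E] in
lemma measurable_MM (v : ι → E) : Measurable (MM v) :=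
  Measurable.iSup fun _ => by fun_prop

lemma integrable_MM (v : ι → E) : Integrable (MM v) (stdGaussian E) :=
  (integrable_finsetSum _ fun i _ => (integrable_inner (v i)).abs).mono'
    (measurable_MM v).aestronglyMeasurable (Eventually.of_forall (abs_MM_le v))

lemma HH_nonneg (v : ι → E) : 0 ≤ HH v := by
  rcases isEmpty_or_nonempty ι with h | h
  · simp [HH, MM]
  obtain ⟨i⟩ := h
  rw [← integral_inner_std (v i)]
  exact integral_mono (integrable_inner _) (integrable_MM v) fun x => le_MM v x i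

lemma HH_le_add (v w : ι → E) : HH v ≤ HH w + 2 * cc * ∑ i, ‖v i - w i‖ := by
  have h1 : HH v ≤ ∫ x, (MM w x + ∑ i, |⟪v i - w i, x⟫|) ∂stdGaussian E :=
    integral_mono (integrable_MM v) ((integrable_MM w).add
      (integrable_finsetSum _ fun i _ => (integrable_inner _).abs)) (MM_le_add v w)
  rw [integral_add (integrable_MM w) (integrable_finsetSum _ fun i _ => (integrable_inner _).abs),
    integral_finsetSum _ fun i _ => (integrable_inner _).abs] at h1
  rw [Finset.mul_sum]
  exact h1.trans (add_le_add le_rfl (Finset.sum_le_sum fun i _ => integral_abs_inner _))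

lemma continuous_HH : Continuous (HH : (ι → E) → ℝ) := by
  refine continuous_iff_continuousAt.2 fun w => ?_
  rw [ContinuousAt, tendsto_iff_norm_sub_tendsto_zero]
  have h : Continuous fun v : ι → E => 2 * cc * ∑ i, ‖v i - w i‖ := by fun_prop
  have h2 := h.tendsto w
  simp only [sub_self, norm_zero, Finset.sum_const_zero, mul_zero] at h2
  refine squeeze_zero (fun _ => norm_nonneg _) (fun v => ?_) h2
  rw [Real.norm_eq_abs, abs_le]
  have h3 := HH_le_add v w
  have h4 := HH_le_add w v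
  simp_rw [norm_sub_rev (w _)] at h4
  constructor <;> linarith

omit [Fintype ι] [BorelSpace E] in
lemma HH_smul (v : ι → E) {t : ℝ} (ht : 0 ≤ t) : HH (t • v) = t * HH v := by
  unfold HH MM
  rw [← integral_const_mul]
  simp_rw [Real.mul_iSup_of_nonneg ht, Pi.smul_apply, inner_smul_left, conj_trivial]

lemma HH_shift [Nonempty ι] (v : ι → E) (c : E) : HH (fun i => v i + c) = HH v := by
  have h : ∀ x, MM (fun i => v i + c) x = MM v x + ⟪c, x⟫ := fun x => by
    unfold MM
    rw [ciSup_add (Finite.bddAbove_range _)]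
    simp_rw [inner_add_left]
  unfold HH
  simp_rw [h]
  rw [integral_add (integrable_MM v) (integrable_inner c), integral_inner_std, add_zero]

omit [BorelSpace E] in
/-- splitting an integral along an almost everywhere partition -/
lemma integral_partition {F : Type} [NormedAddCommGroup F] [NormedSpace ℝ F] {B : ι → Set E}
    (hm : ∀ i, MeasurableSet (B i)) (hd : Pairwise (Function.onFun (AEDisjoint (stdGaussian E)) B))
    (hc : (⋃ i, B i) =ᵐ[stdGaussian E] univ) {f : E → F} (hf : Integrable f (stdGaussian E)) :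
    ∑ i, ∫ x in B i, f x ∂stdGaussian E = ∫ x, f x ∂stdGaussian E := by
  rw [← tsum_fintype (L := SummationFilter.unconditional ι), ← integral_iUnion_ae
    (fun i => (hm i).nullMeasurableSet) hd hf.integrableOn, setIntegral_congr_set hc,
    Measure.restrict_univ]

lemma partition_le {κ : Type} [Fintype κ] {B : ι → Set E}
    (hm : ∀ i, MeasurableSet (B i)) (hd : Pairwise (Function.onFun (AEDisjoint (stdGaussian E)) B))
    (hc : (⋃ i, B i) =ᵐ[stdGaussian E] univ) (w : κ → E) (ρ : ι → κ) :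
    ∑ i, ⟪w (ρ i), ∫ x in B i, x ∂stdGaussian E⟫ ≤ HH w := by
  rw [HH, ← integral_partition hm hd hc (integrable_MM w)]
  refine Finset.sum_le_sum fun i _ => ?_
  rw [← integral_inner IsGaussian.integrable_fun_id.restrict]
  exact integral_mono (integrable_inner _).restrict (integrable_MM w).restrict
    fun x => le_MM w x _

lemma good_three : Good E (Fin 3) := by
  intro v
  have hneg : HH v = ∫ x, MM v (-x) ∂stdGaussian E := by
    have := stdGaussian_map (LinearIsometryEquiv.neg ℝ (E := E))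
    rw [HH, ← this, integral_map (by fun_prop) (measurable_MM v).aestronglyMeasurable, this]
    rfl
  have hi : Integrable (fun x => MM v (-x)) (stdGaussian E) := by
    have := stdGaussian_map (LinearIsometryEquiv.neg ℝ (E := E))
    have h2 := integrable_MM v
    rw [← this] at h2
    exact h2.comp_measurable (by fun_prop)
  have hpt : ∀ x, MM v x + MM v (-x) ≤
      (|⟪v 0 - v 1, x⟫| + |⟪v 0 - v 2, x⟫| + |⟪v 1 - v 2, x⟫|) / 2 := by
    intro x
    obtain ⟨i, hi⟩ := exists_MM v x
    obtain ⟨j, hj⟩ := exists_MM v (-x)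
    rw [← hi, ← hj, inner_neg_right]
    simp only [inner_sub_left]
    have a1 := abs_le.1 (le_refl |⟪v 0, x⟫ - ⟪v 1, x⟫|)
    have a2 := abs_le.1 (le_refl |⟪v 0, x⟫ - ⟪v 2, x⟫|)
    have a3 := abs_le.1 (le_refl |⟪v 1, x⟫ - ⟪v 2, x⟫|)
    fin_cases i <;> fin_cases j <;> simp only [Fin.zero_eta, Fin.mk_one, Fin.reduceFinMk] <;>
      linarith [a1.1, a1.2, a2.1, a2.2, a3.1, a3.2]
  have h1 : ∫ x, (MM v x + MM v (-x)) ∂stdGaussian E ≤ ∫ x,
      (|⟪v 0 - v 1, x⟫| + |⟪v 0 - v 2, x⟫| + |⟪v 1 - v 2, x⟫|) / 2 ∂stdGaussian E :=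
    integral_mono ((integrable_MM v).add hi) ((((integrable_inner _).abs.add
      (integrable_inner _).abs).add (integrable_inner _).abs).div_const 2) hpt
  have hi2 : Integrable (fun x => |⟪v 0 - v 1, x⟫| + |⟪v 0 - v 2, x⟫|) (stdGaussian E) :=
    (integrable_inner _).abs.add (integrable_inner _).abs
  rw [integral_add (integrable_MM v) hi, ← hneg, integral_div, integral_add
    hi2 (integrable_inner _).abs,
    integral_add (integrable_inner _).abs (integrable_inner _).abs] at h1
  have b1 := integral_abs_inner (v 0 - v 1)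
  have b2 := integral_abs_inner (v 0 - v 2)
  have b3 := integral_abs_inner (v 1 - v 2)
  have h2 : HH v ≤ cc / 2 * (‖v 0 - v 1‖ + ‖v 0 - v 2‖ + ‖v 1 - v 2‖) := by
    unfold HH at *; linarith
  have h3 : ‖v 0 - v 1‖ ^ 2 + ‖v 0 - v 2‖ ^ 2 + ‖v 1 - v 2‖ ^ 2 ≤
      3 * (‖v 0‖ ^ 2 + ‖v 1‖ ^ 2 + ‖v 2‖ ^ 2) := by
    have := sq_nonneg ‖v 0 + v 1 + v 2‖
    rw [norm_add_sq_real, norm_add_sq_real, inner_add_left] at this
    rw [norm_sub_sq_real, norm_sub_sq_real, norm_sub_sq_real]
    linarith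
  rw [F0_eq, Fin.sum_univ_three]
  refine (pow_le_pow_left₀ (HH_nonneg v) h2 2).trans ?_
  have h4 : (‖v 0 - v 1‖ + ‖v 0 - v 2‖ + ‖v 1 - v 2‖) ^ 2 ≤
      9 * (‖v 0‖ ^ 2 + ‖v 1‖ ^ 2 + ‖v 2‖ ^ 2) := by
    nlinarith [sq_nonneg (‖v 0 - v 1‖ - ‖v 0 - v 2‖), sq_nonneg (‖v 0 - v 1‖ - ‖v 1 - v 2‖),
      sq_nonneg (‖v 0 - v 2‖ - ‖v 1 - v 2‖)]
  rw [mul_pow]
  nlinarith [sq_nonneg cc]

lemma good_small (h : Fintype.card ι ≤ 3) : Good E ι := by
  classical
  intro v
  rcases isEmpty_or_nonempty ι with he | he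
  · simp [HH, MM]
  obtain ⟨e⟩ : Nonempty (ι ↪ Fin 3) := Function.Embedding.nonempty_of_card_le (by simpa using h)
  set w : Fin 3 → E := Function.extend e v 0 with hw
  have hwe : ∀ i, w (e i) = v i := fun i => e.injective.extend_apply _ _ i
  have h1 : HH v ≤ HH w :=
    integral_mono (integrable_MM v) (integrable_MM w) fun x =>
      MM_le fun i => hwe i ▸ le_MM w x (e i)
  have h2 : ∑ i, ‖v i‖ ^ 2 = ∑ j, ‖w j‖ ^ 2 := by
    refine Fintype.sum_of_injective e e.injective _ _ (fun j hj => ?_) (fun i => by rw [hwe])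
    rw [hw, Function.extend_apply' _ _ _ (by simpa using hj)]
    simp
  rw [h2]
  exact (pow_le_pow_left₀ (HH_nonneg v) h1 2).trans (good_three w)

def cell (z : ι → E) (i : ι) : Set E := {x | ∀ j, j ≠ i → ⟪z j, x⟫ < ⟪z i, x⟫}

omit [FiniteDimensional ℝ E] [MeasurableSpace E] [BorelSpace E] in
lemma isOpen_cell (z : ι → E) (i : ι) : IsOpen (cell z i) := by
  have : cell z i = ⋂ j, ⋂ (_ : j ≠ i), {x | ⟪z j, x⟫ < ⟪z i, x⟫} := by
    ext x; simp [cell]
  rw [this]
  exact isOpen_iInter_of_finite fun j => isOpen_iInter_of_finite fun _ =>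
    isOpen_lt (by fun_prop) (by fun_prop)

omit [Fintype ι] [BorelSpace E] in
lemma cell_disjoint (z : ι → E) :
    Pairwise (Function.onFun (AEDisjoint (stdGaussian E)) (cell z)) := by
  intro i j hij
  refine Disjoint.aedisjoint (Set.disjoint_left.2 fun x hi hj => ?_)
  exact lt_asymm (hi j hij.symm) (hj i hij)

lemma cell_cover [Nonempty ι] {z : ι → E} (hz : Function.Injective z) :
    (⋃ i, cell z i) =ᵐ[stdGaussian E] univ := by
  have h : ∀ᵐ x ∂stdGaussian E, ∀ i j, i ≠ j → ⟪z i - z j, x⟫ ≠ 0 := by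
    rw [ae_all_iff]; intro i
    rw [ae_all_iff]; intro j
    by_cases hij : i = j
    · simp [hij]
    · have := null_hyperplane (sub_ne_zero.2 (hz.ne hij))
      filter_upwards [measure_eq_zero_iff_ae_notMem.1 this] with x hx _ using hx
  rw [ae_eq_univ, measure_eq_zero_iff_ae_notMem]
  filter_upwards [h] with x hx
  obtain ⟨i, hi⟩ := exists_MM z x
  simp only [mem_compl_iff, not_not, mem_iUnion]
  refine ⟨i, fun j hj => lt_of_le_of_ne (hi ▸ le_MM z x j) fun h' => hx j i hj ?_⟩
  rw [inner_sub_left, h', sub_self]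

lemma HH_eq_sum [Nonempty ι] {z : ι → E} (hz : Function.Injective z) :
    HH z = ∑ i, ⟪z i, ∫ x in cell z i, x ∂stdGaussian E⟫ := by
  rw [HH, ← integral_partition (fun i => (isOpen_cell z i).measurableSet) (cell_disjoint z)
    (cell_cover hz) (integrable_MM z)]
  refine Finset.sum_congr rfl fun i _ => ?_
  rw [← integral_inner IsGaussian.integrable_fun_id.restrict]
  refine setIntegral_congr_fun (isOpen_cell z i).measurableSet fun x hx => ?_
  refine le_antisymm (MM_le fun j => ?_) (le_MM z x i)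
  by_cases hj : j = i
  · rw [hj]
  · exact (hx j hj).le

/-- An extremal counterexample. -/
structure Crit (z : ι → E) : Prop where
  big : F0 < ∑ i, ‖z i‖ ^ 2
  val : HH z = ∑ i, ‖z i‖ ^ 2
  ih : ∀ S : Finset ι, S ≠ Finset.univ → Good E S
  inj : Function.Injective z
  mom : ∀ i, ∫ x in cell z i, x ∂stdGaussian E = z i
  neg : ∀ i j, i ≠ j → ⟪z i, z j⟫ < 0
  sum : ∑ i, z i = 0

lemma exists_crit (ih : ∀ S : Finset ι, S ≠ Finset.univ → Good E S) (h : ¬ Good E ι) :
    ∃ z : ι → E, Crit z := by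
  classical
  unfold Good at h
  push Not at h
  obtain ⟨v0, hv0⟩ := h
  have scale : ∀ v : ι → E, 0 < ∑ i, ‖v i‖ ^ 2 →
      ∑ i, ‖((√(∑ i, ‖v i‖ ^ 2))⁻¹ • v) i‖ ^ 2 = 1 := by
    intro v hv
    simp only [Pi.smul_apply, norm_smul, mul_pow, ← Finset.mul_sum, Real.norm_eq_abs, sq_abs,
      inv_pow, Real.sq_sqrt hv.le]
    exact inv_mul_cancel₀ hv.ne'
  have zero : ∀ v : ι → E, ∑ i, ‖v i‖ ^ 2 = 0 → HH v = 0 := by
    intro v hv
    have : v = (0:ℝ) • v := by
      ext i
      have := (Finset.sum_eq_zero_iff_of_nonneg fun i _ => sq_nonneg ‖v i‖).1 hv i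
        (Finset.mem_univ i)
      simpa using this
    rw [this, HH_smul _ le_rfl, zero_mul]
  have hN0 : 0 < ∑ i, ‖v0 i‖ ^ 2 := by
    refine lt_of_le_of_ne (by positivity) fun h => ?_
    rw [zero v0 h.symm, ← h] at hv0
    simp at hv0
  set K : Set (ι → E) := {v | ∑ i, ‖v i‖ ^ 2 = 1} with hK
  have Kc : IsCompact K := by
    refine Metric.isCompact_of_isClosed_isBounded (isClosed_eq (by fun_prop) continuous_const) ?_
    refine (Metric.isBounded_closedBall (x := (0 : ι → E)) (r := 1)).subset fun v hv => ?_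
    rw [mem_closedBall_zero_iff, pi_norm_le_iff_of_nonneg zero_le_one]
    intro i
    have := Finset.single_le_sum (f := fun i => ‖v i‖ ^ 2) (fun _ _ => sq_nonneg _)
      (Finset.mem_univ i)
    rw [show ∑ i, ‖v i‖ ^ 2 = 1 from hv] at this
    exact (sq_le_one_iff₀ (norm_nonneg _)).1 this
  obtain ⟨u, hu, hmax⟩ := Kc.exists_isMaxOn ⟨_, scale v0 hN0⟩ continuous_HH.continuousOn
  have hu1 : ∑ i, ‖u i‖ ^ 2 = 1 := hu
  set h := HH u with hh
  have h0 : 0 ≤ h := HH_nonneg u
  have all : ∀ w : ι → E, HH w ^ 2 ≤ h ^ 2 * ∑ i, ‖w i‖ ^ 2 := by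
    intro w
    rcases (show 0 ≤ ∑ i, ‖w i‖ ^ 2 by positivity).eq_or_lt with h1 | h1
    · rw [zero w h1.symm, ← h1]; simp
    have h2 : HH ((√(∑ i, ‖w i‖ ^ 2))⁻¹ • w) ≤ h := hmax (scale w h1)
    have h3 : 0 < √(∑ i, ‖w i‖ ^ 2) := Real.sqrt_pos.2 h1
    rw [HH_smul _ (by positivity), inv_mul_le_iff₀ h3] at h2
    refine (pow_le_pow_left₀ (HH_nonneg w) h2 2).trans (le_of_eq ?_)
    rw [mul_pow, Real.sq_sqrt h1.le, mul_comm]
  set z : ι → E := h • u with hz
  have hF : ∑ i, ‖z i‖ ^ 2 = h ^ 2 := by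
    simp only [hz, Pi.smul_apply, norm_smul, mul_pow, ← Finset.mul_sum, Real.norm_eq_abs, sq_abs,
      hu1, mul_one]
  have hval : HH z = h ^ 2 := by rw [hz, HH_smul _ h0, sq]
  have hbig : F0 < h ^ 2 := lt_of_mul_lt_mul_right (hv0.trans_le (all v0)) hN0.le
  have hF0 := F0_pos
  have hne : Nonempty ι := by
    by_contra hn
    rw [not_nonempty_iff] at hn
    simp at hN0
  have herase : ∀ j : ι, Finset.univ.erase j ≠ Finset.univ := fun j hj => by
    have : j ∈ Finset.univ.erase j := hj.symm ▸ Finset.mem_univ j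
    simp at this
  have hinj : Function.Injective z := by
    intro i j hij
    by_contra hne'
    have h1 := ih _ (herase j) (fun l => z l)
    have h2 : HH z ≤ HH (fun l : Finset.univ.erase j => z l) := by
      refine integral_mono (integrable_MM _) (integrable_MM _) fun x => MM_le fun l => ?_
      by_cases hl : l = j
      · rw [hl, ← hij]
        exact le_MM (fun l : Finset.univ.erase j => z l) x ⟨i, by simpa using hne'⟩
      · exact le_MM (fun l : Finset.univ.erase j => z l) x ⟨l, by simpa using hl⟩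
    have h3 : ∑ l : Finset.univ.erase j, ‖z l‖ ^ 2 ≤ h ^ 2 := by
      rw [Finset.sum_coe_sort (Finset.univ.erase j) (fun l => ‖z l‖ ^ 2), ← hF]
      exact Finset.sum_le_sum_of_subset_of_nonneg (Finset.erase_subset _ _)
        fun _ _ _ => sq_nonneg _
    have h4 := pow_le_pow_left₀ (HH_nonneg z) h2 2
    rw [hval] at h4
    nlinarith
  set ζ : ι → E := fun i => ∫ x in cell z i, x ∂stdGaussian E with hζ
  have hm := fun i => (isOpen_cell z i).measurableSet
  have hmom : ∀ i, ζ i = z i := by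
    have h1 : ∑ i, ‖ζ i‖ ^ 2 ≤ HH ζ := by
      have := partition_le hm (cell_disjoint z) (cell_cover hinj) ζ id
      simpa [hζ, real_inner_self_eq_norm_sq] using this
    have h2 := all ζ
    have h3 : ∑ i, ‖ζ i‖ ^ 2 ≤ h ^ 2 := by
      have h5 : 0 ≤ ∑ i, ‖ζ i‖ ^ 2 := by positivity
      have h4 := pow_le_pow_left₀ h5 h1 2
      by_contra hc
      push Not at hc
      nlinarith
    have h4 := HH_eq_sum hinj
    have h5 : ∑ i, ‖z i - ζ i‖ ^ 2 = 0 := by
      refine le_antisymm ?_ (by positivity)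
      simp_rw [norm_sub_sq_real]
      rw [Finset.sum_add_distrib, Finset.sum_sub_distrib, ← Finset.mul_sum, ← h4, hval, hF]
      linarith
    intro i
    have := (Finset.sum_eq_zero_iff_of_nonneg fun i _ => sq_nonneg ‖z i - ζ i‖).1 h5 i
      (Finset.mem_univ i)
    simp only [ne_eq, OfNat.ofNat_ne_zero, not_false_eq_true, pow_eq_zero_iff, norm_eq_zero] at this
    exact (sub_eq_zero.1 this).symm
  refine ⟨z, by rw [hF]; exact hbig, by rw [hF, hval], ih, hinj, hmom, fun i j hij => ?_, ?_⟩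
  · set w : ι → E := fun l => if l = i then z i + z j else z l with hw
    have hi : i ∈ Finset.univ.erase j := by simpa using hij
    have h1 := ih _ (herase j) (fun l => w l)
    have h2 := partition_le hm (cell_disjoint z) (cell_cover hinj)
      (fun l : Finset.univ.erase j => w l)
      (fun l => if hl : l = j then ⟨i, hi⟩ else ⟨l, by simpa using hl⟩)
    have e0 : ∀ f : ι → ℝ, ∑ l, f l = f j + (f i + ∑ l ∈ (Finset.univ.erase j).erase i, f l) :=
      fun f => by rw [Finset.add_sum_erase _ _ hi, Finset.add_sum_erase _ _ (Finset.mem_univ j)]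
    have e1 : ∑ l : Finset.univ.erase j, ‖w l‖ ^ 2 = h ^ 2 + 2 * ⟪z i, z j⟫ := by
      rw [Finset.sum_coe_sort (Finset.univ.erase j) (fun l => ‖w l‖ ^ 2),
        ← Finset.add_sum_erase _ _ hi, ← hF, e0]
      have : ∑ l ∈ (Finset.univ.erase j).erase i, ‖w l‖ ^ 2 =
          ∑ l ∈ (Finset.univ.erase j).erase i, ‖z l‖ ^ 2 :=
        Finset.sum_congr rfl fun l hl => by simp [hw, (Finset.mem_erase.1 hl).1]
      rw [this]
      simp only [hw, if_true, norm_add_sq_real]
      ring
    have e2 : ∑ l, ⟪(fun l : Finset.univ.erase j => w l)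
        ((fun l => if hl : l = j then ⟨i, hi⟩ else ⟨l, by simpa using hl⟩) l),
        ∫ x in cell z l, x ∂stdGaussian E⟫ = h ^ 2 + 2 * ⟪z i, z j⟫ := by
      rw [← hF, e0, e0 (fun l => ‖z l‖ ^ 2)]
      have : ∑ l ∈ (Finset.univ.erase j).erase i, ⟪(fun l : Finset.univ.erase j => w l)
          ((fun l => if hl : l = j then ⟨i, hi⟩ else ⟨l, by simpa using hl⟩) l),
          ∫ x in cell z l, x ∂stdGaussian E⟫ =
          ∑ l ∈ (Finset.univ.erase j).erase i, ‖z l‖ ^ 2 := by
        refine Finset.sum_congr rfl fun l hl => ?_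
        have hl1 := (Finset.mem_erase.1 hl).1
        have hl2 := (Finset.mem_erase.1 (Finset.mem_erase.1 hl).2).1
        have := hmom l
        simp only [hζ] at this
        simp [hw, hl1, hl2, this]
      rw [this]
      have t1 := hmom i
      have t2 := hmom j
      simp only [hζ] at t1 t2
      simp only [hw, t1, t2, hij, dite_true, dite_false, if_true, inner_add_left,
        real_inner_self_eq_norm_sq, real_inner_comm (z i) (z j)]
      ring
    rw [e2] at h2
    rw [e1] at h1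
    by_contra hc
    push Not at hc
    have h4 := pow_le_pow_left₀ (by positivity) h2 2
    nlinarith
  · have := integral_partition hm (cell_disjoint z) (cell_cover hinj)
      (IsGaussian.integrable_fun_id (μ := stdGaussian E))
    rw [integral_id_stdGaussian] at this
    rw [← this]
    exact Finset.sum_congr rfl fun i _ => (hmom i).symm

end Vale.Agent.P226
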