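import Vale.Agent.P226.S1

/-! Deletion inequalities for the extremal configuration. -/

open MeasureTheory ProbabilityTheory Set Filter Topology Real
open scoped RealInnerProductSpace ENNReal

namespace Vale.Agent.P226

variable {E : Type} [NormedAddCommGroup E] [InnerProductSpace ℝ E] [FiniteDimensional ℝ E]
  [MeasurableSpace E] [BorelSpace E] {ι : Type} [Fintype ι] [DecidableEq ι] {z : ι → E}

omit [BorelSpace E] [DecidableEq ι] in
lemma Crit.row (h : Crit z) (i : ι) : ∑ j, ⟪z i, z j⟫ = 0 := by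
  rw [← inner_sum, h.sum, inner_zero_right]

omit [BorelSpace E] [DecidableEq ι] in
lemma Crit.laplace (h : Crit z) (μ : ι → ℝ) :
    2 * ‖∑ l, μ l • z l‖ ^ 2 = ∑ l, ∑ m, -⟪z l, z m⟫ * (μ l - μ m) ^ 2 := by
  have e1 : ‖∑ l, μ l • z l‖ ^ 2 = ∑ l, ∑ m, μ l * μ m * ⟪z l, z m⟫ := by
    rw [← real_inner_self_eq_norm_sq, sum_inner]
    refine Finset.sum_congr rfl fun l _ => ?_
    rw [inner_sum]
    refine Finset.sum_congr rfl fun m _ => ?_
    rw [inner_smul_left, inner_smul_right]; simp; ring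
  have e2 : ∑ l, ∑ m, μ l ^ 2 * ⟪z l, z m⟫ = 0 := by
    simp_rw [← Finset.mul_sum, h.row]; simp
  have e3 : ∑ l, ∑ m, μ m ^ 2 * ⟪z l, z m⟫ = 0 := by
    rw [Finset.sum_comm]
    simp_rw [real_inner_comm (z _) (z _)]
    exact e2
  have e4 : ∑ l, ∑ m, -⟪z l, z m⟫ * (μ l - μ m) ^ 2 = 2 * ∑ l, ∑ m, μ l * μ m * ⟪z l, z m⟫
      - ∑ l, ∑ m, μ l ^ 2 * ⟪z l, z m⟫ - ∑ l, ∑ m, μ m ^ 2 * ⟪z l, z m⟫ := by
    simp only [Finset.mul_sum, ← Finset.sum_sub_distrib]
    refine Finset.sum_congr rfl fun l _ => Finset.sum_congr rfl fun m _ => by ring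
  rw [e4, e1, e2, e3]; ring

omit [BorelSpace E] in
lemma Crit.term_nonneg (h : Crit z) (μ : ι → ℝ) (l m : ι) :
    0 ≤ -⟪z l, z m⟫ * (μ l - μ m) ^ 2 := by
  by_cases hlm : l = m
  · simp [hlm]
  · exact mul_nonneg (by linarith [h.neg l m hlm]) (sq_nonneg _)

omit [BorelSpace E] in
lemma Crit.li (h : Crit z) (i : ι) :
    LinearIndependent ℝ (fun j : {j // j ≠ i} => z i - z j) := by
  rw [Fintype.linearIndependent_iff]
  intro g hg
  set μ : ι → ℝ := fun l => if hl : l = i then ∑ j, g j else -g ⟨l, hl⟩ with hμ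
  have h1 : ∑ l, μ l • z l = 0 := by
    rw [← hg, Fintype.sum_eq_add_sum_subtype_ne _ i]
    simp only [hμ, dite_true, smul_sub, Finset.sum_sub_distrib, Finset.sum_smul]
    rw [sub_eq_add_neg, ← Finset.sum_neg_distrib]
    congr 1
    refine Finset.sum_congr rfl fun j _ => ?_
    rw [dif_neg j.2, neg_smul]
  have h2 := h.laplace μ
  rw [h1, norm_zero] at h2
  have h3 : ∀ l, μ l = μ i := by
    intro l
    by_contra hl
    have hli : l ≠ i := fun h' => hl (by rw [h'])
    have h4 := (Finset.sum_eq_zero_iff_of_nonneg fun l _ =>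
      Finset.sum_nonneg fun m _ => h.term_nonneg μ l m).1 (by linarith) l (Finset.mem_univ _)
    have h5 := (Finset.sum_eq_zero_iff_of_nonneg fun m _ => h.term_nonneg μ l m).1 h4 i
      (Finset.mem_univ _)
    have h6 := h.neg l i hli
    have h7 : 0 < (μ l - μ i) ^ 2 := by have := sub_ne_zero.2 hl; positivity
    nlinarith
  have h4 : ∀ j : {j // j ≠ i}, g j = -∑ j, g j := by
    intro j
    have := h3 j
    simp only [hμ, dif_neg j.2, dite_true] at this
    linarith
  have h5 : ∑ j, g j = 0 := by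
    have h6 : ∑ j, g j = ∑ _j : {j // j ≠ i}, -∑ j, g j := Finset.sum_congr rfl fun j _ => h4 j
    simp only [Finset.sum_const, nsmul_eq_mul] at h6
    have h7 : (0:ℝ) ≤ (Finset.univ : Finset {j // j ≠ i}).card := Nat.cast_nonneg _
    by_contra hc
    have : (1 + ((Finset.univ : Finset {j // j ≠ i}).card : ℝ)) * ∑ j, g j = 0 := by linarith
    rcases mul_eq_zero.1 this with h8 | h8
    · linarith
    · exact hc h8
  intro j
  rw [h4, h5, neg_zero]

omit [BorelSpace E] in
lemma Crit.exists_u (h : Crit z) (i : ι) : ∃ u : E, ∀ j, j ≠ i → ⟪u, z i - z j⟫ = 1 := by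
  have hli := h.li i
  obtain ⟨g, hg⟩ := LinearMap.exists_extend ((Module.Basis.span hli).constr ℝ (fun _ => (1:ℝ)))
  refine ⟨(InnerProductSpace.toDual ℝ E).symm (LinearMap.toContinuousLinearMap g), fun j hj => ?_⟩
  rw [InnerProductSpace.toDual_symm_apply]
  have := LinearMap.congr_fun hg (Module.Basis.span hli ⟨j, hj⟩)
  rw [Module.Basis.constr_basis, LinearMap.comp_apply, Submodule.subtype_apply,
    Module.Basis.span_apply] at this
  exact this

lemma Crit.del (h : Crit z) (R : Finset ι) (hR : R.Nonempty) (hR' : R ≠ Finset.univ) :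
    HH (fun j : R => z j) ^ 2 ≤
      F0 * (∑ i, ‖z i‖ ^ 2 - ∑ i ∈ Rᶜ, ‖z i‖ ^ 2 - ‖∑ i ∈ Rᶜ, z i‖ ^ 2 / R.card) := by
  have : Nonempty R := hR.to_subtype
  set w := ∑ i ∈ Rᶜ, z i with hw
  have hc : (0:ℝ) < R.card := by exact_mod_cast hR.card_pos
  have h1 := h.ih R hR' (fun j => z j + (R.card : ℝ)⁻¹ • w)
  rw [HH_shift] at h1
  refine h1.trans (le_of_eq ?_)
  congr 1
  have h2 : ∑ j ∈ R, z j = -w := by
    rw [hw, eq_neg_iff_add_eq_zero, Finset.sum_add_sum_compl, h.sum]
  rw [Finset.sum_coe_sort R (fun j => ‖z j + (R.card : ℝ)⁻¹ • w‖ ^ 2),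
    ← Finset.sum_add_sum_compl R (fun i => ‖z i‖ ^ 2)]
  simp_rw [norm_add_sq_real]
  rw [Finset.sum_add_distrib, Finset.sum_add_distrib, ← Finset.mul_sum, ← sum_inner, h2,
    inner_neg_left, inner_smul_right, real_inner_self_eq_norm_sq, norm_smul]
  simp only [Finset.sum_const, nsmul_eq_mul, norm_inv, Real.norm_natCast]
  field_simp
  ring

omit [DecidableEq ι] in
lemma Crit.gain (h : Crit z) (R : Finset ι) {g : E → ℝ} (hg : Integrable g (stdGaussian E))
    (hle : ∀ x, MM z x ≤ MM (fun j : R => z j) x + g x) :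
    ∑ i, ‖z i‖ ^ 2 ≤ HH (fun j : R => z j) + ∫ x, g x ∂stdGaussian E := by
  rw [← h.val, HH, HH, ← integral_add (integrable_MM _) hg]
  exact integral_mono (integrable_MM _) ((integrable_MM _).add hg) hle

/-- Consequence of the Ehrhard inequality for translates of a cell. -/
lemma Crit.tail (h : Crit z) (i : ι) {a : ℝ} (ha : (stdGaussian E).real (cell z i) = Ph a)
    {t : ℝ} (ht : 0 < t) :
    (stdGaussian E).real {x | ∀ j, j ≠ i → t < ⟪z i - z j, x⟫} ≤
      Ph (a - ((Fintype.card ι - 1) / Fintype.card ι / ph a) * t) := by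
  obtain ⟨u, hu⟩ := h.exists_u i
  set κ : ℝ := (Fintype.card ι - 1) / Fintype.card ι with hκ
  have hk : (0:ℝ) < Fintype.card ι := by
    exact_mod_cast Fintype.card_pos_iff.2 ⟨i⟩
  have hui : ⟪u, z i⟫ = κ := by
    have h1 : ∑ j, ⟪u, z i - z j⟫ = Fintype.card ι * ⟪u, z i⟫ := by
      simp_rw [inner_sub_right]
      rw [Finset.sum_sub_distrib, ← inner_sum _ _ u, ← inner_sum, h.sum]
      simp [inner_smul_right, ← Nat.cast_smul_eq_nsmul ℝ]
    rw [← Finset.add_sum_erase _ _ (Finset.mem_univ i), sub_self, inner_zero_right,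
      Finset.sum_congr rfl fun j hj => hu j (Finset.mem_erase.1 hj).1] at h1
    simp only [Finset.sum_const, Finset.card_erase_of_mem (Finset.mem_univ i), Finset.card_univ,
      nsmul_eq_mul, mul_one, zero_add] at h1
    rw [Nat.cast_sub (Fintype.card_pos_iff.2 ⟨i⟩)] at h1
    rw [hκ, eq_div_iff hk.ne']
    push_cast at h1; linarith
  set C : Set (ℝ × E) := {q | ∀ j, j ≠ i → q.1 < ⟪z i - z j, q.2⟫} with hC
  have hO : IsOpen C := by
    have : C = ⋂ j, ⋂ (_ : j ≠ i), {q : ℝ × E | q.1 < ⟪z i - z j, q.2⟫} := by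
      ext x; simp [hC]
    rw [this]
    exact isOpen_iInter_of_finite fun j => isOpen_iInter_of_finite fun _ =>
      isOpen_lt (by fun_prop) (by fun_prop)
  have hV : Convex ℝ C := by
    intro p hp q hq α β hα hβ hαβ j hj
    have h1 := hp j hj
    have h2 := hq j hj
    simp only [Prod.fst_add, Prod.smul_fst, smul_eq_mul, Prod.snd_add, Prod.smul_snd,
      inner_add_right, inner_smul_right]
    rcases hα.eq_or_lt with rfl | hα
    · rw [zero_add] at hαβ; simpa [hαβ] using h2
    · nlinarith [mul_le_mul_of_nonneg_left h2.le hβ, mul_lt_mul_of_pos_left h1 hα]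
  have hS := ehr_std E ℝ C hO hV
  have hcell : {x | ((0:ℝ), x) ∈ C} = cell z i := by
    ext x; simp [hC, cell, inner_sub_left]
  have hp := ph_pos a
  -- every admissible level gives a slope bound
  have key : ∀ s, Ph s < (stdGaussian E).real {x | (t, x) ∈ C} → κ ≤ (a - s) / t * ph a := by
    intro s hs
    have h1 : ∀ r, 0 < r → (stdGaussian E).real {x | (-r, x) ∈ C} ≤ Ph (a + r * ((a - s) / t)) := by
      intro r hr
      by_contra hc
      push Not at hc
      have := hS (x := (t, s)) hs (y := (-r, a + r * ((a - s) / t))) hc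
        (a := r / (t + r)) (b := t / (t + r)) (by positivity) (by positivity)
        (by field_simp; ring)
      simp only [Sym, Prod.smul_mk, Prod.mk_add_mk, smul_eq_mul, mem_ofPred_eq] at this
      rw [show r / (t + r) * t + t / (t + r) * -r = 0 by field_simp; ring,
        show r / (t + r) * s + t / (t + r) * (a + r * ((a - s) / t)) = a by field_simp; ring,
        hcell, ha] at this
      exact lt_irrefl _ this
    have h2 : ∀ r, 0 < r → Real.exp (-(r ^ 2 * ‖u‖ ^ 2) / 2) * (Ph a + r * κ) ≤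
        (stdGaussian E).real {x | (-r, x) ∈ C} := by
      intro r hr
      have h3 := shift_ge (isOpen_cell z i).measurableSet (r • u)
      rw [integral_inner IsGaussian.integrable_fun_id.restrict, h.mom, ha, inner_smul_left, hui,
        norm_smul, mul_pow, Real.norm_eq_abs, sq_abs] at h3
      refine h3.trans (le_of_eq ?_)
      congr 1; ext x
      simp only [hC, cell, mem_ofPred_eq]
      refine forall_congr' fun j => forall_congr' fun hj => ?_
      have := hu j hj
      rw [real_inner_comm, inner_sub_left] at this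
      rw [inner_add_right, inner_add_right, inner_smul_right, inner_smul_right, inner_sub_left]
      constructor <;> intro h' <;> nlinarith
    have hd : HasDerivAt (fun r => Ph (a + r * ((a - s) / t)) -
        Real.exp (-(r ^ 2 * ‖u‖ ^ 2) / 2) * (Ph a + r * κ)) ((a - s) / t * ph a - κ) 0 := by
      have d1 : HasDerivAt (fun r => a + r * ((a - s) / t)) ((a - s) / t) 0 := by
        simpa using ((hasDerivAt_id (0:ℝ)).mul_const ((a - s) / t)).const_add a
      have d2 := (hasDerivAt_Ph _).comp 0 d1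
      have d3 := ((((hasDerivAt_pow 2 (0:ℝ)).mul_const (‖u‖ ^ 2)).neg.div_const 2).exp).mul
        (((hasDerivAt_id (0:ℝ)).mul_const κ).const_add (Ph a))
      refine (d2.sub d3).congr_deriv ?_
      simp; ring
    have := deriv_nonneg_of_right hd (by
      filter_upwards [self_mem_nhdsWithin] with r hr
      have := (h2 r hr).trans (h1 r hr)
      simp; linarith)
    linarith
  by_contra hc
  push Not at hc
  have h1 : ∀ᶠ s in 𝓝 (a - κ / ph a * t), Ph s < (stdGaussian E).real {x | (t, x) ∈ C} :=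
    continuous_Ph.continuousAt.eventually (gt_mem_nhds hc)
  obtain ⟨s, hs, hs'⟩ := ((h1.filter_mono nhdsWithin_le_nhds).and
    (self_mem_nhdsWithin (a := a - κ / ph a * t) (s := Ioi (a - κ / ph a * t)))).exists
  have h2 := key s hs
  have h3 : a - κ / ph a * t < s := hs'
  have h4 : (a - s) / t < κ / ph a := by rw [div_lt_iff₀ ht]; linarith
  rw [lt_div_iff₀ hp] at h4
  linarith

def CellP (K p s : ℝ) : Prop :=
  ∃ a, Ph a = p ∧ 0 ≤ s ∧ s ≤ ph a ^ 2 ∧ (JJ a ≤ 1 / 8 → s ≤ 2 * JJ a - K * JJ a ^ 2)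

lemma F0_bounds : 0.358 < F0 ∧ F0 < 0.3581 := by
  rw [F0_eq]
  have := cc_bounds
  have := cc_pos
  constructor <;> nlinarith

omit [BorelSpace E] [DecidableEq ι] in
lemma Crit.sq_pos (h : Crit z) (hk : 2 ≤ Fintype.card ι) (i : ι) : 0 < ‖z i‖ ^ 2 := by
  obtain ⟨j, hj⟩ := Fintype.exists_ne_of_one_lt_card (by omega) i
  have := h.neg j i hj
  refine pow_pos (norm_pos_iff.2 fun h0 => ?_) 2
  simp [h0] at this

omit [DecidableEq ι] in
lemma Crit.sum_p (h : Crit z) [Nonempty ι] : ∑ i, (stdGaussian E).real (cell z i) = 1 := by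
  have := integral_partition (fun i => (isOpen_cell z i).measurableSet) (cell_disjoint z)
    (cell_cover h.inj) (integrable_const (1:ℝ))
  simpa using this

omit [DecidableEq ι] in
lemma Crit.p_pos (h : Crit z) (hk : 2 ≤ Fintype.card ι) (i : ι) :
    0 < (stdGaussian E).real (cell z i) := by
  refine lt_of_le_of_ne measureReal_nonneg fun h0 => ?_
  have h1 := h.sq_pos hk i
  have h2 : stdGaussian E (cell z i) = 0 := by
    exact (measureReal_eq_zero_iff (measure_ne_top _ _)).1 h0.symm
  rw [← h.mom i, Measure.restrict_eq_zero.2 h2] at h1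
  simp at h1

lemma Crit.cellP (h : Crit z) (hk : 4 ≤ Fintype.card ι) {K : ℝ}
    (hK : K * ((Fintype.card ι - 1) / Fintype.card ι * F0) ≤ 1) (i : ι) :
    CellP K ((stdGaussian E).real (cell z i)) (‖z i‖ ^ 2) := by
  have : Nonempty ι := ⟨i⟩
  obtain ⟨j0, hj0⟩ := Fintype.exists_ne_of_one_lt_card (by omega) i
  have hp1 : (stdGaussian E).real (cell z i) < 1 := by
    have h1 := h.sum_p
    rw [← Finset.add_sum_erase _ _ (Finset.mem_univ i)] at h1
    have h2 := Finset.single_le_sum (f := fun j => (stdGaussian E).real (cell z j))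
      (s := Finset.univ.erase i) (fun _ _ => measureReal_nonneg) (a := j0) (by simpa using hj0)
    have := h.p_pos (by omega) j0
    linarith
  obtain ⟨a, ha⟩ := exists_Ph (h.p_pos (by omega) i) hp1
  refine ⟨a, ha, sq_nonneg _, ?_, fun hJ => ?_⟩
  · have := norm_moment_le ha.symm
    rw [h.mom] at this
    exact pow_le_pow_left₀ (norm_nonneg _) this 2
  set κ : ℝ := (Fintype.card ι - 1) / Fintype.card ι with hκ
  have hk' : (4:ℝ) ≤ Fintype.card ι := by exact_mod_cast hk
  have hκ1 : 3 / 4 ≤ κ := by rw [hκ, le_div_iff₀ (by linarith)]; linarith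
  set R := Finset.univ.erase i with hR
  have hRne : R.Nonempty := ⟨j0, by simpa [hR] using hj0⟩
  have : Nonempty R := hRne.to_subtype
  have h1 := h.del R hRne (fun hj => by
    have : i ∈ R := hj.symm ▸ Finset.mem_univ i
    simp [hR] at this)
  have hc : Rᶜ = {i} := by simp [hR]
  have hcard : (R.card : ℝ) = Fintype.card ι - 1 := by
    rw [hR, Finset.card_erase_of_mem (Finset.mem_univ i), Finset.card_univ,
      Nat.cast_sub (by omega)]; simp
  rw [hc, Finset.sum_singleton, Finset.sum_singleton, hcard] at h1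
  have hi : Integrable (fun x => ⟪z i, x⟫ - MM (fun j : R => z j) x) (stdGaussian E) :=
    (integrable_inner _).sub (integrable_MM _)
  have h2 := h.gain R hi.pos_part (fun x => MM_le fun l => by
    by_cases hl : l = i
    · rw [hl]; linarith [le_max_left (⟪z i, x⟫ - MM (fun j : R => z j) x) 0]
    · have := le_MM (fun j : R => z j) x ⟨l, by simpa [hR] using hl⟩
      linarith [le_max_right (⟪z i, x⟫ - MM (fun j : R => z j) x) 0])
  have hp := ph_pos a
  have h3 := pos_part_le hi (a := a) (k := κ / ph a) (by positivity) (fun t ht => by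
    refine le_trans (measureReal_mono ?_) (h.tail i ha.symm ht)
    intro x hx j hj
    have := le_MM (fun j : R => z j) x ⟨j, by simpa [hR] using hj⟩
    simp only [mem_ofPred_eq] at hx
    rw [inner_sub_left]; linarith)
  have h4 : ps a / (κ / ph a) = JJ a / κ := by unfold JJ; field_simp
  rw [h4] at h3
  set F := ∑ i, ‖z i‖ ^ 2
  set s := ‖z i‖ ^ 2
  set J := JJ a
  have hF := h.big
  have hF0 := F0_bounds
  have hJ0 : 0 < J := JJ_pos a
  have hκ0 : 0 < κ := by linarith
  have h5 : J / κ ≤ 1 / 6 := by rw [div_le_iff₀ hκ0]; linarith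
  have h6 : (F - J / κ) ^ 2 ≤ F0 * (F - s / κ) := by
    refine (pow_le_pow_left₀ (by linarith) (by linarith) 2).trans (h1.trans (le_of_eq ?_))
    rw [hκ]
    have : (Fintype.card ι : ℝ) - 1 ≠ 0 := by linarith
    field_simp; ring
  set y := J / κ with hy
  have hJy : J = κ * y := by rw [hy]; field_simp
  have hy0 : 0 < y := by positivity
  have h7 : F0 * (s / κ) ≤ 2 * F0 * y - y ^ 2 := by
    nlinarith [mul_nonneg (show 0 ≤ F - F0 by linarith) (show 0 ≤ F - 2 * y by linarith)]
  have h8 : s = κ * (s / κ) := by field_simp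
  have h9 : F0 * s ≤ F0 * (2 * J - K * J ^ 2) := by
    rw [h8, hJy]
    nlinarith [mul_le_mul_of_nonneg_left h7 hκ0.le,
      mul_le_mul_of_nonneg_left hK (show 0 ≤ κ * y ^ 2 by positivity)]
  exact le_of_mul_le_mul_left h9 F0_pos

end Vale.Agent.P226
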