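import Vale.Agent.P226.S2

/-! The cubic bound for deleting all small cells at once. -/

open MeasureTheory ProbabilityTheory Set Filter Topology Real
open scoped RealInnerProductSpace ENNReal

namespace Vale.Agent.P226

lemma lint_Ioc {a b : ℝ} {f F : ℝ → ℝ} (hab : a ≤ b) (hf : Continuous f)
    (h0 : ∀ x ∈ Ioc a b, 0 ≤ f x) (hF : ∀ x, HasDerivAt F (f x) x) :
    ∫⁻ x in Ioc a b, ENNReal.ofReal (f x) = ENNReal.ofReal (F b - F a) := by
  rw [← ofReal_integral_eq_lintegral_ofReal (hf.intervalIntegrable a b).1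
    ((ae_restrict_mem measurableSet_Ioc).mono h0), ← intervalIntegral.integral_of_le hab,
    intervalIntegral.integral_eq_sub_of_hasDerivAt (fun x _ => hF x) (hf.intervalIntegrable a b)]

lemma lint_lin {a b k : ℝ} (hk : 0 ≤ k) :
    ∫⁻ s, (Iio b).indicator (fun s => ENNReal.ofReal (k * (s - a))) s ≤
      ENNReal.ofReal (k * max (b - a) 0 ^ 2 / 2) := by
  have h1 : ∫⁻ s, (Iio b).indicator (fun s => ENNReal.ofReal (k * (s - a))) s ≤
      ∫⁻ s in Ioc a b, ENNReal.ofReal (k * (s - a)) := by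
    rw [← lintegral_indicator measurableSet_Ioc]
    refine lintegral_mono fun s => ?_
    by_cases h : s < b
    · rw [indicator_of_mem (show s ∈ Iio b from h)]
      by_cases h' : a < s
      · rw [indicator_of_mem (show s ∈ Ioc a b from ⟨h', h.le⟩)]
      · rw [ENNReal.ofReal_of_nonpos (mul_nonpos_of_nonneg_of_nonpos hk (by linarith))]
        exact zero_le
    · rw [indicator_of_notMem (show s ∉ Iio b from h)]; exact zero_le
  refine h1.trans ?_
  rcases le_total a b with hab | hab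
  · rw [lint_Ioc hab (F := fun s => k * (s - a) ^ 2 / 2) (by fun_prop)
      (fun x hx => mul_nonneg hk (by linarith [hx.1])) (fun x => by
        refine (((((hasDerivAt_id x).sub_const a).pow 2).const_mul k).div_const 2).congr_deriv ?_
        simp; ring), max_eq_left (by linarith)]
    simp
  · rw [Ioc_eq_empty (not_lt.2 hab)]; simp

lemma lint_sq (η : ℝ) :
    ∫⁻ τ in Ioi 0, ENNReal.ofReal (max (η - τ) 0 ^ 2) ≤ ENNReal.ofReal (max η 0 ^ 3 / 3) := by
  have h1 : ∫⁻ τ in Ioi 0, ENNReal.ofReal (max (η - τ) 0 ^ 2) ≤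
      ∫⁻ τ in Ioc 0 η, ENNReal.ofReal ((η - τ) ^ 2) := by
    rw [← lintegral_indicator measurableSet_Ioc, ← lintegral_indicator measurableSet_Ioi]
    refine lintegral_mono fun s => ?_
    by_cases h : 0 < s
    · rw [indicator_of_mem (show s ∈ Ioi 0 from h)]
      by_cases h' : s ≤ η
      · rw [indicator_of_mem (show s ∈ Ioc 0 η from ⟨h, h'⟩), max_eq_left (by linarith)]
      · rw [max_eq_right (by linarith)]; simp
    · rw [indicator_of_notMem (show s ∉ Ioi 0 from h)]; exact zero_le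
  refine h1.trans ?_
  rcases le_total 0 η with hab | hab
  · rw [lint_Ioc hab (F := fun s => -(η - s) ^ 3 / 3) (by fun_prop)
      (fun x hx => sq_nonneg _) (fun x => by
        refine ((((hasDerivAt_id x).const_sub η).pow 3).neg.div_const 3).congr_deriv ?_
        simp), max_eq_left hab]
    refine le_of_eq ?_
    congr 1; ring
  · rw [Ioc_eq_empty (not_lt.2 hab)]; simp

variable {E : Type} [NormedAddCommGroup E] [InnerProductSpace ℝ E] [FiniteDimensional ℝ E]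
  [MeasurableSpace E] [BorelSpace E] {ι : Type} [Fintype ι] [DecidableEq ι] {z : ι → E}

lemma tri_prob {e1 e2 D1 D2 : E} {α δ : ℝ} (h1 : ‖e1‖ = 1) (h2 : ‖e2‖ = 1) {ρ : E → ℝ}
    (hρ : Measurable ρ) (i1 : ∀ x (s : ℝ), ρ (x + s • e1) = ρ x)
    (i2 : ∀ x (s : ℝ), ρ (x + s • e2) = ρ x) (hα : 0 < α) (hδ : 0 < δ) (d11 : ⟪D1, e1⟫ = α)
    (d12 : ⟪D1, e2⟫ = 0) (d22 : ⟪D2, e2⟫ = δ) :
    stdGaussian E {x | 0 < ρ x - ⟪D1, x⟫ ∧ 0 < ρ x - ⟪D2, x⟫ ∧ 0 < ρ x + ⟪D1, x⟫ + ⟪D2, x⟫} ≤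
      ENNReal.ofReal (cc ^ 2 * 9 / (2 * α * δ)) *
        ∫⁻ x, ENNReal.ofReal (max (ρ x) 0 ^ 2) ∂stdGaussian E := by
  have hc := cc_pos
  set A := {x | 0 < ρ x - ⟪D1, x⟫ ∧ 0 < ρ x - ⟪D2, x⟫ ∧ 0 < ρ x + ⟪D1, x⟫ + ⟪D2, x⟫} with hA
  have mA : MeasurableSet A :=
    (measurableSet_lt (g := fun x => ρ x - ⟪D1, x⟫) measurable_const (by fun_prop)).inter
      ((measurableSet_lt (g := fun x => ρ x - ⟪D2, x⟫) measurable_const (by fun_prop)).inter
        (measurableSet_lt (g := fun x => ρ x + ⟪D1, x⟫ + ⟪D2, x⟫) measurable_const (by fun_prop)))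
  set G : E → ℝ≥0∞ := {x | ⟪D1, x⟫ < ρ x}.indicator
    (fun x => ENNReal.ofReal (2 * ρ x + ⟪D1, x⟫)) with hG
  have mG : Measurable G :=
    Measurable.indicator (by fun_prop) (measurableSet_lt (by fun_prop) hρ)
  have s1 : stdGaussian E A ≤ ENNReal.ofReal (cc / δ) * ∫⁻ x, G x ∂stdGaussian E := by
    rw [← lintegral_indicator_one mA, lintegral_resample h2 (measurable_one.indicator mA),
      ← lintegral_const_mul _ mG]
    refine lintegral_mono fun x => ?_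
    refine (g1_le _ ((measurable_one.indicator mA).comp (by fun_prop))).trans ?_
    by_cases hx : ⟪D1, x⟫ < ρ x
    · have : ∫⁻ s : ℝ, A.indicator (1 : E → ℝ≥0∞) (x + (s - ⟪e2, x⟫) • e2) ≤
          ENNReal.ofReal ((2 * ρ x + ⟪D1, x⟫) / δ) := by
        have hl : ∀ s : ℝ, A.indicator (1 : E → ℝ≥0∞) (x + (s - ⟪e2, x⟫) • e2) ≤
            (Ioo (⟪e2, x⟫ - (ρ x + ⟪D1, x⟫ + ⟪D2, x⟫) / δ)
              (⟪e2, x⟫ + (ρ x - ⟪D2, x⟫) / δ)).indicator 1 s := by
          intro s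
          by_cases hs : x + (s - ⟪e2, x⟫) • e2 ∈ A
          · obtain ⟨-, b2, b3⟩ := hs
            rw [i2, inner_add_right, inner_smul_right, d22] at b2
            rw [i2, inner_add_right, inner_add_right, inner_smul_right, inner_smul_right, d22,
              d12] at b3
            rw [indicator_of_mem (s := Ioo _ _)]
            · exact indicator_le_self _ _ _
            · constructor
              · rw [sub_lt_comm, lt_div_iff₀ hδ]; linarith
              · rw [← sub_lt_iff_lt_add', lt_div_iff₀ hδ]; linarith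
          · rw [indicator_of_notMem hs]; exact zero_le
        refine (lintegral_mono hl).trans (le_of_eq ?_)
        rw [lintegral_indicator_one measurableSet_Ioo, Real.volume_Ioo]
        congr 1; ring
      refine (mul_le_mul_right this _).trans (le_of_eq ?_)
      rw [hG, indicator_of_mem (show x ∈ {x | ⟪D1, x⟫ < ρ x} from hx),
        ← ENNReal.ofReal_mul hc.le, ← ENNReal.ofReal_mul (by positivity)]
      congr 1; ring
    · have : ∀ s : ℝ, A.indicator (1 : E → ℝ≥0∞) (x + (s - ⟪e2, x⟫) • e2) = 0 := by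
        intro s
        refine indicator_of_notMem (fun hs => hx ?_) _
        have b1 := hs.1
        rw [i2, inner_add_right, inner_smul_right, d12] at b1
        linarith
      simp [this]
  have s2 : ∫⁻ x, G x ∂stdGaussian E ≤ ENNReal.ofReal (cc * 9 / (2 * α)) *
      ∫⁻ x, ENNReal.ofReal (max (ρ x) 0 ^ 2) ∂stdGaussian E := by
    rw [lintegral_resample h1 mG, ← lintegral_const_mul _ (by fun_prop)]
    refine lintegral_mono fun x => ?_
    refine (g1_le _ (mG.comp (by fun_prop))).trans ?_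
    have hl : ∀ s : ℝ, G (x + (s - ⟪e1, x⟫) • e1) =
        (Iio (⟪e1, x⟫ + (ρ x - ⟪D1, x⟫) / α)).indicator
          (fun s => ENNReal.ofReal (α * (s - (⟪e1, x⟫ - (2 * ρ x + ⟪D1, x⟫) / α)))) s := by
      intro s
      have hiff : x + (s - ⟪e1, x⟫) • e1 ∈ {x | ⟪D1, x⟫ < ρ x} ↔
          s ∈ Iio (⟪e1, x⟫ + (ρ x - ⟪D1, x⟫) / α) := by
        rw [mem_ofPred_eq, i1, inner_add_right, inner_smul_right, d11, mem_Iio,
          ← sub_lt_iff_lt_add' (b := ⟪e1, x⟫), lt_div_iff₀ hα]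
        constructor <;> intro h <;> linarith
      by_cases hs : s ∈ Iio (⟪e1, x⟫ + (ρ x - ⟪D1, x⟫) / α)
      · rw [hG, indicator_of_mem hs, indicator_of_mem (hiff.2 hs), i1, inner_add_right,
          inner_smul_right, d11]
        congr 1; field_simp; ring
      · rw [hG, indicator_of_notMem hs, indicator_of_notMem (fun h => hs (hiff.1 h))]
    simp only [Function.comp_def]
    simp_rw [hl]
    refine (mul_le_mul_right (lint_lin hα.le) _).trans (le_of_eq ?_)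
    rw [← ENNReal.ofReal_mul hc.le, ← ENNReal.ofReal_mul (by positivity)]
    congr 1
    rw [show ⟪e1, x⟫ + (ρ x - ⟪D1, x⟫) / α - (⟪e1, x⟫ - (2 * ρ x + ⟪D1, x⟫) / α) = 3 / α * ρ x by
      field_simp; ring]
    rcases le_total 0 (ρ x) with h | h
    · rw [max_eq_left h, max_eq_left (by positivity)]; field_simp; ring
    · rw [max_eq_right h, max_eq_right (mul_nonpos_of_nonneg_of_nonpos (by positivity) h)]; simp
  refine s1.trans ((mul_le_mul_right s2 _).trans (le_of_eq ?_))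
  rw [← mul_assoc, ← ENNReal.ofReal_mul (by positivity)]
  congr 2; field_simp

lemma tri_gain {e1 e2 D1 D2 : E} {α δ : ℝ} (h1 : ‖e1‖ = 1) (h2 : ‖e2‖ = 1) {η : E → ℝ}
    (hη : Measurable η) (i1 : ∀ x (s : ℝ), η (x + s • e1) = η x)
    (i2 : ∀ x (s : ℝ), η (x + s • e2) = η x) (hα : 0 < α) (hδ : 0 < δ) (d11 : ⟪D1, e1⟫ = α)
    (d12 : ⟪D1, e2⟫ = 0) (d22 : ⟪D2, e2⟫ = δ) :
    ∫⁻ x, ENNReal.ofReal (max (min (η x - ⟪D1, x⟫) (min (η x - ⟪D2, x⟫)
      (η x + ⟪D1, x⟫ + ⟪D2, x⟫))) 0) ∂stdGaussian E ≤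
      ENNReal.ofReal (cc ^ 2 * 3 / (2 * α * δ)) *
        ∫⁻ x, ENNReal.ofReal (max (η x) 0 ^ 3) ∂stdGaussian E := by
  have hc := cc_pos
  rw [lintegral_eq_lintegral_meas_lt _ (f := fun x => max (min (η x - ⟪D1, x⟫)
    (min (η x - ⟪D2, x⟫) (η x + ⟪D1, x⟫ + ⟪D2, x⟫))) 0)
    (Eventually.of_forall fun x => le_max_right _ _) (Measurable.aemeasurable (by fun_prop))]
  have hb : ∀ τ ∈ Ioi (0:ℝ), stdGaussian E {x | τ < max (min (η x - ⟪D1, x⟫) (min (η x - ⟪D2, x⟫)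
      (η x + ⟪D1, x⟫ + ⟪D2, x⟫))) 0} ≤ ENNReal.ofReal (cc ^ 2 * 9 / (2 * α * δ)) *
        ∫⁻ x, ENNReal.ofReal (max (η x - τ) 0 ^ 2) ∂stdGaussian E := by
    intro τ hτ
    refine le_trans (measure_mono ?_) (tri_prob (ρ := fun x => η x - τ) h1 h2 (by fun_prop)
      (fun x s => by simp only [i1]) (fun x s => by simp only [i2]) hα hδ d11 d12 d22)
    intro x hx
    have hτ' : ¬ τ < 0 := not_lt.2 (le_of_lt hτ)
    simp only [mem_ofPred_eq, lt_max_iff, lt_min_iff, hτ', or_false] at hx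
    exact ⟨by linarith [hx.1], by linarith [hx.2.1], by linarith [hx.2.2]⟩
  refine (setLIntegral_mono' measurableSet_Ioi hb).trans ?_
  rw [lintegral_const_mul' _ _ ENNReal.ofReal_ne_top, lintegral_lintegral_swap
    (Measurable.aemeasurable (by fun_prop))]
  refine (mul_le_mul_right (lintegral_mono fun x => lint_sq (η x)) _).trans (le_of_eq ?_)
  rw [← lintegral_const_mul' _ _ ENNReal.ofReal_ne_top,
    ← lintegral_const_mul' _ _ ENNReal.ofReal_ne_top]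
  refine lintegral_congr fun x => ?_
  rw [← ENNReal.ofReal_mul (by positivity), ← ENNReal.ofReal_mul (by positivity)]
  congr 1; ring

lemma det_mono {q11 q12 q22 g11 g12 g22 : ℝ}
    (h : ∀ x y, q11 * x ^ 2 + 2 * q12 * x * y + q22 * y ^ 2 ≤
      g11 * x ^ 2 + 2 * g12 * x * y + g22 * y ^ 2) (h0 : 0 ≤ q11) (hd : 0 < q11 * q22 - q12 ^ 2) :
    q11 * q22 - q12 ^ 2 ≤ g11 * g22 - g12 ^ 2 ∧ 0 < g11 := by
  have h1 : 0 < q11 := by
    refine lt_of_le_of_ne h0 fun h' => ?_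
    rw [← h'] at hd; nlinarith [sq_nonneg q12]
  have h2 : q11 ≤ g11 := by simpa using h 1 0
  have h3 := mul_le_mul_of_nonneg_left (h (-g12) g11) h0
  have h4 : 0 < g11 := by linarith
  refine ⟨?_, h4⟩
  have h5 : (q11 * q22 - q12 ^ 2) * g11 * g11 ≤ q11 * (g11 * g22 - g12 ^ 2) * g11 := by
    nlinarith [sq_nonneg (q11 * g12 - q12 * g11)]
  have h6 := le_of_mul_le_mul_right h5 h4
  have h7 : q11 * (q11 * q22 - q12 ^ 2) ≤ q11 * (g11 * g22 - g12 ^ 2) := by nlinarith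
  exact le_of_mul_le_mul_left h7 h1

omit [BorelSpace E] in
lemma Crit.quad (h : Crit z) (R : Finset ι) (ν : ι → ℝ) {w : E}
    (hw : w ∈ Submodule.span ℝ (z '' (Rᶜ : Finset ι))) :
    ‖∑ l ∈ R, ν l • z l‖ ^ 2 + ∑ l ∈ R, ν l ^ 2 * ⟪z l, ∑ i ∈ Rᶜ, z i⟫ ≤
      ‖∑ l ∈ R, ν l • z l + w‖ ^ 2 := by
  obtain ⟨t, rfl⟩ := (Submodule.mem_span_image_finset_iff_exists_fun' ℝ).1 hw
  set μ : ι → ℝ := fun l => if l ∈ R then ν l else t l with hμ
  have e1 : ∑ l ∈ R, ν l • z l + ∑ i ∈ Rᶜ, t i • z i = ∑ l, μ l • z l := by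
    rw [← Finset.sum_add_sum_compl R]
    congr 1
    · exact Finset.sum_congr rfl fun l hl => by simp [hμ, hl]
    · exact Finset.sum_congr rfl fun l hl => by simp [hμ, Finset.mem_compl.1 hl]
  have e2 := h.laplace μ
  have e3 : ∑ l ∈ R, ∑ m ∈ R, -⟪z l, z m⟫ * (μ l - μ m) ^ 2 ≤
      ∑ l, ∑ m, -⟪z l, z m⟫ * (μ l - μ m) ^ 2 :=
    (Finset.sum_le_sum fun l _ => Finset.sum_le_sum_of_subset_of_nonneg (Finset.subset_univ _)
      fun m _ _ => h.term_nonneg μ l m).trans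
      (Finset.sum_le_sum_of_subset_of_nonneg (Finset.subset_univ _)
        fun l _ _ => Finset.sum_nonneg fun m _ => h.term_nonneg μ l m)
  have e4 : ‖∑ l ∈ R, ν l • z l‖ ^ 2 = ∑ l ∈ R, ∑ m ∈ R, ν l * ν m * ⟪z l, z m⟫ := by
    rw [← real_inner_self_eq_norm_sq, sum_inner]
    refine Finset.sum_congr rfl fun l _ => ?_
    rw [inner_sum]
    refine Finset.sum_congr rfl fun m _ => ?_
    rw [inner_smul_left, inner_smul_right]; simp; ring
  have e5 : ∑ l ∈ R, ν l ^ 2 * ⟪z l, ∑ i ∈ Rᶜ, z i⟫ = -∑ l ∈ R, ∑ m ∈ R, ν l ^ 2 * ⟪z l, z m⟫ := by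
    rw [← Finset.sum_neg_distrib]
    refine Finset.sum_congr rfl fun l _ => ?_
    have := h.row l
    rw [← Finset.sum_add_sum_compl R] at this
    rw [← Finset.mul_sum, inner_sum, ← mul_neg]
    congr 1; linarith
  have e6 : ∑ l ∈ R, ∑ m ∈ R, ν m ^ 2 * ⟪z l, z m⟫ = ∑ l ∈ R, ∑ m ∈ R, ν l ^ 2 * ⟪z l, z m⟫ := by
    rw [Finset.sum_comm]
    simp_rw [real_inner_comm (z _) (z _)]
  have e7 : ∑ l ∈ R, ∑ m ∈ R, -⟪z l, z m⟫ * (μ l - μ m) ^ 2 =
      2 * ∑ l ∈ R, ∑ m ∈ R, ν l * ν m * ⟪z l, z m⟫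
      - ∑ l ∈ R, ∑ m ∈ R, ν l ^ 2 * ⟪z l, z m⟫ - ∑ l ∈ R, ∑ m ∈ R, ν m ^ 2 * ⟪z l, z m⟫ := by
    simp only [Finset.mul_sum, ← Finset.sum_sub_distrib]
    refine Finset.sum_congr rfl fun l hl => Finset.sum_congr rfl fun m hm => ?_
    simp only [hμ, hl, hm, if_true]; ring
  rw [e1, e4, e5]
  linarith

omit [BorelSpace E] in
lemma Crit.omega_le (h : Crit z) (S : Finset ι) : ‖∑ i ∈ S, z i‖ ^ 2 ≤ ∑ i ∈ S, ‖z i‖ ^ 2 := by
  rw [← real_inner_self_eq_norm_sq, sum_inner]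
  refine Finset.sum_le_sum fun i hi => ?_
  rw [inner_sum, ← Finset.add_sum_erase _ _ hi, real_inner_self_eq_norm_sq]
  have : ∑ j ∈ S.erase i, ⟪z i, z j⟫ ≤ 0 :=
    Finset.sum_nonpos fun j hj => (h.neg i j (Finset.mem_erase.1 hj).1.symm).le
  linarith

lemma cube_add_le {a b m : ℝ} (ha : 0 ≤ a) (hb : 0 ≤ b) (hm : 0 < m) :
    (a + b / m) ^ 3 ≤ ((m + 1) / m) ^ 2 * (a ^ 3 + b ^ 3 / m) := by
  have : ((m + 1) / m) ^ 2 * (a ^ 3 + b ^ 3 / m) - (a + b / m) ^ 3 =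
      (a - b) ^ 2 * ((2 * m + 1) * a + (m + 2) * b) / m ^ 2 := by
    field_simp; ring
  have h : 0 ≤ (a - b) ^ 2 * ((2 * m + 1) * a + (m + 2) * b) / m ^ 2 := by positivity
  linarith

omit [Fintype ι] [DecidableEq ι] in
lemma cube_eta (S : Finset ι) (hS : S.Nonempty) (ω : E) {m : ℝ} (hm : 0 < m) :
    ∫⁻ x, ENNReal.ofReal (max (MM (fun i : S => z i) x + ⟪ω, x⟫ / m) 0 ^ 3) ∂stdGaussian E ≤
      ENNReal.ofReal (((m + 1) / m) ^ 2 * (2 * cc * (∑ i ∈ S, ‖z i‖ ^ 3 + ‖ω‖ ^ 3 / m))) := by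
  have : Nonempty S := hS.to_subtype
  have hc := cc_pos
  have hpt : ∀ x, ENNReal.ofReal (max (MM (fun i : S => z i) x + ⟪ω, x⟫ / m) 0 ^ 3) ≤
      ENNReal.ofReal (((m + 1) / m) ^ 2) * (∑ i ∈ S, ENNReal.ofReal (max ⟪z i, x⟫ 0 ^ 3) +
        ENNReal.ofReal m⁻¹ * ENNReal.ofReal (max ⟪ω, x⟫ 0 ^ 3)) := by
    intro x
    obtain ⟨i, hi⟩ := exists_MM (fun i : S => z i) x
    rw [← ENNReal.ofReal_sum_of_nonneg (fun _ _ => by positivity),
      ← ENNReal.ofReal_mul (by positivity),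
      ← ENNReal.ofReal_add (Finset.sum_nonneg fun _ _ => by positivity) (by positivity),
      ← ENNReal.ofReal_mul (by positivity), ← hi]
    refine ENNReal.ofReal_le_ofReal ?_
    have h1 : max (⟪z i, x⟫ + ⟪ω, x⟫ / m) 0 ≤ max ⟪z i, x⟫ 0 + max ⟪ω, x⟫ 0 / m :=
      max_le (add_le_add (le_max_left _ _) (div_le_div_of_nonneg_right (le_max_left _ _) hm.le))
        (by positivity)
    refine (pow_le_pow_left₀ (le_max_right _ _) h1 3).trans
      ((cube_add_le (le_max_right _ _) (le_max_right _ _) hm).trans ?_)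
    have h2 := Finset.single_le_sum (f := fun i => max ⟪z i, x⟫ 0 ^ 3) (s := S)
      (fun _ _ => by positivity) i.2
    rw [div_eq_inv_mul (max ⟪ω, x⟫ 0 ^ 3)]
    gcongr
  refine (lintegral_mono hpt).trans (le_of_eq ?_)
  rw [lintegral_const_mul' _ _ ENNReal.ofReal_ne_top, lintegral_add_left (by fun_prop),
    lintegral_finsetSum _ (fun _ _ => by fun_prop), lintegral_const_mul' _ _ ENNReal.ofReal_ne_top]
  simp_rw [lintegral_cube]
  rw [← ENNReal.ofReal_sum_of_nonneg (fun _ _ => by positivity),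
    ← ENNReal.ofReal_mul (by positivity),
    ← ENNReal.ofReal_add (Finset.sum_nonneg fun _ _ => by positivity) (by positivity),
    ← ENNReal.ofReal_mul (by positivity), ← Finset.mul_sum]
  congr 1; ring

end Vale.Agent.P226
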